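import Crest.Agent.R83.Basic2

/-!
Row 83: basic API. `Basic1`: gradient calculus, `step`, `L²` tools; `Basic2`: test functions,
similarities, divergence; here: the space `IsH`.
-/

set_option autoImplicit false

open MeasureTheory Set Filter Topology Metric
open scoped Gradient ContDiff RealInnerProductSpace ENNReal

namespace Crest.Agent.R83

noncomputable section

/-! ### the space `IsH` -/

lemma Test.isH {U : Set E} {φ : E → ℝ} (h : Test U φ) : IsH U φ (∇ φ) :=
  ⟨h.memLp, h.memLp_grad, fun ε hε => ⟨φ, h, by simp [hε.le], by simp [hε.le]⟩⟩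

lemma integral_sub_sq_le {F : Type*} [NormedAddCommGroup F] {μ : Measure E} {g h k : E → F}
    (hg : MemLp g 2 μ) (hh : MemLp h 2 μ) (hk : MemLp k 2 μ) :
    ∫ x, ‖g x - k x‖ ^ 2 ∂μ ≤ 2 * ∫ x, ‖g x - h x‖ ^ 2 ∂μ + 2 * ∫ x, ‖h x - k x‖ ^ 2 ∂μ := by
  have := integral_norm_add_sq_le (hg.sub hh) (hh.sub hk)
  simpa using this

lemma integral_sub_sq_le' {μ : Measure E} {g h k : E → ℝ}
    (hg : MemLp g 2 μ) (hh : MemLp h 2 μ) (hk : MemLp k 2 μ) :
    ∫ x, (g x - k x) ^ 2 ∂μ ≤ 2 * ∫ x, (g x - h x) ^ 2 ∂μ + 2 * ∫ x, (h x - k x) ^ 2 ∂μ := by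
  have := integral_sub_sq_le hg hh hk
  simpa using this

lemma integral_norm_sq_le_of_bdd {F : Type*} [NormedAddCommGroup F] {g : E → F} {R c : ℝ}
    (h0 : ∀ x, x ∉ closedBall (0 : E) R → g x = 0) (h1 : ∀ x, ‖g x‖ ≤ c) :
    ∫ x, ‖g x‖ ^ 2 ≤ c ^ 2 * (volume (closedBall (0 : E) R)).toReal := by
  have hi : Integrable ((closedBall (0 : E) R).indicator fun _ => c ^ 2) volume :=
    (integrable_indicator_iff measurableSet_closedBall).2
      (integrableOn_const measure_closedBall_lt_top.ne)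
  refine (integral_mono_of_nonneg (Eventually.of_forall fun _ => by positivity) hi
    (Eventually.of_forall fun x => ?_)).trans (le_of_eq ?_)
  · by_cases hx : x ∈ closedBall (0 : E) R
    · simp only [indicator_of_mem hx]
      exact pow_le_pow_left₀ (norm_nonneg _) (h1 x) 2
    · simp [indicator_of_notMem hx, h0 x hx]
  · rw [integral_indicator measurableSet_closedBall]
    simp [mul_comm, Measure.real]

lemma memLp_of_bdd {F : Type*} [NormedAddCommGroup F] {g : E → F} {R c : ℝ}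
    (hg : AEStronglyMeasurable g volume)
    (h0 : ∀ x, x ∉ closedBall (0 : E) R → g x = 0) (h1 : ∀ x, ‖g x‖ ≤ c) : MemLp g 2 volume := by
  have hi : MemLp ((closedBall (0 : E) R).indicator fun _ => c) 2 volume :=
    memLp_indicator_const 2 measurableSet_closedBall c (Or.inr measure_closedBall_lt_top.ne)
  refine hi.of_le hg (Eventually.of_forall fun x => ?_)
  by_cases hx : x ∈ closedBall (0 : E) R
  · simp only [indicator_of_mem hx]
    exact (h1 x).trans (le_abs_self _)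
  · simp [h0 x hx]

namespace IsH

variable {U V : Set E} {u w : E → ℝ} {g h : E → E}

lemma mono (H : IsH U u g) (hUV : U ⊆ V) : IsH V u g :=
  ⟨H.memu, H.memg, fun ε hε => by
    obtain ⟨φ, h1, h2⟩ := H.approx ε hε
    exact ⟨φ, h1.mono hUV, h2⟩⟩

lemma univ (H : IsH U u g) : IsH univ u g := H.mono (subset_univ _)

lemma congr (H : IsH U u g) (hu : ∀ᵐ x, w x = u x) (hg : ∀ᵐ x, h x = g x) : IsH U w h := by
  refine ⟨(memLp_congr_ae hu).2 H.memu, (memLp_congr_ae hg).2 H.memg, fun ε hε => ?_⟩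
  obtain ⟨φ, h1, h2, h3⟩ := H.approx ε hε
  refine ⟨φ, h1, le_trans (le_of_eq (integral_congr_ae ?_)) h2,
    le_trans (le_of_eq (integral_congr_ae ?_)) h3⟩
  · filter_upwards [hu] with x hx
    rw [hx]
  · filter_upwards [hg] with x hx
    rw [hx]

/-- `IsH U` is closed in `L² × L²` -/
lemma of_approx (hu : MemLp u 2 volume) (hg : MemLp g 2 volume)
    (H : ∀ ε : ℝ, 0 < ε → ∃ w h, IsH U w h ∧ ∫ x, (u x - w x) ^ 2 ≤ ε ∧
      ∫ x, ‖g x - h x‖ ^ 2 ≤ ε) : IsH U u g := by
  refine ⟨hu, hg, fun ε hε => ?_⟩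
  obtain ⟨w, h, H1, h2, h3⟩ := H (ε / 4) (by positivity)
  obtain ⟨φ, h4, h5, h6⟩ := H1.approx (ε / 4) (by positivity)
  refine ⟨φ, h4, ?_, ?_⟩
  · linarith [integral_sub_sq_le' hu H1.memu h4.memLp]
  · linarith [integral_sub_sq_le hg H1.memg h4.memLp_grad]

lemma of_tendsto {un : ℕ → E → ℝ} {gn : ℕ → E → E} (hu : MemLp u 2 volume)
    (hg : MemLp g 2 volume) (H : ∀ n, IsH U (un n) (gn n))
    (h1 : Tendsto (fun n => ∫ x, (u x - un n x) ^ 2) atTop (𝓝 0))
    (h2 : Tendsto (fun n => ∫ x, ‖g x - gn n x‖ ^ 2) atTop (𝓝 0)) : IsH U u g := by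
  refine of_approx hu hg fun ε hε => ?_
  obtain ⟨n, h3, h4⟩ := ((h1.eventually (ge_mem_nhds hε)).and (h2.eventually (ge_mem_nhds hε))).exists
  exact ⟨_, _, H n, h3, h4⟩

/-- uniform limits of elements vanishing off a fixed bounded set -/
lemma of_uniform {un : ℕ → E → ℝ} {gn : ℕ → E → E} {K : Set E} {ε : ℕ → ℝ}
    (H : ∀ n, IsH U (un n) (gn n)) (hK : Bornology.IsBounded K)
    (hu : AEStronglyMeasurable u volume) (hg : AEStronglyMeasurable g volume)
    (h0 : ∀ n x, x ∉ K → un n x = u x ∧ gn n x = g x)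
    (h1 : ∀ n x, |u x - un n x| ≤ ε n ∧ ‖g x - gn n x‖ ≤ ε n) (hε : Tendsto ε atTop (𝓝 0)) :
    IsH U u g := by
  obtain ⟨R, hR⟩ := hK.subset_closedBall (0 : E)
  have a0 : ∀ n x, x ∉ closedBall (0 : E) R → u x - un n x = 0 := fun n x hx => by
    rw [(h0 n x fun h => hx (hR h)).1, sub_self]
  have b0 : ∀ n x, x ∉ closedBall (0 : E) R → g x - gn n x = 0 := fun n x hx => by
    rw [(h0 n x fun h => hx (hR h)).2, sub_self]
  have hlim : Tendsto (fun n => ε n ^ 2 * (volume (closedBall (0 : E) R)).toReal) atTop (𝓝 0) := by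
    simpa using (hε.pow 2).mul_const (volume (closedBall (0 : E) R)).toReal
  refine of_tendsto ?_ ?_ H ?_ ?_
  · have := (memLp_of_bdd (g := fun x => u x - un 0 x) (hu.sub (H 0).memu.1) (a0 0)
      fun x => (h1 0 x).1).add (H 0).memu
    refine (memLp_congr_ae (Eventually.of_forall fun x => ?_)).1 this
    simp
  · have := (memLp_of_bdd (g := fun x => g x - gn 0 x) (hg.sub (H 0).memg.1) (b0 0)
      fun x => (h1 0 x).2).add (H 0).memg
    refine (memLp_congr_ae (Eventually.of_forall fun x => ?_)).1 this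
    simp
  · refine squeeze_zero (fun n => integral_nonneg fun _ => by positivity) (fun n => ?_) hlim
    simpa using integral_norm_sq_le_of_bdd (g := fun x => u x - un n x) (a0 n) fun x => (h1 n x).1
  · exact squeeze_zero (fun n => integral_nonneg fun _ => by positivity)
      (fun n => integral_norm_sq_le_of_bdd (g := fun x => g x - gn n x) (b0 n)
        fun x => (h1 n x).2) hlim

lemma zero (U : Set E) : IsH U (fun _ => 0) (fun _ => 0) := by
  simpa [gradient_fun_const'] using (Test.zero U).isH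

lemma add (H : IsH U u g) (H' : IsH U w h) : IsH U (fun x => u x + w x) (fun x => g x + h x) := by
  refine ⟨H.memu.add H'.memu, H.memg.add H'.memg, fun ε hε => ?_⟩
  obtain ⟨φ, h1, h2, h3⟩ := H.approx (ε / 4) (by positivity)
  obtain ⟨ψ, h4, h5, h6⟩ := H'.approx (ε / 4) (by positivity)
  refine ⟨_, h1.add h4, ?_, ?_⟩
  · have := integral_norm_add_sq_le (H.memu.sub h1.memLp) (H'.memu.sub h4.memLp)
    simp only [Pi.sub_apply, Real.norm_eq_abs, sq_abs] at this
    have e : ∀ x, u x + w x - (φ x + ψ x) = u x - φ x + (w x - ψ x) := fun x => by ring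
    simp only [e]
    linarith
  · have := integral_norm_add_sq_le (H.memg.sub h1.memLp_grad) (H'.memg.sub h4.memLp_grad)
    simp only [Pi.sub_apply] at this
    have e : ∀ x, g x + h x - ∇ (fun y => φ y + ψ y) x = g x - ∇ φ x + (h x - ∇ ψ x) := fun x => by
      rw [grad_add (h1.differentiable x) (h4.differentiable x)]; abel
    simp only [e]
    linarith

lemma mul_aux {χ : E → ℝ} {B : ℝ} (H : IsH U u g) (hχ : ContDiff ℝ ∞ χ)
    (hB : ∀ x, |χ x| ≤ B ∧ ‖∇ χ x‖ ≤ B) (hT : ∀ φ, Test U φ → Test V (fun x => χ x * φ x)) :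
    IsH V (fun x => χ x * u x) (fun x => χ x • g x + u x • ∇ χ x) := by
  have m1 := hχ.continuous.aestronglyMeasurable (μ := volume)
  have m2 := (continuous_grad (hχ.of_le (by exact_mod_cast le_top))).aestronglyMeasurable
    (μ := volume)
  have b1 : ∀ᵐ x, |χ x| ≤ B := Eventually.of_forall fun x => (hB x).1
  have b2 : ∀ᵐ x, ‖∇ χ x‖ ≤ B := Eventually.of_forall fun x => (hB x).2
  have hB0 : 0 ≤ B := (abs_nonneg _).trans (hB 0).1
  refine ⟨memLp_smul_of_bdd m1 b1 H.memu,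
    (memLp_smul_of_bdd m1 b1 H.memg).add (memLp_smul_of_bdd' H.memu m2 b2), fun ε hε => ?_⟩
  obtain ⟨φ, h1, h2, h3⟩ := H.approx (ε / (4 * B ^ 2 + 1)) (by positivity)
  have hε' : B ^ 2 * (ε / (4 * B ^ 2 + 1)) ≤ ε / 4 := by
    rw [mul_div_assoc', div_le_div_iff₀ (by positivity) (by positivity)]
    nlinarith
  have k1 : ∫ x, ‖χ x • (g x - ∇ φ x)‖ ^ 2 ≤ ε / 4 := by
    refine le_trans ?_ ((mul_le_mul_of_nonneg_left h3 (sq_nonneg B)).trans hε')
    rw [← integral_const_mul]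
    refine integral_mono_of_nonneg (Eventually.of_forall fun _ => by positivity)
      ((integrable_norm_sq (H.memg.sub h1.memLp_grad)).const_mul _) (Eventually.of_forall fun x => ?_)
    simp only [norm_smul, mul_pow, Real.norm_eq_abs]
    exact mul_le_mul_of_nonneg_right (pow_le_pow_left₀ (abs_nonneg _) (hB x).1 2) (by positivity)
  have k2 : ∀ (F : Type) [NormedAddCommGroup F] [NormedSpace ℝ F] (c : E → F), (∀ x, ‖c x‖ ≤ B) →
      ∫ x, ‖(u x - φ x) • c x‖ ^ 2 ≤ ε / 4 := by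
    intro F _ _ c hc
    refine le_trans ?_ ((mul_le_mul_of_nonneg_left h2 (sq_nonneg B)).trans hε')
    rw [← integral_const_mul]
    refine integral_mono_of_nonneg (Eventually.of_forall fun _ => by positivity)
      ((integrable_sq (H.memu.sub h1.memLp)).const_mul _) (Eventually.of_forall fun x => ?_)
    simp only [norm_smul, mul_pow, Real.norm_eq_abs, sq_abs]
    rw [mul_comm]
    exact mul_le_mul_of_nonneg_right (pow_le_pow_left₀ (norm_nonneg _) (hc x) 2) (by positivity)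
  refine ⟨_, hT φ h1, ?_, ?_⟩
  · have := k2 ℝ χ fun x => (hB x).1
    have e : ∀ x, (χ x * u x - χ x * φ x) ^ 2 = ‖(u x - φ x) • χ x‖ ^ 2 := fun x => by
      simp only [smul_eq_mul, Real.norm_eq_abs, sq_abs]; ring
    simp only [e]
    linarith
  · have := integral_norm_add_sq_le (memLp_smul_of_bdd m1 b1 (H.memg.sub h1.memLp_grad))
      (memLp_smul_of_bdd' (H.memu.sub h1.memLp) m2 b2)
    simp only [Pi.sub_apply] at this
    have e : ∀ x, χ x • g x + u x • ∇ χ x - ∇ (fun y => χ y * φ y) x =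
        χ x • (g x - ∇ φ x) + (u x - φ x) • ∇ χ x := fun x => by
      rw [grad_mul (hχ.differentiable (by simp) x) (h1.differentiable x), smul_sub, sub_smul]; abel
    simp only [e]
    linarith [k2 E (∇ χ) fun x => (hB x).2]

lemma mul_smooth {χ : E → ℝ} {B : ℝ} (H : IsH U u g) (hχ : ContDiff ℝ ∞ χ)
    (hB : ∀ x, |χ x| ≤ B ∧ ‖∇ χ x‖ ≤ B) :
    IsH U (fun x => χ x * u x) (fun x => χ x • g x + u x • ∇ χ x) :=
  H.mul_aux hχ hB fun _ h => h.mul_left hχ

lemma localize {χ : E → ℝ} (H : IsH U u g) (hχ : Test V χ) :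
    IsH V (fun x => χ x * u x) (fun x => χ x • g x + u x • ∇ χ x) := by
  obtain ⟨B, -, hB⟩ := hχ.exists_bound
  exact H.mul_aux hχ.smooth hB fun _ h => hχ.mul h.smooth

lemma const_mul (H : IsH U u g) (c : ℝ) : IsH U (fun x => c * u x) (fun x => c • g x) := by
  simpa [gradient_fun_const] using H.mul_smooth (χ := fun _ => c) (B := |c|) contDiff_const
    (fun x => by simp [gradient_fun_const])

lemma neg (H : IsH U u g) : IsH U (fun x => -u x) (fun x => -g x) := by
  simpa using H.const_mul (-1)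

lemma sub (H : IsH U u g) (H' : IsH U w h) : IsH U (fun x => u x - w x) (fun x => g x - h x) := by
  simpa [sub_eq_add_neg] using H.add H'.neg

lemma sum {ι : Type*} (s : Finset ι) {u : ι → E → ℝ} {g : ι → E → E}
    (H : ∀ i ∈ s, IsH U (u i) (g i)) :
    IsH U (fun x => ∑ i ∈ s, u i x) (fun x => ∑ i ∈ s, g i x) := by
  classical
  induction s using Finset.induction_on with
  | empty => simpa using zero U
  | insert a s ha ih =>
    simp only [Finset.sum_insert ha]
    exact (H a (Finset.mem_insert_self _ _)).add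
      (ih fun i hi => H i (Finset.mem_insert_of_mem hi))

lemma exists_seq (H : IsH U u g) : ∃ φ : ℕ → E → ℝ, (∀ n, Test U (φ n)) ∧
    Tendsto (fun n => ∫ x, (u x - φ n x) ^ 2) atTop (𝓝 0) ∧
    Tendsto (fun n => ∫ x, ‖g x - ∇ (φ n) x‖ ^ 2) atTop (𝓝 0) ∧
    (∀ᵐ x, Tendsto (fun n => φ n x) atTop (𝓝 (u x))) ∧
    (∀ᵐ x, Tendsto (fun n => ∇ (φ n) x) atTop (𝓝 (g x))) := by
  choose φ h1 h2 h3 using fun n : ℕ => H.approx (1 / ((n : ℝ) + 1)) Nat.one_div_pos_of_nat
  have t1 : Tendsto (fun n => ∫ x, (u x - φ n x) ^ 2) atTop (𝓝 0) :=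
    squeeze_zero (fun n => integral_nonneg fun _ => by positivity) h2
      tendsto_one_div_add_atTop_nhds_zero_nat
  have t2 : Tendsto (fun n => ∫ x, ‖g x - ∇ (φ n) x‖ ^ 2) atTop (𝓝 0) :=
    squeeze_zero (fun n => integral_nonneg fun _ => by positivity) h3
      tendsto_one_div_add_atTop_nhds_zero_nat
  obtain ⟨n1, s1, a1⟩ := exists_subseq_ae_of_integral_norm_sq (g := fun n x => u x - φ n x)
    (fun n => H.memu.sub (h1 n).memLp) (by simpa using t1)
  obtain ⟨n2, s2, a2⟩ := exists_subseq_ae_of_integral_norm_sq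
    (g := fun n x => g x - ∇ (φ (n1 n)) x)
    (fun n => H.memg.sub (h1 _).memLp_grad) (t2.comp s1.tendsto_atTop)
  refine ⟨fun n => φ (n1 (n2 n)), fun n => h1 _, t1.comp (s1.comp s2).tendsto_atTop,
    t2.comp (s1.comp s2).tendsto_atTop, ?_, ?_⟩
  · filter_upwards [a1] with x hx
    have := (hx.comp s2.tendsto_atTop).const_sub (u x)
    simpa [Function.comp_def] using this
  · filter_upwards [a2] with x hx
    have := hx.const_sub (g x)
    simpa using this

lemma ae_zero (H : IsH U u g) : ∀ᵐ x, x ∉ U → u x = 0 ∧ g x = 0 := by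
  obtain ⟨φ, h1, -, -, h4, h5⟩ := H.exists_seq
  filter_upwards [h4, h5] with x a b hx
  simp only [(h1 _).eq_zero hx, (h1 _).grad_eq_zero hx] at a b
  exact ⟨tendsto_nhds_unique a tendsto_const_nhds, tendsto_nhds_unique b tendsto_const_nhds⟩

/-- linear identities extend from test functions -/
lemma pr_eq_zero {f : E → ℝ} {F : E → E} (H : IsH U u g) (hf : MemLp f 2 volume)
    (hF : MemLp F 2 volume) (h0 : ∀ φ, Test U φ → pr f F φ (∇ φ) = 0) : pr f F u g = 0 := by
  obtain ⟨φ, h1, h2, h3, -, -⟩ := H.exists_seq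
  have key : ∀ n, |pr f F u g| ≤ √(∫ x, f x ^ 2) * √(∫ x, (u x - φ n x) ^ 2) +
      √(∫ x, ‖F x‖ ^ 2) * √(∫ x, ‖g x - ∇ (φ n) x‖ ^ 2) := by
    intro n
    have := abs_pr_le hf hF (H.memu.sub (h1 n).memLp) (H.memg.sub (h1 n).memLp_grad)
    refine le_trans (le_of_eq ?_) this
    congr 1
    have h4 := h0 _ (h1 n)
    rw [pr_eq hf hF (h1 n).memLp (h1 n).memLp_grad] at h4
    rw [pr_eq hf hF H.memu H.memg,
      pr_eq hf hF (H.memu.sub (h1 n).memLp) (H.memg.sub (h1 n).memLp_grad)]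
    simp only [Pi.sub_apply, mul_sub, inner_sub_right]
    rw [integral_sub (integrable_mul' hf H.memu) (integrable_mul' hf (h1 n).memLp),
      integral_sub (integrable_inner' hF H.memg) (integrable_inner' hF (h1 n).memLp_grad)]
    linarith
  have lim := (h2.sqrt.const_mul √(∫ x, f x ^ 2)).add (h3.sqrt.const_mul √(∫ x, ‖F x‖ ^ 2))
  simp only [Real.sqrt_zero, mul_zero, add_zero] at lim
  exact abs_nonpos_iff.1 (ge_of_tendsto' lim key)

lemma pr_eq_pr {f f' : E → ℝ} {F F' : E → E} (H : IsH U u g) (hf : MemLp f 2 volume)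
    (hF : MemLp F 2 volume) (hf' : MemLp f' 2 volume) (hF' : MemLp F' 2 volume)
    (h0 : ∀ φ, Test U φ → pr f F φ (∇ φ) = pr f' F' φ (∇ φ)) : pr f F u g = pr f' F' u g := by
  have e : ∀ (v : E → ℝ) (k : E → E), MemLp v 2 volume → MemLp k 2 volume →
      pr (f - f') (F - F') v k = pr f F v k - pr f' F' v k := by
    intro v k hv hk
    rw [pr_eq (hf.sub hf') (hF.sub hF') hv hk, pr_eq hf hF hv hk, pr_eq hf' hF' hv hk]
    simp only [Pi.sub_apply, sub_mul, inner_sub_left]
    rw [integral_sub (integrable_mul' hf hv) (integrable_mul' hf' hv),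
      integral_sub (integrable_inner' hF hk) (integrable_inner' hF' hk)]
    ring
  have := H.pr_eq_zero (hf.sub hf') (hF.sub hF') fun φ hφ => by
    rw [e _ _ hφ.memLp hφ.memLp_grad, h0 φ hφ, sub_self]
  rw [e _ _ H.memu H.memg] at this
  linarith

lemma inner_eq_zero {F : E → E} (H : IsH U u g) (hF : MemLp F 2 volume)
    (h0 : ∀ φ, Test U φ → ∫ x, ⟪F x, ∇ φ x⟫ = 0) : ∫ x, ⟪F x, g x⟫ = 0 := by
  have := H.pr_eq_zero (f := fun _ => 0) MemLp.zero' hF fun φ hφ => by simpa [pr] using h0 φ hφ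
  simpa [pr] using this

lemma comp_SS (H : IsH U u g) (i : Fin 2) :
    IsH (SS i ⁻¹' U) (fun x => u (SS i x)) (pull i g) := by
  refine ⟨memLp_comp_SS i H.memu, memLp_pull i H.memg, fun ε hε => ?_⟩
  have hk := kap_pos
  obtain ⟨φ, h1, h2, h3⟩ := H.approx (kap ^ 3 * ε) (by positivity)
  refine ⟨_, h1.comp_SS i, ?_, ?_⟩
  · rw [integral_comp_SS i (fun x => (u x - φ x) ^ 2), smul_eq_mul,
      inv_mul_le_iff₀ (by positivity)]
    exact h2
  · have e : ∀ x, ‖pull i g x - ∇ (fun y => φ (SS i y)) x‖ ^ 2 =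
        kap ^ 2 * ‖g (SS i x) - ∇ φ (SS i x)‖ ^ 2 := fun x => by
      rw [grad_comp_SS, ← mul_pow, ← norm_pull i (fun y => g y - ∇ φ y)]
      simp [pull, smul_sub]
    simp only [e]
    rw [integral_const_mul, integral_comp_SS i (fun x => ‖g x - ∇ φ x‖ ^ 2), smul_eq_mul]
    have h4 : (kap ^ 3)⁻¹ * ∫ x, ‖g x - ∇ φ x‖ ^ 2 ≤ ε := by
      rw [inv_mul_le_iff₀ (by positivity)]; exact h3
    have h5 : kap ^ 2 ≤ 1 := by norm_num [kap]
    have h6 : 0 ≤ (kap ^ 3)⁻¹ * ∫ x, ‖g x - ∇ φ x‖ ^ 2 :=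
      mul_nonneg (by positivity) (integral_nonneg fun _ => by positivity)
    nlinarith

lemma comp_TT (H : IsH U u g) (i : Fin 2) :
    IsH (TT i ⁻¹' U) (fun x => u (TT i x)) (push i g) := by
  refine ⟨memLp_comp_TT i H.memu, memLp_push i H.memg, fun ε hε => ?_⟩
  have hk := kap_pos
  obtain ⟨φ, h1, h2, h3⟩ := H.approx ε hε
  refine ⟨_, h1.comp_TT i, ?_, ?_⟩
  · rw [integral_comp_TT i (fun x => (u x - φ x) ^ 2), smul_eq_mul]
    have h5 : kap ^ 3 ≤ 1 := by norm_num [kap]
    have h6 : 0 ≤ ∫ x, (u x - φ x) ^ 2 := integral_nonneg fun _ => by positivity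
    nlinarith
  · have e : ∀ x, ‖push i g x - ∇ (fun y => φ (TT i y)) x‖ ^ 2 =
        kap⁻¹ ^ 2 * ‖g (TT i x) - ∇ φ (TT i x)‖ ^ 2 := fun x => by
      rw [grad_comp_TT, ← mul_pow, ← norm_push i (fun y => g y - ∇ φ y)]
      simp [push, smul_sub]
    simp only [e]
    rw [integral_const_mul, integral_comp_TT i (fun x => ‖g x - ∇ φ x‖ ^ 2), smul_eq_mul,
      ← mul_assoc]
    have h5 : kap⁻¹ ^ 2 * kap ^ 3 ≤ 1 := by norm_num [kap]
    have h6 : 0 ≤ ∫ x, ‖g x - ∇ φ x‖ ^ 2 := integral_nonneg fun _ => by positivity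
    nlinarith

/-- `g` is the weak gradient of `u` -/
lemma integral_mul_apply {η : E → ℝ} (H : IsH U u g) (hη : Test V η) (i : Fin 3) :
    ∫ x, η x * g x i = -∫ x, u x * ∇ η x i := by
  have m1 : MemLp (fun x => ∇ η x i) 2 volume :=
    (EuclideanSpace.proj (𝕜 := ℝ) i : E →L[ℝ] ℝ).comp_memLp' hη.memLp_grad
  have m2 : MemLp (fun x => η x • (EuclideanSpace.single i 1 : E)) 2 volume :=
    memLp_smul_of_bdd' (B := 1) hη.memLp aestronglyMeasurable_const
      (Eventually.of_forall fun _ => by simp)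
  have := H.pr_eq_zero m1 m2 fun φ hφ => by
    rw [pr_eq m1 m2 hφ.memLp hφ.memLp_grad,
      integral_inner_grad_eq (J := fun x => η x • (EuclideanSpace.single i 1 : E)) isOpen_univ
        (fun x _ => hη.contDiff_one.contDiffAt.smul contDiffAt_const) hφ.univ]
    simp only [dvg_smul (hη.differentiable _) (differentiableAt_const _), dvg_const,
      EuclideanSpace.inner_single_right]
    simp [mul_comm]
  rw [pr_eq m1 m2 H.memu H.memg] at this
  simp only [inner_smul_left, EuclideanSpace.inner_single_left] at this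
  simp only [mul_comm (u _)]
  simp at this
  linarith

/-- locality of the weak gradient -/
lemma grad_ae_eq_of_eq {O : Set E} (H : IsH U u g) (H' : IsH V w h) (hO : IsOpen O)
    (he : ∀ᵐ x, x ∈ O → u x = w x) : ∀ᵐ x, x ∈ O → g x = h x := by
  have H2 := H.univ.sub H'.univ
  have key : ∀ i : Fin 3, ∀ᵐ x, x ∈ O → (g x - h x) i = 0 := by
    intro i
    have m : MemLp (fun x => (g x - h x) i) 2 volume :=
      (EuclideanSpace.proj (𝕜 := ℝ) i : E →L[ℝ] ℝ).comp_memLp' H2.memg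
    refine hO.ae_eq_zero_of_integral_contDiff_smul_eq_zero
      ((m.locallyIntegrable (by norm_num)).locallyIntegrableOn O) fun η h1 h2 h3 => ?_
    have hη : Test O η := ⟨h1, h2, h3⟩
    simp only [smul_eq_mul]
    rw [H2.integral_mul_apply hη i, neg_eq_zero]
    refine integral_eq_zero_of_ae ?_
    filter_upwards [he] with x hx
    by_cases hxO : x ∈ O
    · simp [hx hxO]
    · simp [hη.grad_eq_zero hxO]
  filter_upwards [ae_all_iff.2 key] with x hx hxO
  rw [← sub_eq_zero]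
  ext i
  exact hx i hxO

lemma grad_ae_zero (H : IsH U u g) (hu : ∀ᵐ x, u x = 0) : ∀ᵐ x, g x = 0 := by
  have := H.grad_ae_eq_of_eq (zero U) isOpen_univ (by simpa using hu)
  simpa using this

end IsH

end

end Crest.Agent.R83
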