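import Crest.Agent.R83.Defs

set_option autoImplicit false

open MeasureTheory Set Filter Topology Metric
open scoped Gradient ContDiff RealInnerProductSpace ENNReal

namespace Crest.Agent.R83

noncomputable section

lemma grad_add {φ ψ : E → ℝ} {x : E} (hφ : DifferentiableAt ℝ φ x) (hψ : DifferentiableAt ℝ ψ x) :
    ∇ (fun y => φ y + ψ y) x = ∇ φ x + ∇ ψ x := by
  simp only [gradient, fderiv_fun_add hφ hψ, map_add]

lemma grad_sub {φ ψ : E → ℝ} {x : E} (hφ : DifferentiableAt ℝ φ x) (hψ : DifferentiableAt ℝ ψ x) :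
    ∇ (fun y => φ y - ψ y) x = ∇ φ x - ∇ ψ x := by
  simp only [gradient, fderiv_fun_sub hφ hψ, map_sub]

lemma grad_mul {φ ψ : E → ℝ} {x : E} (hφ : DifferentiableAt ℝ φ x) (hψ : DifferentiableAt ℝ ψ x) :
    ∇ (fun y => φ y * ψ y) x = φ x • ∇ ψ x + ψ x • ∇ φ x := by
  simp only [gradient, fderiv_fun_mul hφ hψ, map_add, map_smul]

lemma grad_const_mul (c : ℝ) (φ : E → ℝ) (x : E) : ∇ (fun y => c * φ y) x = c • ∇ φ x := by
  have : fderiv ℝ (fun y => c * φ y) x = c • fderiv ℝ φ x := by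
    have := congrFun (fderiv_const_smul_field (𝕜 := ℝ) (f := φ) c) x
    simpa [Pi.smul_def] using this
  simp only [gradient, this, map_smul]

lemma grad_neg (φ : E → ℝ) (x : E) : ∇ (fun y => -φ y) x = -∇ φ x := by
  simp only [gradient, fderiv_fun_neg, map_neg]

lemma grad_add_const (φ : E → ℝ) (c : ℝ) (x : E) : ∇ (fun y => φ y + c) x = ∇ φ x := by
  simp only [gradient, fderiv_add_const]

lemma grad_const_add (φ : E → ℝ) (c : ℝ) (x : E) : ∇ (fun y => c + φ y) x = ∇ φ x := by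
  simp only [gradient, fderiv_const_add]

lemma grad_const_sub (φ : E → ℝ) (c : ℝ) (x : E) : ∇ (fun y => c - φ y) x = -∇ φ x := by
  simp only [gradient, fderiv_const_sub, map_neg]

lemma grad_sum {ι : Type*} (s : Finset ι) {φ : ι → E → ℝ} {x : E}
    (h : ∀ i ∈ s, DifferentiableAt ℝ (φ i) x) :
    ∇ (fun y => ∑ i ∈ s, φ i y) x = ∑ i ∈ s, ∇ (φ i) x := by
  simp only [gradient, fderiv_fun_sum h, map_sum]

lemma grad_comp {β : ℝ → ℝ} {β' : ℝ} {φ : E → ℝ} {x : E} (hβ : HasDerivAt β β' (φ x))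
    (hφ : DifferentiableAt ℝ φ x) : ∇ (fun y => β (φ y)) x = β' • ∇ φ x := by
  have := (hβ.comp_hasFDerivAt x hφ.hasFDerivAt).fderiv
  simp only [gradient]
  rw [show (fun y => β (φ y)) = β ∘ φ from rfl, this, map_smul]

lemma grad_apply (φ : E → ℝ) (x : E) (i : Fin 3) :
    ∇ φ x i = fderiv ℝ φ x (EuclideanSpace.single i 1) := by
  rw [← inner_gradient_left, EuclideanSpace.inner_single_right]
  simp

lemma grad_coord (i : Fin 3) (x : E) : ∇ (fun y : E => y i) x = EuclideanSpace.single i 1 := by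
  ext j
  rw [grad_apply]
  have : fderiv ℝ (fun y : E => y i) x = EuclideanSpace.proj i :=
    (EuclideanSpace.proj (𝕜 := ℝ) i : E →L[ℝ] ℝ).fderiv
  rw [this]
  simp [eq_comm]

lemma norm_grad (φ : E → ℝ) (x : E) : ‖∇ φ x‖ = ‖fderiv ℝ φ x‖ := by
  simp only [gradient, LinearIsometryEquiv.norm_map]

lemma inner_eq_three (a b : E) : ⟪a, b⟫ = a 0 * b 0 + a 1 * b 1 + a 2 * b 2 := by
  simp [PiLp.inner_apply, Fin.sum_univ_three, mul_comm]

lemma norm_sq_eq_three (a : E) : ‖a‖ ^ 2 = a 0 ^ 2 + a 1 ^ 2 + a 2 ^ 2 := by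
  rw [← real_inner_self_eq_norm_sq, inner_eq_three]; ring

lemma continuous_grad {φ : E → ℝ} (h : ContDiff ℝ 1 φ) : Continuous (∇ φ) :=
  (InnerProductSpace.toDual ℝ E).symm.continuous.comp (h.continuous_fderiv (by simp))

lemma contDiffAt_grad {φ : E → ℝ} {x : E} (h : ContDiffAt ℝ ∞ φ x) : ContDiffAt ℝ ∞ (∇ φ) x := by
  have h1 : ContDiffAt ℝ ∞ (fderiv ℝ φ) x := h.fderiv_right (by simp)
  exact (InnerProductSpace.toDual ℝ E).symm.toContinuousLinearEquiv.contDiff.contDiffAt.comp x h1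

lemma contDiff_grad {φ : E → ℝ} (h : ContDiff ℝ ∞ φ) : ContDiff ℝ ∞ (∇ φ) :=
  contDiff_iff_contDiffAt.2 fun _ => contDiffAt_grad h.contDiffAt

lemma grad_eq_zero_of_eventually_const {φ : E → ℝ} {x : E} {c : ℝ} (h : ∀ᶠ y in 𝓝 x, φ y = c) :
    ∇ φ x = 0 := by
  have : φ =ᶠ[𝓝 x] fun _ => c := h
  rw [this.gradient_eq, gradient_fun_const]

lemma grad_eq_zero_of_notMem {φ : E → ℝ} {x : E} (h : x ∉ tsupport φ) : ∇ φ x = 0 :=
  grad_eq_zero_of_eventually_const (c := 0) (notMem_tsupport_iff_eventuallyEq.1 h)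

lemma hasCompactSupport_grad {φ : E → ℝ} (h : HasCompactSupport φ) : HasCompactSupport (∇ φ) :=
  HasCompactSupport.intro h fun _ hx => grad_eq_zero_of_notMem hx

/-! ### the smooth step -/

lemma step_contDiff (a b : ℝ) : ContDiff ℝ ∞ (step a b) := by
  unfold step
  exact Real.smoothTransition.contDiff.comp ((contDiff_id.sub contDiff_const).div_const _)

lemma step_nonneg (a b t : ℝ) : 0 ≤ step a b t := Real.smoothTransition.nonneg _

lemma step_le_one (a b t : ℝ) : step a b t ≤ 1 := Real.smoothTransition.le_one _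

lemma step_of_le {a b t : ℝ} (hab : a < b) (h : t ≤ a) : step a b t = 0 :=
  Real.smoothTransition.zero_of_nonpos (div_nonpos_of_nonpos_of_nonneg (by linarith) (by linarith))

lemma step_of_ge {a b t : ℝ} (hab : a < b) (h : b ≤ t) : step a b t = 1 :=
  Real.smoothTransition.one_of_one_le ((one_le_div (by linarith)).2 (by linarith))

lemma step_mono {a b : ℝ} (hab : a < b) : Monotone (step a b) := fun _ _ h =>
  Real.smoothTransition.monotone (div_le_div_of_nonneg_right (by linarith) (by linarith))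

lemma deriv_step_nonneg {a b : ℝ} (hab : a < b) (t : ℝ) : 0 ≤ deriv (step a b) t :=
  (step_mono hab).deriv_nonneg

lemma deriv_step_eq_zero {a b t : ℝ} (hab : a < b) (h : t ≤ a ∨ b ≤ t) :
    deriv (step a b) t = 0 := by
  rcases h with h | h
  · apply IsLocalMin.deriv_eq_zero
    apply IsMinOn.isLocalMin (s := univ) _ univ_mem
    intro y _
    simp only [mem_ofPred_eq, step_of_le hab h, step_nonneg]
  · apply IsLocalMax.deriv_eq_zero
    apply IsMaxOn.isLocalMax (s := univ) _ univ_mem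
    intro y _
    simp only [mem_ofPred_eq, step_of_ge hab h, step_le_one]

lemma step_hasDerivAt (a b t : ℝ) : HasDerivAt (step a b) (deriv (step a b) t) t :=
  ((step_contDiff a b).differentiable (by simp) t).hasDerivAt

lemma exists_deriv_step_le {a b : ℝ} (hab : a < b) : ∃ C, ∀ t, deriv (step a b) t ≤ C := by
  have hc : Continuous (deriv (step a b)) := (step_contDiff a b).continuous_deriv (by simp)
  obtain ⟨C, hC⟩ := (isCompact_Icc (a := a) (b := b)).bddAbove_image hc.continuousOn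
  refine ⟨max C 0, fun t => ?_⟩
  by_cases ht : t ∈ Icc a b
  · exact le_max_of_le_left (hC (mem_image_of_mem _ ht))
  · rw [deriv_step_eq_zero hab]
    · exact le_max_right _ _
    · simp only [mem_Icc, not_and_or, not_le] at ht
      rcases ht with h | h
      · exact Or.inl h.le
      · exact Or.inr h.le

/-! ### `L²` tools -/

lemma integrable_norm_sq {F : Type*} [NormedAddCommGroup F] {μ : Measure E} {g : E → F}
    (h : MemLp g 2 μ) : Integrable (fun x => ‖g x‖ ^ 2) μ :=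
  (memLp_two_iff_integrable_sq_norm h.1).1 h

lemma integrable_sq {μ : Measure E} {u : E → ℝ} (h : MemLp u 2 μ) :
    Integrable (fun x => u x ^ 2) μ := h.integrable_sq

lemma integrable_mul' {μ : Measure E} {f u : E → ℝ} (hf : MemLp f 2 μ) (hu : MemLp u 2 μ) :
    Integrable (fun x => f x * u x) μ := hf.integrable_mul hu

lemma integrable_inner' {μ : Measure E} {F g : E → E} (hF : MemLp F 2 μ) (hg : MemLp g 2 μ) :
    Integrable (fun x => ⟪F x, g x⟫) μ :=
  (integrable_mul' hF.norm hg.norm).mono' (hF.1.inner hg.1)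
    (Eventually.of_forall fun _ => norm_inner_le_norm _ _)

lemma memLp_smul_of_bdd {F : Type*} [NormedAddCommGroup F] [NormedSpace ℝ F] {μ : Measure E}
    {γ : E → ℝ} {g : E → F} {B : ℝ} (hγ : AEStronglyMeasurable γ μ) (hB : ∀ᵐ x ∂μ, |γ x| ≤ B)
    (hg : MemLp g 2 μ) : MemLp (fun x => γ x • g x) 2 μ := by
  refine MemLp.of_le_mul (c := B) hg (hγ.smul hg.1) ?_
  filter_upwards [hB] with x hx
  rw [norm_smul]
  exact mul_le_mul_of_nonneg_right hx (norm_nonneg _)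

lemma memLp_smul_of_bdd' {F : Type*} [NormedAddCommGroup F] [NormedSpace ℝ F] {μ : Measure E}
    {u : E → ℝ} {g : E → F} {B : ℝ} (hu : MemLp u 2 μ) (hg : AEStronglyMeasurable g μ)
    (hB : ∀ᵐ x ∂μ, ‖g x‖ ≤ B) : MemLp (fun x => u x • g x) 2 μ := by
  refine MemLp.of_le_mul (c := B) hu (hu.1.smul hg) ?_
  filter_upwards [hB] with x hx
  rw [norm_smul, mul_comm]
  exact mul_le_mul_of_nonneg_right hx (norm_nonneg _)

lemma norm_Lp_sq {F : Type*} [NormedAddCommGroup F] {μ : Measure E} (g : Lp F 2 μ) :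
    ‖g‖ ^ 2 = ∫ x, ‖g x‖ ^ 2 ∂μ := by
  have h := (Lp.memLp g).eLpNorm_eq_integral_rpow_norm (by simp) (by simp)
  have h0 : 0 ≤ ∫ x, ‖g x‖ ^ 2 ∂μ := integral_nonneg fun _ => by positivity
  rw [Lp.norm_def, h]
  simp only [ENNReal.toReal_ofNat, Real.rpow_ofNat]
  rw [ENNReal.toReal_ofReal (by positivity), ← Real.rpow_natCast, ← Real.rpow_mul h0]
  norm_num

lemma norm_toLp_sq {F : Type*} [NormedAddCommGroup F] {μ : Measure E} {g : E → F}
    (hg : MemLp g 2 μ) : ‖hg.toLp g‖ ^ 2 = ∫ x, ‖g x‖ ^ 2 ∂μ := by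
  rw [norm_Lp_sq]
  refine integral_congr_ae ?_
  filter_upwards [hg.coeFn_toLp] with x hx
  rw [hx]

lemma norm_toLp_eq {F : Type*} [NormedAddCommGroup F] {μ : Measure E} {g : E → F}
    (hg : MemLp g 2 μ) : ‖hg.toLp g‖ = √(∫ x, ‖g x‖ ^ 2 ∂μ) := by
  rw [← norm_toLp_sq hg, Real.sqrt_sq (norm_nonneg _)]

lemma abs_integral_inner_le_gen {F : Type*} [NormedAddCommGroup F] [InnerProductSpace ℝ F]
    {μ : Measure E} {f g : E → F} (hF : MemLp f 2 μ) (hg : MemLp g 2 μ) :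
    |∫ x, ⟪f x, g x⟫ ∂μ| ≤ √(∫ x, ‖f x‖ ^ 2 ∂μ) * √(∫ x, ‖g x‖ ^ 2 ∂μ) := by
  rw [← norm_toLp_eq hF, ← norm_toLp_eq hg]
  refine le_trans (le_of_eq ?_) (abs_real_inner_le_norm (hF.toLp f) (hg.toLp g))
  rw [L2.inner_def]
  congr 1
  refine integral_congr_ae ?_
  filter_upwards [hF.coeFn_toLp, hg.coeFn_toLp] with x h1 h2
  rw [h1, h2]

lemma abs_integral_inner_le {μ : Measure E} {F g : E → E} (hF : MemLp F 2 μ) (hg : MemLp g 2 μ) :
    |∫ x, ⟪F x, g x⟫ ∂μ| ≤ √(∫ x, ‖F x‖ ^ 2 ∂μ) * √(∫ x, ‖g x‖ ^ 2 ∂μ) :=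
  abs_integral_inner_le_gen hF hg

lemma abs_integral_mul_le {μ : Measure E} {f u : E → ℝ} (hf : MemLp f 2 μ) (hu : MemLp u 2 μ) :
    |∫ x, f x * u x ∂μ| ≤ √(∫ x, f x ^ 2 ∂μ) * √(∫ x, u x ^ 2 ∂μ) := by
  have := abs_integral_inner_le_gen hf hu
  simpa [mul_comm] using this

/-- Minkowski -/
lemma sqrt_integral_add_le {F : Type*} [NormedAddCommGroup F] {μ : Measure E} {g h : E → F}
    (hg : MemLp g 2 μ) (hh : MemLp h 2 μ) :
    √(∫ x, ‖g x + h x‖ ^ 2 ∂μ) ≤ √(∫ x, ‖g x‖ ^ 2 ∂μ) + √(∫ x, ‖h x‖ ^ 2 ∂μ) := by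
  have := norm_toLp_eq (hg.add hh)
  simp only [Pi.add_apply] at this
  rw [← this, ← norm_toLp_eq hg, ← norm_toLp_eq hh, MemLp.toLp_add hg hh]
  exact norm_add_le _ _

lemma integral_norm_add_sq_le {F : Type*} [NormedAddCommGroup F] {μ : Measure E} {g h : E → F}
    (hg : MemLp g 2 μ) (hh : MemLp h 2 μ) :
    ∫ x, ‖g x + h x‖ ^ 2 ∂μ ≤ 2 * ∫ x, ‖g x‖ ^ 2 ∂μ + 2 * ∫ x, ‖h x‖ ^ 2 ∂μ := by
  rw [← integral_const_mul, ← integral_const_mul, ← integral_add
    ((integrable_norm_sq hg).const_mul 2) ((integrable_norm_sq hh).const_mul 2)]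
  refine integral_mono (integrable_norm_sq (hg.add hh))
    (((integrable_norm_sq hg).const_mul 2).add ((integrable_norm_sq hh).const_mul 2)) fun x => ?_
  have := norm_add_le (g x) (h x)
  have h1 := norm_nonneg (g x + h x)
  nlinarith [sq_nonneg (‖g x‖ - ‖h x‖)]

lemma ae_eq_zero_of_integral_norm_sq {F : Type*} [NormedAddCommGroup F] {μ : Measure E}
    {g : E → F} (hg : MemLp g 2 μ) (h : ∫ x, ‖g x‖ ^ 2 ∂μ ≤ 0) : ∀ᵐ x ∂μ, g x = 0 := by
  have h0 : ∫ x, ‖g x‖ ^ 2 ∂μ = 0 := le_antisymm h (integral_nonneg fun _ => by positivity)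
  rw [integral_eq_zero_iff_of_nonneg (fun _ => by positivity) (integrable_norm_sq hg)] at h0
  filter_upwards [h0] with x hx
  simpa using hx

/-- an `L²`-null sequence has an a.e. null subsequence -/
lemma exists_subseq_ae_of_integral_norm_sq {F : Type*} [NormedAddCommGroup F] {μ : Measure E}
    {g : ℕ → E → F} (hg : ∀ n, MemLp (g n) 2 μ)
    (h : Tendsto (fun n => ∫ x, ‖g n x‖ ^ 2 ∂μ) atTop (𝓝 0)) :
    ∃ ns : ℕ → ℕ, StrictMono ns ∧ ∀ᵐ x ∂μ, Tendsto (fun n => g (ns n) x) atTop (𝓝 0) := by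
  have h1 : Tendsto (fun n => eLpNorm (g n - fun _ => 0) 2 μ) atTop (𝓝 0) := by
    have h2 : Tendsto (fun n => ENNReal.ofReal √(∫ x, ‖g n x‖ ^ 2 ∂μ)) atTop (𝓝 0) := by
      have := ENNReal.tendsto_ofReal (h.sqrt)
      simpa using this
    refine h2.congr fun n => ?_
    rw [← norm_toLp_eq (hg n), Lp.norm_toLp, ENNReal.ofReal_toReal (hg n).2.ne]
    congr 1
    ext x; simp
  have h3 := tendstoInMeasure_of_tendsto_eLpNorm (μ := μ) (p := 2) (by simp)
    (fun n => (hg n).1) aestronglyMeasurable_const h1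
  exact h3.exists_seq_tendsto_ae

lemma pr_eq {f u : E → ℝ} {F g : E → E} (hf : MemLp f 2 volume) (hF : MemLp F 2 volume)
    (hu : MemLp u 2 volume) (hg : MemLp g 2 volume) :
    pr f F u g = (∫ x, f x * u x) + ∫ x, ⟪F x, g x⟫ :=
  integral_add (integrable_mul' hf hu) (integrable_inner' hF hg)

lemma abs_pr_le {f u : E → ℝ} {F g : E → E} (hf : MemLp f 2 volume) (hF : MemLp F 2 volume)
    (hu : MemLp u 2 volume) (hg : MemLp g 2 volume) :
    |pr f F u g| ≤ √(∫ x, f x ^ 2) * √(∫ x, u x ^ 2) + √(∫ x, ‖F x‖ ^ 2) * √(∫ x, ‖g x‖ ^ 2) := by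
  rw [pr_eq hf hF hu hg]
  exact (abs_add_le _ _).trans (add_le_add (abs_integral_mul_le hf hu) (abs_integral_inner_le hF hg))

end

end Crest.Agent.R83
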