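import Crest.Agent.R83.Basic1

set_option autoImplicit false

open MeasureTheory Set Filter Topology Metric
open scoped Gradient ContDiff RealInnerProductSpace ENNReal

namespace Crest.Agent.R83

noncomputable section

/-! ### test functions -/

namespace Test

variable {U V : Set E} {φ ψ : E → ℝ}

lemma mono (h : Test U φ) (hUV : U ⊆ V) : Test V φ := ⟨h.smooth, h.cpt, h.sub.trans hUV⟩

lemma univ (h : Test U φ) : Test univ φ := h.mono (subset_univ _)

lemma differentiable (h : Test U φ) : Differentiable ℝ φ := h.smooth.differentiable (by simp)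

lemma contDiff_one (h : Test U φ) : ContDiff ℝ 1 φ := h.smooth.of_le (by exact_mod_cast le_top)

lemma continuous (h : Test U φ) : Continuous φ := h.smooth.continuous

lemma continuous_grad (h : Test U φ) : Continuous (∇ φ) := R83.continuous_grad h.contDiff_one

lemma memLp (h : Test U φ) : MemLp φ 2 volume := h.continuous.memLp_of_hasCompactSupport h.cpt

lemma memLp_grad (h : Test U φ) : MemLp (∇ φ) 2 volume :=
  h.continuous_grad.memLp_of_hasCompactSupport (hasCompactSupport_grad h.cpt)

lemma eq_zero (h : Test U φ) {x : E} (hx : x ∉ U) : φ x = 0 :=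
  image_eq_zero_of_notMem_tsupport fun hx' => hx (h.sub hx')

lemma grad_eq_zero (h : Test U φ) {x : E} (hx : x ∉ U) : ∇ φ x = 0 :=
  grad_eq_zero_of_notMem fun hx' => hx (h.sub hx')

lemma exists_bound (h : Test U φ) : ∃ B, 0 ≤ B ∧ ∀ x, |φ x| ≤ B ∧ ‖∇ φ x‖ ≤ B := by
  obtain ⟨B1, h1⟩ := h.continuous.bounded_above_of_compact_support h.cpt
  obtain ⟨B2, h2⟩ :=
    h.continuous_grad.bounded_above_of_compact_support (hasCompactSupport_grad h.cpt)
  refine ⟨max B1 B2, le_max_of_le_left ((norm_nonneg _).trans (h1 0)), fun x =>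
    ⟨le_max_of_le_left (h1 x), le_max_of_le_right (h2 x)⟩⟩

/-- a smooth function vanishing off a compact subset of `U` -/
lemma of_zero_off {K : Set E} (hφ : ContDiff ℝ ∞ φ) (hK : IsCompact K) (hKU : K ⊆ U)
    (h0 : ∀ x, x ∉ K → φ x = 0) : Test U φ := by
  refine ⟨hφ, HasCompactSupport.intro hK h0, subset_trans ?_ hKU⟩
  exact closure_minimal (fun x hx => by_contra fun h => hx (h0 x h)) hK.isClosed

lemma zero (U : Set E) : Test U (fun _ => 0) :=
  of_zero_off contDiff_const isCompact_empty (empty_subset _) fun _ _ => rfl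

lemma add (h : Test U φ) (h' : Test U ψ) : Test U (fun x => φ x + ψ x) := by
  refine of_zero_off (h.smooth.add h'.smooth) (h.cpt.isCompact.union h'.cpt.isCompact)
    (union_subset h.sub h'.sub) fun x hx => ?_
  simp only [mem_union, not_or] at hx
  simp [image_eq_zero_of_notMem_tsupport hx.1, image_eq_zero_of_notMem_tsupport hx.2]

/-- test function times a smooth function -/
lemma mul (h : Test U φ) (hψ : ContDiff ℝ ∞ ψ) : Test U (fun x => φ x * ψ x) :=
  of_zero_off (h.smooth.mul hψ) h.cpt.isCompact h.sub fun x hx => by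
    simp [image_eq_zero_of_notMem_tsupport hx]

/-- smooth function times a test function -/
lemma mul_left (h : Test U φ) (hψ : ContDiff ℝ ∞ ψ) : Test U (fun x => ψ x * φ x) := by
  simpa [mul_comm] using h.mul hψ

lemma const_mul (h : Test U φ) (c : ℝ) : Test U (fun x => c * φ x) :=
  h.mul_left (ψ := fun _ => c) contDiff_const

lemma neg (h : Test U φ) : Test U (fun x => -φ x) := by
  simpa using h.const_mul (-1)

lemma sub' (h : Test U φ) (h' : Test U ψ) : Test U (fun x => φ x - ψ x) := by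
  simpa [sub_eq_add_neg] using h.add h'.neg

lemma sum {ι : Type*} (s : Finset ι) {φ : ι → E → ℝ} (h : ∀ i ∈ s, Test U (φ i)) :
    Test U (fun x => ∑ i ∈ s, φ i x) := by
  classical
  induction s using Finset.induction_on with
  | empty => simpa using zero U
  | insert a s ha ih =>
    simp only [Finset.sum_insert ha]
    exact (h a (Finset.mem_insert_self _ _)).add
      (ih fun i hi => h i (Finset.mem_insert_of_mem hi))

/-- test function times a function smooth on `U` -/
lemma mul_of_contDiffAt (h : Test U φ) (hψ : ∀ x ∈ U, ContDiffAt ℝ ∞ ψ x) :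
    Test U (fun x => φ x * ψ x) := by
  refine of_zero_off (contDiff_iff_contDiffAt.2 fun x => ?_) h.cpt.isCompact h.sub fun x hx => by
    simp [image_eq_zero_of_notMem_tsupport hx]
  by_cases hx : x ∈ tsupport φ
  · exact h.smooth.contDiffAt.mul (hψ x (h.sub hx))
  · refine (contDiffAt_const (c := (0 : ℝ))).congr_of_eventuallyEq ?_
    filter_upwards [notMem_tsupport_iff_eventuallyEq.1 hx] with y hy
    simp [hy]

/-- product of a test function and a smooth function vanishing off a closed subset of `V` -/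
lemma mul_of_zero_off {C : Set E} (h : Test U φ) (hψ : ContDiff ℝ ∞ ψ) (hC : IsClosed C)
    (hCV : C ∩ U ⊆ V) (h0 : ∀ x, x ∉ C → ψ x = 0) : Test V (fun x => ψ x * φ x) := by
  refine of_zero_off (hψ.mul h.smooth) (h.cpt.isCompact.inter_left hC)
    (fun x hx => hCV ⟨hx.1, h.sub hx.2⟩) fun x hx => ?_
  simp only [mem_inter_iff, not_and_or] at hx
  rcases hx with hx | hx
  · simp [h0 x hx]
  · simp [image_eq_zero_of_notMem_tsupport hx]

end Test

/-! ### similarities -/

/-- a similarity `x ↦ c + k • sw x` -/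
def sim (c : E) (k : ℝ) (x : E) : E := c + k • sw x

lemma SS_eq (i : Fin 2) : SS i = sim (cc i) kap := rfl

lemma TT_eq (i : Fin 2) : TT i = sim (-(kap⁻¹ • sw (cc i))) kap⁻¹ := by
  ext1 x
  simp only [TT, sim, map_sub, smul_sub]
  abel

lemma contDiff_sim (c : E) (k : ℝ) : ContDiff ℝ ∞ (sim c k) :=
  contDiff_const.add (sw.toContinuousLinearEquiv.contDiff.const_smul k)

/-- linear part -/
def simL (k : ℝ) (hk : k ≠ 0) : E ≃L[ℝ] E :=
  sw.toContinuousLinearEquiv.trans
    (ContinuousLinearEquiv.smulLeft (R₁ := ℝ) (M₁ := E) (Units.mk0 k hk))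

lemma simL_apply (k : ℝ) (hk : k ≠ 0) (x : E) : simL k hk x = k • sw x := by
  simp [simL, Units.smul_def]

lemma grad_comp_sim (c : E) {k : ℝ} (hk : k ≠ 0) (φ : E → ℝ) (x : E) :
    ∇ (fun y => φ (sim c k y)) x = k • sw (∇ φ (sim c k x)) := by
  have h1 : (fun y => φ (sim c k y)) = (fun z => φ (c + z)) ∘ simL k hk := by
    ext y; simp [sim, simL_apply]
  apply ext_inner_right ℝ
  intro v
  rw [inner_gradient_left, h1, ContinuousLinearEquiv.comp_right_fderiv, fderiv_comp_add_left,
    inner_smul_left, inner_sw_left, inner_gradient_left]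
  simp [simL_apply, sim]

lemma integral_comp_sim {F : Type*} [NormedAddCommGroup F] [NormedSpace ℝ F] (c : E) {k : ℝ}
    (hk : 0 < k) (f : E → F) : ∫ x, f (sim c k x) = (k ^ 3)⁻¹ • ∫ x, f x := by
  have h1 := sw.measurePreserving.integral_comp sw.toHomeomorph.measurableEmbedding
    (fun z => f (c + k • z))
  have h2 := Measure.integral_comp_smul (volume : Measure E) (fun z => f (c + z)) k
  have h3 := integral_add_left_eq_self (μ := (volume : Measure E)) f c
  simp only [sim]
  rw [h1, h2, h3]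
  simp [abs_of_pos hk]

lemma volume_preimage_sim (c : E) {k : ℝ} (hk : 0 < k) (A : Set E) :
    volume (sim c k ⁻¹' A) = ENNReal.ofReal (k ^ 3)⁻¹ * volume A := by
  have h1 : sim c k ⁻¹' A = sw ⁻¹' ((fun z => k • z) ⁻¹' ((fun z => c + z) ⁻¹' A)) := rfl
  have h2 : ∀ B : Set E, volume (sw ⁻¹' B) = volume B := fun B =>
    MeasurePreserving.measure_preimage_equiv (f := sw.toHomeomorph.toMeasurableEquiv)
      sw.measurePreserving B
  rw [h1, h2, Measure.addHaar_preimage_smul _ hk.ne', measure_preimage_add]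
  simp [abs_of_pos hk]

lemma qmp_sim (c : E) {k : ℝ} (hk : 0 < k) :
    Measure.QuasiMeasurePreserving (sim c k) volume volume := by
  refine ⟨(contDiff_sim c k).continuous.measurable, Measure.AbsolutelyContinuous.mk ?_⟩
  intro A hA h0
  rw [Measure.map_apply (contDiff_sim c k).continuous.measurable hA, volume_preimage_sim c hk, h0,
    mul_zero]

lemma map_sim (c : E) {k : ℝ} (hk : 0 < k) :
    Measure.map (sim c k) volume = ENNReal.ofReal (k ^ 3)⁻¹ • volume := by
  ext A hA
  rw [Measure.map_apply (contDiff_sim c k).continuous.measurable hA, volume_preimage_sim c hk]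
  simp

lemma memLp_comp_sim {F : Type*} [NormedAddCommGroup F] (c : E) {k : ℝ} (hk : 0 < k) {f : E → F}
    (h : MemLp f 2 volume) : MemLp (fun x => f (sim c k x)) 2 volume := by
  have h1 : MemLp f 2 (Measure.map (sim c k) volume) := by
    rw [map_sim c hk]
    exact h.smul_measure ENNReal.ofReal_ne_top
  exact h1.comp_of_map (contDiff_sim c k).continuous.measurable.aemeasurable

lemma contDiff_SS (i : Fin 2) : ContDiff ℝ ∞ (SS i) := contDiff_sim _ _

lemma contDiff_TT (i : Fin 2) : ContDiff ℝ ∞ (TT i) := TT_eq i ▸ contDiff_sim _ _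

lemma grad_comp_SS (i : Fin 2) (φ : E → ℝ) (x : E) :
    ∇ (fun y => φ (SS i y)) x = pull i (∇ φ) x := grad_comp_sim _ kap_pos.ne' φ x

lemma grad_comp_TT (i : Fin 2) (φ : E → ℝ) (x : E) :
    ∇ (fun y => φ (TT i y)) x = push i (∇ φ) x := by
  simp only [push, TT_eq]
  exact grad_comp_sim _ (inv_pos.2 kap_pos).ne' φ x

lemma integral_comp_SS {F : Type*} [NormedAddCommGroup F] [NormedSpace ℝ F] (i : Fin 2)
    (f : E → F) : ∫ x, f (SS i x) = (kap ^ 3)⁻¹ • ∫ x, f x := integral_comp_sim _ kap_pos f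

lemma integral_comp_TT {F : Type*} [NormedAddCommGroup F] [NormedSpace ℝ F] (i : Fin 2)
    (f : E → F) : ∫ x, f (TT i x) = kap ^ 3 • ∫ x, f x := by
  rw [TT_eq, integral_comp_sim _ (inv_pos.2 kap_pos), inv_pow, inv_inv]

lemma volume_preimage_TT (i : Fin 2) (A : Set E) :
    volume (TT i ⁻¹' A) = ENNReal.ofReal (kap ^ 3) * volume A := by
  rw [TT_eq, volume_preimage_sim _ (inv_pos.2 kap_pos), inv_pow, inv_inv]

lemma volume_preimage_SS (i : Fin 2) (A : Set E) :
    volume (SS i ⁻¹' A) = ENNReal.ofReal (kap ^ 3)⁻¹ * volume A := volume_preimage_sim _ kap_pos A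

lemma ae_comp_SS (i : Fin 2) {p : E → Prop} (h : ∀ᵐ x, p x) : ∀ᵐ x, p (SS i x) :=
  (qmp_sim _ kap_pos).ae h

lemma ae_comp_TT (i : Fin 2) {p : E → Prop} (h : ∀ᵐ x, p x) : ∀ᵐ x, p (TT i x) := by
  rw [TT_eq]; exact (qmp_sim _ (inv_pos.2 kap_pos)).ae h

lemma memLp_comp_SS {F : Type*} [NormedAddCommGroup F] (i : Fin 2) {f : E → F}
    (h : MemLp f 2 volume) : MemLp (fun x => f (SS i x)) 2 volume := memLp_comp_sim _ kap_pos h

lemma memLp_comp_TT {F : Type*} [NormedAddCommGroup F] (i : Fin 2) {f : E → F}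
    (h : MemLp f 2 volume) : MemLp (fun x => f (TT i x)) 2 volume := by
  rw [TT_eq]; exact memLp_comp_sim _ (inv_pos.2 kap_pos) h

lemma memLp_pull (i : Fin 2) {k : E → E} (h : MemLp k 2 volume) : MemLp (pull i k) 2 volume :=
  (sw.toContinuousLinearEquiv.toContinuousLinearMap.comp_memLp' (memLp_comp_SS i h)).const_smul kap

lemma memLp_push (i : Fin 2) {k : E → E} (h : MemLp k 2 volume) : MemLp (push i k) 2 volume :=
  (sw.toContinuousLinearEquiv.toContinuousLinearMap.comp_memLp' (memLp_comp_TT i h)).const_smul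
    kap⁻¹

lemma norm_pull (i : Fin 2) (k : E → E) (x : E) : ‖pull i k x‖ = kap * ‖k (SS i x)‖ := by
  simp [pull, norm_smul, abs_of_pos kap_pos]

lemma norm_push (i : Fin 2) (k : E → E) (x : E) : ‖push i k x‖ = kap⁻¹ * ‖k (TT i x)‖ := by
  simp [push, norm_smul, abs_of_pos kap_pos]

lemma Test.comp_SS {U : Set E} {φ : E → ℝ} (h : Test U φ) (i : Fin 2) :
    Test (SS i ⁻¹' U) (fun x => φ (SS i x)) := by
  refine Test.of_zero_off (h.smooth.comp (contDiff_SS i))
    (h.cpt.isCompact.image (contDiff_TT i).continuous) ?_ fun x hx => ?_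
  · rintro _ ⟨y, hy, rfl⟩
    simpa using h.sub hy
  · exact image_eq_zero_of_notMem_tsupport fun hx' => hx ⟨_, hx', TT_SS i x⟩

lemma Test.comp_TT {U : Set E} {φ : E → ℝ} (h : Test U φ) (i : Fin 2) :
    Test (TT i ⁻¹' U) (fun x => φ (TT i x)) := by
  refine Test.of_zero_off (h.smooth.comp (contDiff_TT i))
    (h.cpt.isCompact.image (contDiff_SS i).continuous) ?_ fun x hx => ?_
  · rintro _ ⟨y, hy, rfl⟩
    simpa using h.sub hy
  · exact image_eq_zero_of_notMem_tsupport fun hx' => hx ⟨_, hx', SS_TT i x⟩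

/-- change of variables in the pairing -/
lemma pr_comp_SS (i : Fin 2) (f v : E → ℝ) (F k : E → E) :
    pr f F (fun x => v (SS i x)) (pull i k) =
      pr (fun x => (kap ^ 3)⁻¹ * f (TT i x)) (fun x => kap⁻¹ • push i F x) v k := by
  have h := integral_comp_SS i
    (fun x => (kap ^ 3)⁻¹ * f (TT i x) * v x + ⟪kap⁻¹ • push i F x, k x⟫)
  have hk := kap_pos
  unfold pr
  rw [smul_eq_mul, eq_comm, inv_mul_eq_iff_eq_mul₀ (by positivity)] at h
  rw [h, ← integral_const_mul]
  congr 1
  ext x
  simp only [TT_SS, push, pull, inner_smul_left, inner_smul_right, inner_sw_left, conj_trivial]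
  field_simp

/-! ### divergence -/

/-- cross product -/
def crs (a b : E) : E := !₂[a 1 * b 2 - a 2 * b 1, a 2 * b 0 - a 0 * b 2, a 0 * b 1 - a 1 * b 0]

@[simp] lemma crs_zero (a b : E) : crs a b 0 = a 1 * b 2 - a 2 * b 1 := by simp [crs]
@[simp] lemma crs_one (a b : E) : crs a b 1 = a 2 * b 0 - a 0 * b 2 := by simp [crs]
@[simp] lemma crs_two (a b : E) : crs a b 2 = a 0 * b 1 - a 1 * b 0 := by simp [crs]

lemma dvg_congr {v w : E → E} {x : E} (h : v =ᶠ[𝓝 x] w) : dvg v x = dvg w x := by
  simp only [dvg, h.fderiv_eq]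

lemma dvg_add {v w : E → E} {x : E} (hv : DifferentiableAt ℝ v x) (hw : DifferentiableAt ℝ w x) :
    dvg (fun y => v y + w y) x = dvg v x + dvg w x := by
  simp only [dvg, fderiv_fun_add hv hw, ← Finset.sum_add_distrib]
  simp

lemma dvg_smul {f : E → ℝ} {v : E → E} {x : E} (hf : DifferentiableAt ℝ f x)
    (hv : DifferentiableAt ℝ v x) :
    dvg (fun y => f y • v y) x = ⟪∇ f x, v x⟫ + f x * dvg v x := by
  simp only [dvg, fderiv_fun_smul hf hv, inner_eq_three, grad_apply, Fin.sum_univ_three]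
  simp
  ring

lemma dvg_const (c x : E) : dvg (fun _ => c) x = 0 := by
  simp [dvg]

lemma dvg_id (x : E) : dvg (fun y => y) x = 3 := by
  simp [dvg]

lemma fderiv_apply_coord {v : E → E} {x : E} (hv : DifferentiableAt ℝ v x) (i : Fin 3) (w : E) :
    fderiv ℝ (fun y => v y i) x w = fderiv ℝ v x w i := by
  have := ((EuclideanSpace.proj (𝕜 := ℝ) i : E →L[ℝ] ℝ).hasFDerivAt.comp x hv.hasFDerivAt).fderiv
  have h2 : (fun y => v y i) = (EuclideanSpace.proj (𝕜 := ℝ) i : E →L[ℝ] ℝ) ∘ v := rfl
  rw [h2, this]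
  simp

lemma dvg_eq_sum_grad {v : E → E} {x : E} (hv : DifferentiableAt ℝ v x) :
    dvg v x = ∑ i : Fin 3, ∇ (fun y => v y i) x i := by
  simp only [dvg, grad_apply, fderiv_apply_coord hv]

lemma contDiffAt_coord {n : WithTop ℕ∞} {a : E → E} {x : E} (ha : ContDiffAt ℝ n a x) (i : Fin 3) :
    ContDiffAt ℝ n (fun y => a y i) x :=
  (EuclideanSpace.proj (𝕜 := ℝ) i : E →L[ℝ] ℝ).contDiff.contDiffAt.comp x ha

lemma contDiffAt_crs {a b : E → E} {x : E} (ha : ContDiffAt ℝ ∞ a x) (hb : ContDiffAt ℝ ∞ b x) :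
    ContDiffAt ℝ ∞ (fun y => crs (a y) (b y)) x := by
  rw [contDiffAt_euclidean]
  intro i
  fin_cases i
  · simpa using ((contDiffAt_coord ha 1).mul (contDiffAt_coord hb 2)).sub
      ((contDiffAt_coord ha 2).mul (contDiffAt_coord hb 1))
  · simpa using ((contDiffAt_coord ha 2).mul (contDiffAt_coord hb 0)).sub
      ((contDiffAt_coord ha 0).mul (contDiffAt_coord hb 2))
  · simpa using ((contDiffAt_coord ha 0).mul (contDiffAt_coord hb 1)).sub
      ((contDiffAt_coord ha 1).mul (contDiffAt_coord hb 0))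

lemma two_le_infty : (2 : WithTop ℕ∞) ≤ ((⊤ : ℕ∞) : WithTop ℕ∞) :=
  WithTop.coe_le_coe.2 (le_top : (2 : ℕ∞) ≤ ⊤)

/-- symmetry of second derivatives -/
lemma grad_grad_symm {f : E → ℝ} {x : E} (hf : ContDiffAt ℝ ∞ f x) (i j : Fin 3) :
    ∇ (fun y => ∇ f y i) x j = ∇ (fun y => ∇ f y j) x i := by
  have hs : IsSymmSndFDerivAt ℝ f x := hf.isSymmSndFDerivAt (by
    simp only [minSmoothness_of_isRCLikeNormedField]; exact two_le_infty)
  have hd : DifferentiableAt ℝ (fderiv ℝ f) x :=
    (hf.fderiv_right (m := 1) two_le_infty).differentiableAt (by simp)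
  have key : ∀ a b : E, fderiv ℝ (fun y => fderiv ℝ f y a) x b = fderiv ℝ (fderiv ℝ f) x b a := by
    intro a b
    rw [fderiv_clm_apply hd (differentiableAt_const a)]
    simp
  simp only [grad_apply, key]
  exact hs _ _

lemma dvg_crs_grad {f g : E → ℝ} {x : E} (hf : ContDiffAt ℝ ∞ f x) (hg : ContDiffAt ℝ ∞ g x) :
    dvg (fun y => crs (∇ f y) (∇ g y)) x = 0 := by
  have hf' := contDiffAt_grad hf
  have hg' := contDiffAt_grad hg
  have df : ∀ i, DifferentiableAt ℝ (fun y => ∇ f y i) x := fun i =>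
    (contDiffAt_coord hf' i).differentiableAt (by simp)
  have dg : ∀ i, DifferentiableAt ℝ (fun y => ∇ g y i) x := fun i =>
    (contDiffAt_coord hg' i).differentiableAt (by simp)
  rw [dvg_eq_sum_grad ((contDiffAt_crs hf' hg').differentiableAt (by simp)), Fin.sum_univ_three]
  simp only [crs_zero, crs_one, crs_two]
  rw [grad_sub ((df _).fun_mul (dg _)) ((df _).fun_mul (dg _)),
    grad_sub ((df _).fun_mul (dg _)) ((df _).fun_mul (dg _)),
    grad_sub ((df _).fun_mul (dg _)) ((df _).fun_mul (dg _))]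
  simp only [grad_mul (df _) (dg _), PiLp.sub_apply, PiLp.add_apply, PiLp.smul_apply, smul_eq_mul]
  rw [grad_grad_symm hf 1 0, grad_grad_symm hf 2 0, grad_grad_symm hf 2 1,
    grad_grad_symm hg 1 0, grad_grad_symm hg 2 0, grad_grad_symm hg 2 1]
  ring

lemma integral_fderiv_apply_eq_zero {f : E → ℝ} (hf : ContDiff ℝ 1 f) (hc : HasCompactSupport f)
    (v : E) : ∫ x, fderiv ℝ f x v = 0 := by
  have h1 : Integrable (fun x => fderiv ℝ f x v) volume :=
    ((hf.continuous_fderiv (by simp)).clm_apply continuous_const).integrable_of_hasCompactSupport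
      (hc.fderiv_apply ℝ v)
  have := integral_mul_fderiv_eq_neg_fderiv_mul_of_integrable (μ := (volume : Measure E))
    (f := fun _ : E => (1 : ℝ)) (g := f) (v := v) (by simp) (by simpa using h1)
    (by simpa using hf.continuous.integrable_of_hasCompactSupport hc)
    (fun _ _ => differentiableAt_const _) (fun x _ => hf.differentiable (by simp) x)
  simpa using this

lemma integral_dvg_eq_zero {v : E → E} (hv : ContDiff ℝ 1 v) (hc : HasCompactSupport v) :
    ∫ x, dvg v x = 0 := by
  have h1 : ∀ x, dvg v x = ∑ i : Fin 3, fderiv ℝ (fun y => v y i) x (EuclideanSpace.single i 1) :=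
    fun x => by simp only [dvg, fderiv_apply_coord (hv.differentiable (by simp) x)]
  have h2 : ∀ i : Fin 3, ContDiff ℝ 1 (fun y => v y i) := fun i =>
    contDiff_iff_contDiffAt.2 fun x => contDiffAt_coord hv.contDiffAt i
  have h3 : ∀ i : Fin 3, HasCompactSupport (fun y => v y i) := fun i =>
    HasCompactSupport.intro hc fun x hx => by simp [image_eq_zero_of_notMem_tsupport hx]
  simp only [h1]
  rw [integral_finsetSum]
  · exact Finset.sum_eq_zero fun i _ => integral_fderiv_apply_eq_zero (h2 i) (h3 i) _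
  · intro i _
    exact (((h2 i).continuous_fderiv (by simp)).clm_apply
      continuous_const).integrable_of_hasCompactSupport ((h3 i).fderiv_apply ℝ _)

lemma continuousAt_dvg {v : E → E} {x : E} (hv : ContDiffAt ℝ 1 v x) : ContinuousAt (dvg v) x := by
  have h1 : ContinuousAt (fderiv ℝ v) x := (hv.fderiv_right (m := 0) (by simp)).continuousAt
  unfold dvg
  refine tendsto_finsetSum _ fun i _ => ?_
  exact ((EuclideanSpace.proj (𝕜 := ℝ) i : E →L[ℝ] ℝ).continuous.continuousAt.comp
    (h1.clm_apply continuousAt_const))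

/-- integration by parts -/
lemma integral_inner_grad_eq {U : Set E} {J : E → E} {η : E → ℝ} (_hU : IsOpen U)
    (hJ : ∀ x ∈ U, ContDiffAt ℝ 1 J x) (hη : Test U η) :
    ∫ x, ⟪J x, ∇ η x⟫ = -∫ x, η x * dvg J x := by
  have hz : ∀ x, x ∉ tsupport η → η =ᶠ[𝓝 x] 0 := fun x hx =>
    notMem_tsupport_iff_eventuallyEq.1 hx
  have h1 : ContDiff ℝ 1 (fun y => η y • J y) := by
    refine contDiff_iff_contDiffAt.2 fun x => ?_
    by_cases hx : x ∈ tsupport η
    · exact hη.contDiff_one.contDiffAt.smul (hJ x (hη.sub hx))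
    · refine (contDiffAt_const (c := (0 : E))).congr_of_eventuallyEq ?_
      filter_upwards [hz x hx] with y hy
      simp [hy]
  have h2 : HasCompactSupport (fun y => η y • J y) :=
    HasCompactSupport.intro hη.cpt fun x hx => by simp [image_eq_zero_of_notMem_tsupport hx]
  have h3 := integral_dvg_eq_zero h1 h2
  have h4 : ∀ x, dvg (fun y => η y • J y) x = ⟪J x, ∇ η x⟫ + η x * dvg J x := by
    intro x
    by_cases hx : x ∈ tsupport η
    · rw [dvg_smul (hη.differentiable x) ((hJ x (hη.sub hx)).differentiableAt (by simp)),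
        real_inner_comm]
    · rw [dvg_congr (w := fun _ => 0), dvg_const, grad_eq_zero_of_notMem hx,
        image_eq_zero_of_notMem_tsupport hx]
      · simp
      · filter_upwards [hz x hx] with y hy
        simp [hy]
  have i1 : Integrable (fun x => ⟪J x, ∇ η x⟫) volume := by
    refine Continuous.integrable_of_hasCompactSupport (continuous_iff_continuousAt.2 fun x => ?_)
      (HasCompactSupport.intro hη.cpt fun x hx => by simp [grad_eq_zero_of_notMem hx])
    by_cases hx : x ∈ tsupport η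
    · exact (hJ x (hη.sub hx)).continuousAt.inner hη.continuous_grad.continuousAt
    · refine (continuousAt_const (y := (0 : ℝ))).congr ?_
      filter_upwards [(isClosed_tsupport η).isOpen_compl.mem_nhds hx] with y hy
      simp [grad_eq_zero_of_notMem hy]
  have i2 : Integrable (fun x => η x * dvg J x) volume := by
    refine Continuous.integrable_of_hasCompactSupport (continuous_iff_continuousAt.2 fun x => ?_)
      (HasCompactSupport.intro hη.cpt fun x hx => by simp [image_eq_zero_of_notMem_tsupport hx])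
    by_cases hx : x ∈ tsupport η
    · exact hη.continuous.continuousAt.mul (continuousAt_dvg (hJ x (hη.sub hx)))
    · refine (continuousAt_const (y := (0 : ℝ))).congr ?_
      filter_upwards [hz x hx] with y hy
      simp [hy]
  simp only [h4] at h3
  rw [integral_add i1 i2] at h3
  linarith

lemma integral_inner_grad_eq_zero {U : Set E} {J : E → E} {η : E → ℝ} (hU : IsOpen U)
    (hJ : ∀ x ∈ U, ContDiffAt ℝ 1 J x ∧ dvg J x = 0) (hη : Test U η) :
    ∫ x, ⟪J x, ∇ η x⟫ = 0 := by
  rw [integral_inner_grad_eq hU (fun x hx => (hJ x hx).1) hη, neg_eq_zero]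
  refine integral_eq_zero_of_ae (Eventually.of_forall fun x => ?_)
  by_cases hx : x ∈ U
  · simp [(hJ x hx).2]
  · simp [hη.eq_zero hx]

end

end Crest.Agent.R83
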