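import Crest.Agent.R83.Defs

/-!
Row 83: solving `div V = f` with compact support in a connected open set.
-/

set_option autoImplicit false

open MeasureTheory Set Filter Topology Metric
open scoped Gradient ContDiff RealInnerProductSpace ENNReal

namespace Crest.Agent.R83

noncomputable section

namespace Bog

lemma cont_grad {η : E → ℝ} (hη : ContDiff ℝ ∞ η) : Continuous (∇ η) :=
  (InnerProductSpace.toDual ℝ E).symm.continuous.comp (hη.continuous_fderiv (by simp))

lemma integrable_of_zero_off {F : Type*} [NormedAddCommGroup F] {g : E → F} {K : Set E}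
    (hg : Continuous g) (hK : IsCompact K) (h0 : ∀ x, x ∉ K → g x = 0) : Integrable g :=
  hg.integrable_of_hasCompactSupport (HasCompactSupport.intro hK h0)

lemma swap_t {F : ℝ → E → ℝ} (hF : Continuous (Function.uncurry F)) {K : Set E}
    (hK : IsCompact K) (h0 : ∀ t ∈ Icc (0 : ℝ) 1, ∀ z, z ∉ K → F t z = 0) :
    ∫ t in (0 : ℝ)..1, ∫ z, F t z = ∫ z, ∫ t in (0 : ℝ)..1, F t z := by
  refine intervalIntegral_integral_swap ?_
  rw [Measure.restrict_prod_eq_prod_univ, uIoc_of_le zero_le_one]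
  have h1 : IntegrableOn (Function.uncurry F) (Icc (0 : ℝ) 1 ×ˢ K) (volume.prod volume) :=
    hF.continuousOn.integrableOn_compact (isCompact_Icc.prod hK)
  refine h1.of_forall_sdiff_eq_zero (measurableSet_Ioc.prod MeasurableSet.univ) ?_
  rintro ⟨t, z⟩ ⟨h2, h3⟩
  have ht : t ∈ Icc (0 : ℝ) 1 := Ioc_subset_Icc_self h2.1
  exact h0 t ht z fun hz => h3 ⟨ht, hz⟩

lemma swap_E {F : E → E → ℝ} (hF : Continuous (Function.uncurry F)) {K K' : Set E}
    (hK : IsCompact K) (hK' : IsCompact K') (h0 : ∀ x y, F x y ≠ 0 → x ∈ K ∧ y ∈ K') :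
    ∫ x, ∫ y, F x y = ∫ y, ∫ x, F x y := by
  refine integral_integral_swap (hF.integrable_of_hasCompactSupport
    (HasCompactSupport.intro (hK.prod hK') ?_))
  rintro ⟨x, y⟩ h
  by_contra h1
  exact h (h0 x y h1)

lemma ftc {η : E → ℝ} (hη : ContDiff ℝ ∞ η) (x a : E) :
    ∫ t in (0 : ℝ)..1, ⟪a, ∇ η (x + t • a)⟫ = η (x + a) - η x := by
  have h1 : ∀ t ∈ uIcc (0 : ℝ) 1, HasDerivAt (fun t : ℝ => η (x + t • a))
      ⟪a, ∇ η (x + t • a)⟫ t := by
    intro t _
    have h2 : HasDerivAt (fun t : ℝ => x + t • a) a t := by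
      simpa using ((hasDerivAt_id t).smul_const a).const_add x
    have h3 := (hη.differentiable (by simp) (x + t • a)).hasFDerivAt.comp_hasDerivAt t h2
    rw [real_inner_comm, inner_gradient_left]
    exact h3
  have h4 := cont_grad hη
  rw [intervalIntegral.integral_eq_sub_of_hasDerivAt h1
    (Continuous.intervalIntegrable (by fun_prop) _ _)]
  simp

/-- transport along a translation -/
lemma translate {g η : E → ℝ} (hg : Continuous g) {c : E} {r : ℝ}
    (h0 : ∀ x, x ∉ closedBall c r → g x = 0) (hη : ContDiff ℝ ∞ η) (a : E) :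
    ∫ z, (∫ t in (0 : ℝ)..1, g (z - t • a)) * ⟪a, ∇ η z⟫ = ∫ x, g x * (η (x + a) - η x) := by
  have h4 := cont_grad hη
  simp_rw [← intervalIntegral.integral_mul_const, ← ftc hη, ← intervalIntegral.integral_const_mul]
  rw [← swap_t (F := fun t z => g (z - t • a) * ⟪a, ∇ η z⟫) (by fun_prop)
      (isCompact_closedBall c (r + ‖a‖)),
    ← swap_t (F := fun t x => g x * ⟪a, ∇ η (x + t • a)⟫) (by fun_prop)
      (isCompact_closedBall c r)]
  · refine intervalIntegral.integral_congr fun t _ => ?_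
    rw [← integral_add_right_eq_self _ (t • a)]
    simp
  · intro t _ z hz
    rw [h0 z hz, zero_mul]
  · intro t ht z hz
    rw [h0, zero_mul]
    intro h1
    refine hz ?_
    rw [mem_closedBall, dist_eq_norm] at h1 ⊢
    have h2 : ‖t • a‖ ≤ ‖a‖ := by
      rw [norm_smul, Real.norm_of_nonneg ht.1]
      exact mul_le_of_le_one_left (norm_nonneg _) ht.2
    calc ‖z - c‖ = ‖(z - t • a - c) + t • a‖ := by congr 1; abel
      _ ≤ _ := norm_add_le _ _
      _ ≤ _ := add_le_add h1 h2

/-- `L` is represented by a field vanishing off `K` and bounded by `M` -/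
def Sol (K : Set E) (M : ℝ) (L : (E → ℝ) → ℝ) : Prop :=
  ∃ V : E → E, Continuous V ∧ (∀ x, x ∉ K → V x = 0) ∧ (∀ x, ‖V x‖ ≤ M) ∧
    ∀ η : E → ℝ, ContDiff ℝ ∞ η → ∫ x, ⟪V x, ∇ η x⟫ = L η

lemma Sol.mono {K K' : Set E} {M M' : ℝ} {L L' : (E → ℝ) → ℝ} (h : Sol K M L) (hK : K ⊆ K')
    (hM : M ≤ M') (hL : ∀ η, ContDiff ℝ ∞ η → L η = L' η) : Sol K' M' L' := by
  obtain ⟨V, h1, h2, h3, h4⟩ := h
  exact ⟨V, h1, fun x hx => h2 x fun h => hx (hK h), fun x => (h3 x).trans hM,
    fun η hη => (h4 η hη).trans (hL η hη)⟩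

lemma Sol.add {K : Set E} {M M' : ℝ} {L L' : (E → ℝ) → ℝ} (hK : IsCompact K) (h : Sol K M L)
    (h' : Sol K M' L') : Sol K (M + M') fun η => L η + L' η := by
  obtain ⟨V, h1, h2, h3, h4⟩ := h
  obtain ⟨V', h1', h2', h3', h4'⟩ := h'
  refine ⟨fun x => V x + V' x, h1.add h1', fun x hx => by simp [h2 x hx, h2' x hx],
    fun x => (norm_add_le _ _).trans (add_le_add (h3 x) (h3' x)), fun η hη => ?_⟩
  have h5 := cont_grad hη
  simp only [inner_add_left]
  rw [integral_add (integrable_of_zero_off (by fun_prop) hK fun x hx => by simp [h2 x hx])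
    (integrable_of_zero_off (by fun_prop) hK fun x hx => by simp [h2' x hx]), h4 η hη, h4' η hη]

lemma Sol.smul {K : Set E} {M : ℝ} {L : (E → ℝ) → ℝ} (h : Sol K M L) (c : ℝ) :
    Sol K (|c| * M) fun η => c * L η := by
  obtain ⟨V, h1, h2, h3, h4⟩ := h
  refine ⟨fun x => c • V x, h1.const_smul c, fun x hx => by simp [h2 x hx], fun x => ?_,
    fun η hη => ?_⟩
  · rw [norm_smul, Real.norm_eq_abs]
    exact mul_le_mul_of_nonneg_left (h3 x) (abs_nonneg c)
  · simp only [real_inner_smul_left]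
    rw [integral_const_mul, h4 η hη]

lemma Sol.sum {ι : Type*} {K : Set E} (hK : IsCompact K) (s : Finset ι) {M : ι → ℝ}
    {L : ι → (E → ℝ) → ℝ} (h : ∀ i ∈ s, Sol K (M i) (L i)) :
    Sol K (∑ i ∈ s, M i) fun η => ∑ i ∈ s, L i η := by
  classical
  induction s using Finset.induction_on with
  | empty => exact ⟨fun _ => 0, continuous_const, fun _ _ => rfl, by simp, by simp⟩
  | insert a s ha ih =>
    simp only [Finset.sum_insert ha]
    exact (h a (Finset.mem_insert_self a s)).add hK
      (ih fun i hi => h i (Finset.mem_insert_of_mem hi))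

/-- transport inside a ball -/
lemma sol_ball {f w : E → ℝ} (hf : Continuous f) (hw : Continuous w) {c : E} {r B B' : ℝ}
    (hf0 : ∀ x, x ∉ closedBall c r → f x = 0) (hw0 : ∀ x, x ∉ closedBall c r → w x = 0)
    (hfB : ∀ x, |f x| ≤ B) (hwB : ∀ x, |w x| ≤ B') :
    Sol (closedBall c r) (B * B' * (2 * r) * volume.real (closedBall (0 : E) (2 * r)))
      fun η => (∫ x, f x) * (∫ x, w x * η x) - (∫ x, f x * η x) * ∫ x, w x := by
  set k : E → E → ℝ := fun z a => ∫ t in (0 : ℝ)..1, f (z - t • a) * w (z - t • a + a) with hk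
  have hkc : Continuous (Function.uncurry k) :=
    intervalIntegral.continuous_parametric_intervalIntegral_of_continuous'
      (f := fun (p : E × E) (t : ℝ) => f (p.1 - t • p.2) * w (p.1 - t • p.2 + p.2))
      (by fun_prop) 0 1
  have hfw : ∀ x a, f x * w (x + a) ≠ 0 →
      x ∈ closedBall c r ∧ x + a ∈ closedBall c r ∧ a ∈ closedBall (0 : E) (2 * r) := by
    intro x a h
    have h1 : x ∈ closedBall c r := by
      by_contra h1; exact h (by rw [hf0 x h1, zero_mul])
    have h2 : x + a ∈ closedBall c r := by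
      by_contra h2; exact h (by rw [hw0 _ h2, mul_zero])
    refine ⟨h1, h2, ?_⟩
    rw [mem_closedBall_zero_iff]
    rw [mem_closedBall, dist_eq_norm] at h1 h2
    calc ‖a‖ = ‖(x + a - c) - (x - c)‖ := by congr 1; abel
      _ ≤ _ := norm_sub_le _ _
      _ ≤ _ := by linarith
  have hk0 : ∀ z a, k z a ≠ 0 → z ∈ closedBall c r ∧ a ∈ closedBall (0 : E) (2 * r) := by
    intro z a h
    by_contra h1
    refine h ?_
    rw [hk]
    refine (intervalIntegral.integral_congr (g := fun _ => (0 : ℝ)) fun t ht => ?_).trans (by simp)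
    by_contra h2
    obtain ⟨h3, h4, h5⟩ := hfw _ _ h2
    rw [uIcc_of_le zero_le_one] at ht
    refine h1 ⟨?_, h5⟩
    have := (convex_closedBall c r).add_smul_mem h3 h4 ht
    simpa using this
  have hB : 0 ≤ B := (abs_nonneg _).trans (hfB 0)
  have hkB : ∀ z a, |k z a| ≤ B * B' := by
    intro z a
    have := intervalIntegral.norm_integral_le_of_norm_le_const (a := 0) (b := 1) (C := B * B')
      (f := fun t : ℝ => f (z - t • a) * w (z - t • a + a)) fun t _ => by
        rw [Real.norm_eq_abs, abs_mul]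
        exact mul_le_mul (hfB _) (hwB _) (abs_nonneg _) hB
    simpa using this
  have hz : ∀ z a, a ∉ closedBall (0 : E) (2 * r) → k z a • a = 0 := fun z a ha => by
    rw [not_not.1 fun h => ha (hk0 z a h).2, zero_smul]
  refine ⟨fun z => ∫ a in closedBall (0 : E) (2 * r), k z a • a,
    continuous_parametric_integral_of_continuous (by fun_prop) (isCompact_closedBall _ _),
    fun z hz => ?_, fun z => ?_, fun η hη => ?_⟩
  · have : ∀ a, k z a = 0 := fun a => not_not.1 fun h => hz (hk0 z a h).1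
    simp [this]
  · refine norm_setIntegral_le_of_norm_le_const measure_closedBall_lt_top fun a ha => ?_
    rw [norm_smul, Real.norm_eq_abs]
    exact mul_le_mul (hkB z a) (mem_closedBall_zero_iff.1 ha) (norm_nonneg _)
      ((abs_nonneg _).trans (hkB z a))
  · have h5 := cont_grad hη
    have h6 := hη.continuous
    have h7 : ∀ z, ⟪∫ a in closedBall (0 : E) (2 * r), k z a • a, ∇ η z⟫ =
        ∫ a, k z a * ⟪a, ∇ η z⟫ := by
      intro z
      rw [setIntegral_eq_integral_of_forall_compl_eq_zero (hz z), real_inner_comm,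
        ← integral_inner (integrable_of_zero_off (by fun_prop) (isCompact_closedBall _ _) (hz z))]
      simp only [real_inner_smul_right, real_inner_comm]
    simp_rw [h7]
    rw [swap_E (F := fun z a => k z a * ⟪a, ∇ η z⟫) (by fun_prop) (isCompact_closedBall c r)
      (isCompact_closedBall 0 (2 * r)) fun z a h => hk0 z a (left_ne_zero_of_mul h)]
    have h8 : ∀ a, ∫ z, k z a * ⟪a, ∇ η z⟫ = ∫ x, f x * w (x + a) * (η (x + a) - η x) :=
      fun a => translate (g := fun x => f x * w (x + a)) (by fun_prop)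
        (fun x hx => by rw [hf0 x hx, zero_mul]) hη a
    simp_rw [h8]
    rw [swap_E (F := fun a x => f x * w (x + a) * (η (x + a) - η x)) (by fun_prop)
      (isCompact_closedBall 0 (2 * r)) (isCompact_closedBall c r) fun a x h =>
        ⟨(hfw x a (left_ne_zero_of_mul h)).2.2, (hfw x a (left_ne_zero_of_mul h)).1⟩]
    have hwi : Integrable w := integrable_of_zero_off hw (isCompact_closedBall c r) hw0
    have hwη : Integrable fun x => w x * η x := integrable_of_zero_off (by fun_prop)
      (isCompact_closedBall c r) fun x hx => by rw [hw0 x hx, zero_mul]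
    have hfi : Integrable f := integrable_of_zero_off hf (isCompact_closedBall c r) hf0
    have hfη : Integrable fun x => f x * η x := integrable_of_zero_off (by fun_prop)
      (isCompact_closedBall c r) fun x hx => by rw [hf0 x hx, zero_mul]
    have h9 : ∀ x, ∫ a, f x * w (x + a) * (η (x + a) - η x) =
        f x * (∫ y, w y * η y) - f x * η x * ∫ y, w y := by
      intro x
      rw [integral_add_left_eq_self (fun y => f x * w y * (η y - η x)) x, ← integral_const_mul,
        ← integral_const_mul, ← integral_sub (hwη.const_mul _) (hwi.const_mul _)]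
      congr 1
      funext y
      ring
    simp_rw [h9]
    rw [integral_sub (hfi.mul_const _) (hfη.mul_const _), integral_mul_const, integral_mul_const]

lemma exists_bump (y : E) {ρ : ℝ} (hρ : 0 < ρ) : ∃ (w : E → ℝ) (B : ℝ), Continuous w ∧
    (∀ x, x ∉ closedBall y ρ → w x = 0) ∧ (∀ x, |w x| ≤ B) ∧ ∫ x, w x = 1 := by
  let b : ContDiffBump y := ⟨ρ / 2, ρ, half_pos hρ, half_lt_self hρ⟩
  obtain ⟨B, hB⟩ := (b.continuous_normed (μ := volume)).bounded_above_of_compact_support
    b.hasCompactSupport_normed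
  refine ⟨b.normed volume, B, b.continuous_normed, fun x hx => ?_, hB, b.integral_normed⟩
  by_contra h
  have : x ∈ Function.support (b.normed volume) := h
  rw [b.support_normed_eq] at this
  exact hx (ball_subset_closedBall this)

/-- mass near `x` can be moved to the functional `ℓ` inside `U` -/
def Good (U : Set E) (ℓ : (E → ℝ) → ℝ) (x : E) : Prop :=
  ∃ (ρ C : ℝ) (K' : Set E), 0 < ρ ∧ 0 ≤ C ∧ IsCompact K' ∧ K' ⊆ U ∧ ∀ (f : E → ℝ) (B : ℝ),
    Continuous f → (∀ y, y ∉ closedBall x ρ → f y = 0) → (∀ y, |f y| ≤ B) →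
    Sol K' (C * B) fun η => (∫ y, f y) * ℓ η - ∫ y, f y * η y

lemma good_base {U : Set E} {x : E} {r : ℝ} (hr : 0 < r) (hU : closedBall x r ⊆ U) :
    ∃ ℓ, Good U ℓ x := by
  obtain ⟨w, B', h1, h2, h3, h4⟩ := exists_bump x hr
  have hB' : 0 ≤ B' := (abs_nonneg _).trans (h3 0)
  refine ⟨fun η => ∫ y, w y * η y, r, B' * (2 * r) * volume.real (closedBall (0 : E) (2 * r)),
    closedBall x r, hr, by positivity, isCompact_closedBall _ _, hU, fun f B hf hf0 hfB => ?_⟩
  exact (sol_ball hf h1 hf0 h2 hfB h3).mono subset_rfl (le_of_eq (by ring)) fun η _ => by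
    rw [h4, mul_one]

lemma good_step {U : Set E} {ℓ : (E → ℝ) → ℝ} {c x y : E} {r : ℝ} (hU : closedBall c r ⊆ U)
    (hx : x ∈ ball c r) (hy : y ∈ ball c r) (h : Good U ℓ y) : Good U ℓ x := by
  obtain ⟨ρ, C, K', hρ, hC, hK', hK'U, H⟩ := h
  rw [mem_ball] at hx hy
  have hr : 0 < r := dist_nonneg.trans_lt hx
  obtain ⟨w, B', h1, h2, h3, h4⟩ := exists_bump y (lt_min hρ (sub_pos.2 hy))
  have hB' : 0 ≤ B' := (abs_nonneg _).trans (h3 0)
  have h5 := H w B' h1 (fun z hz => h2 z fun h => hz
    (closedBall_subset_closedBall (min_le_left _ _) h)) h3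
  have hK := (isCompact_closedBall c r).union hK'
  refine ⟨r - dist x c, B' * (2 * r) * volume.real (closedBall (0 : E) (2 * r)) +
    volume.real (closedBall c r) * (C * B'), closedBall c r ∪ K', sub_pos.2 hx, by positivity, hK,
    union_subset hU hK'U, fun f B hf hf0 hfB => ?_⟩
  have hf0' : ∀ z, z ∉ closedBall c r → f z = 0 := fun z hz => hf0 z fun h =>
    hz (closedBall_subset_closedBall' (by linarith) h)
  have h6 := sol_ball hf h1 hf0' (fun z hz => h2 z fun h => hz
    (closedBall_subset_closedBall' (by linarith [min_le_right ρ (r - dist y c)]) h)) hfB h3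
  have h7 : |∫ z, f z| ≤ B * volume.real (closedBall c r) := by
    rw [← setIntegral_eq_integral_of_forall_compl_eq_zero hf0', ← Real.norm_eq_abs]
    exact norm_setIntegral_le_of_norm_le_const measure_closedBall_lt_top fun z _ => hfB z
  refine ((h6.mono subset_union_left le_rfl fun _ _ => rfl).add hK
    ((h5.smul (∫ z, f z)).mono subset_union_right le_rfl fun _ _ => rfl)).mono subset_rfl ?_
    fun η _ => ?_
  · have := mul_le_mul_of_nonneg_right h7 (mul_nonneg hC hB')
    nlinarith
  · rw [h4]; ring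

lemma good_all {U : Set E} (hU : IsOpen U) (hc : IsPreconnected U) : ∃ ℓ, ∀ x ∈ U, Good U ℓ x := by
  have hb : ∀ x ∈ U, ∃ r > 0, closedBall x r ⊆ U := fun x hx =>
    Metric.nhds_basis_closedBall.mem_iff.1 (hU.mem_nhds hx)
  rcases U.eq_empty_or_nonempty with rfl | ⟨x0, hx0⟩
  · exact ⟨fun _ => 0, fun x hx => hx.elim⟩
  obtain ⟨r, hr, hrU⟩ := hb x0 hx0
  obtain ⟨ℓ, hℓ⟩ := good_base hr hrU
  refine ⟨ℓ, fun x hx => hc.induction₂' (fun a b => Good U ℓ a → Good U ℓ b) (fun a ha => ?_)
    (fun _ _ _ _ _ _ h1 h2 h => h2 (h1 h)) hx0 hx hℓ⟩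
  obtain ⟨s, hs, hsU⟩ := hb a ha
  filter_upwards [mem_nhdsWithin_of_mem_nhds (ball_mem_nhds a hs)] with b hb'
  exact ⟨good_step hsU hb' (mem_ball_self hs), good_step hsU (mem_ball_self hs) hb'⟩

end Bog

open Bog in
theorem bog : BogStmt := by
  intro U K hU hc hK hKU
  obtain ⟨ℓ, hℓ⟩ := good_all hU hc
  choose! ρ C K' hρ hC hK' hK'U H using hℓ
  obtain ⟨t, ht, hcov⟩ := hK.elim_nhds_subcover (fun x => ball x (ρ x))
    fun x hx => ball_mem_nhds x (hρ x (hKU hx))
  have htU : ∀ i : t, (i : E) ∈ U := fun i => hKU (ht i i.2)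
  obtain ⟨φ, hφ⟩ := PartitionOfUnity.exists_isSubordinate hK.isClosed
    (fun i : t => ball (i : E) (ρ i)) (fun _ => isOpen_ball) (by
      intro x hx
      obtain ⟨i, hi, h⟩ := mem_iUnion₂.1 (hcov hx)
      exact mem_iUnion.2 ⟨⟨i, hi⟩, h⟩)
  have hKc : IsCompact (⋃ i : t, K' i) := isCompact_iUnion fun i => hK' i (htU i)
  refine ⟨∑ i : t, C i, ⋃ i : t, K' i, Finset.sum_nonneg fun i _ => hC i (htU i), hKc,
    iUnion_subset fun i => hK'U i (htU i), fun f B hf hf0 hfB hI => ?_⟩
  have hsum : ∀ x, ∑ i : t, φ i x * f x = f x := by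
    intro x
    by_cases hx : x ∈ K
    · rw [← Finset.sum_mul, ← finsum_eq_sum_of_fintype, φ.sum_eq_one hx, one_mul]
    · simp [hf0 x hx]
  have h1 : ∀ i : t, Sol (⋃ i : t, K' i) (C i * B)
      fun η => (∫ y, φ i y * f y) * ℓ η - ∫ y, φ i y * f y * η y := by
    intro i
    refine (H i (htU i) (fun y => φ i y * f y) B (by fun_prop) (fun y hy => ?_)
      fun y => ?_).mono (subset_iUnion (fun i : t => K' i) i) le_rfl fun _ _ => rfl
    · have : φ i y = 0 := by
        by_contra h
        exact hy (ball_subset_closedBall (hφ i (subset_tsupport _ h)))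
      rw [this, zero_mul]
    · rw [abs_mul, abs_of_nonneg (φ.nonneg i y)]
      exact (mul_le_of_le_one_left (abs_nonneg _) (φ.le_one i y)).trans (hfB y)
  refine (Sol.sum hKc Finset.univ fun i _ => h1 i).mono subset_rfl
    (le_of_eq (Finset.sum_mul _ _ _).symm) fun η hη => ?_
  have h2 := hη.continuous
  rw [Finset.sum_sub_distrib, ← Finset.sum_mul, ← integral_finsetSum, ← integral_finsetSum]
  · simp_rw [← Finset.sum_mul _ _ (η _), hsum]
    rw [hI, zero_mul, zero_sub]
  · exact fun i _ => integrable_of_zero_off (by fun_prop) hK fun x hx => by simp [hf0 x hx]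
  · exact fun i _ => integrable_of_zero_off (by fun_prop) hK fun x hx => by simp [hf0 x hx]

end

end Crest.Agent.R83
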