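import Crest.Agent.R83.Basic

/-! Row 83: compactly supported `C¹` functions lie in `H¹₀`. -/

set_option autoImplicit false

open MeasureTheory Set Filter Topology Metric
open scoped Gradient ContDiff RealInnerProductSpace ENNReal Convolution Pointwise

namespace Crest.Agent.R83

namespace C1Aux

lemma norm_grad_sub (φ ψ : E → ℝ) (x : E) :
    ‖∇ φ x - ∇ ψ x‖ = ‖fderiv ℝ φ x - fderiv ℝ ψ x‖ := by
  unfold gradient
  rw [← map_sub, LinearIsometryEquiv.norm_map]

lemma exists_approx {φ : E → ℝ} (h1 : ContDiff ℝ 1 φ) (hc : HasCompactSupport φ) {δ ε : ℝ}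
    (hδ : 0 < δ) (hε : 0 < ε) : ∃ χ : E → ℝ, ContDiff ℝ ∞ χ ∧
      (∀ x, x ∉ cthickening δ (tsupport φ) → χ x = 0) ∧
      ∀ x, |φ x - χ x| ≤ ε ∧ ‖∇ φ x - ∇ χ x‖ ≤ ε := by
  have hd : Continuous (fderiv ℝ φ) := h1.continuous_fderiv (by simp)
  have u1 := hc.uniformContinuous_of_continuous h1.continuous
  have u2 := (hc.fderiv ℝ).uniformContinuous_of_continuous hd
  obtain ⟨r1, hr1, H1⟩ := Metric.uniformContinuous_iff.mp u1 ε hε
  obtain ⟨r2, hr2, H2⟩ := Metric.uniformContinuous_iff.mp u2 ε hε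
  set r := min δ (min r1 r2) with hr
  have hr0 : 0 < r := lt_min hδ (lt_min hr1 hr2)
  let ρ : ContDiffBump (0 : E) := ⟨r / 2, r, by linarith, by linarith⟩
  have hρ : ρ.rOut = r := rfl
  refine ⟨ρ.normed volume ⋆[ContinuousLinearMap.lsmul ℝ ℝ, volume] φ, ?_, ?_, fun x => ⟨?_, ?_⟩⟩
  · exact ρ.hasCompactSupport_normed.contDiff_convolution_left _ ρ.contDiff_normed
      h1.continuous.locallyIntegrable
  · intro x hx
    by_contra hne
    have := support_convolution_subset (L := ContinuousLinearMap.lsmul ℝ ℝ) (μ := volume)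
      (f := ρ.normed volume) (g := φ) hne
    obtain ⟨a, ha, b, hb, rfl⟩ := this
    rw [ρ.support_normed_eq, hρ, mem_ball_zero_iff] at ha
    apply hx
    refine mem_cthickening_of_dist_le _ b δ _ (subset_tsupport _ hb) ?_
    simp only [dist_add_self_left]
    exact ha.le.trans (min_le_left _ _)
  · rw [← Real.dist_eq, dist_comm]
    refine ρ.dist_normed_convolution_le h1.continuous.aestronglyMeasurable fun y hy => ?_
    exact (H1 (lt_of_lt_of_le hy ((min_le_right _ _).trans (min_le_left _ _)))).le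
  · rw [norm_grad_sub, ← dist_eq_norm, dist_comm]
    have hf := (hc.hasFDerivAt_convolution_right (ContinuousLinearMap.lsmul ℝ ℝ)
      ((ρ.continuous_normed (μ := volume)).locallyIntegrable (μ := volume)) h1 x).fderiv
    have e : (ρ.normed volume ⋆[(ContinuousLinearMap.lsmul ℝ ℝ).precompR E, volume]
        fderiv ℝ φ) x = (ρ.normed volume ⋆[ContinuousLinearMap.lsmul ℝ ℝ, volume] fderiv ℝ φ) x := by
      simp only [convolution_def]
      congr 1
    rw [hf, e]
    refine ρ.dist_normed_convolution_le hd.aestronglyMeasurable fun y hy => ?_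
    exact (H2 (lt_of_lt_of_le hy ((min_le_right _ _).trans (min_le_right _ _)))).le

end C1Aux

theorem c1 : C1Stmt := by
  intro U φ hU h1 hc hs
  obtain ⟨δ, hδ, hsub⟩ := hc.isCompact.exists_cthickening_subset_open hU hs
  have hK : IsCompact (cthickening δ (tsupport φ)) := hc.isCompact.cthickening
  choose χ hχ1 hχ2 hχ3 using fun n : ℕ =>
    C1Aux.exists_approx h1 hc hδ (Nat.one_div_pos_of_nat (α := ℝ) (n := n))
  refine IsH.of_uniform (un := χ) (gn := fun n => ∇ (χ n)) (K := cthickening δ (tsupport φ))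
    (fun n => (Test.of_zero_off (hχ1 n) hK hsub (hχ2 n)).isH) hK.isBounded
    h1.continuous.aestronglyMeasurable (continuous_grad h1).aestronglyMeasurable ?_ hχ3
    tendsto_one_div_add_atTop_nhds_zero_nat
  intro n x hx
  have hx' : x ∉ tsupport φ := fun h => hx (self_subset_cthickening _ h)
  refine ⟨by rw [hχ2 n x hx, image_eq_zero_of_notMem_tsupport hx'], ?_⟩
  rw [grad_eq_zero_of_notMem hx', grad_eq_zero_of_notMem]
  intro h
  refine hx (closure_minimal (fun y hy => ?_) isClosed_cthickening h)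
  by_contra hy'
  exact hy (hχ2 n y hy')

end Crest.Agent.R83
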