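import Crest.Agent.R83.Basic

/-!
Row 83: auxiliary lemmas for the convex integration iteration (algebra, `L²` convergence).
-/

set_option autoImplicit false

open MeasureTheory Set Filter Topology Metric
open scoped Gradient ContDiff RealInnerProductSpace ENNReal

namespace Crest.Agent.R83.CI

noncomputable section

/-! ### algebra -/

lemma inner_expand (e j : E) (h m : ℝ) :
    ⟪j - h • e, j - m • e⟫ = ‖j‖ ^ 2 - (h + m) * ⟪e, j⟫ + h * m * ‖e‖ ^ 2 := by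
  simp only [inner_sub_left, inner_sub_right, real_inner_smul_left, real_inner_smul_right,
    real_inner_self_eq_norm_sq, real_inner_comm e j]
  ring

lemma inU_of_le {Λ b : ℝ} (hΛ : 0 ≤ Λ) (hb : b = 4 * Λ + 2) {e j : E} (h0 : e ≠ 0 ∨ j ≠ 0)
    (h : ‖e‖ ^ 2 + ‖j‖ ^ 2 ≤ Λ * ⟪e, j⟫) : inU b e j := by
  have hb2 : 2 ≤ b := by linarith
  have hb0 : 0 < b := by linarith
  have hbi : 0 < b⁻¹ := inv_pos.2 hb0
  have hbi2 : b⁻¹ ≤ 1 / 2 := by
    rw [inv_le_comm₀ hb0 (by norm_num)]; norm_num; exact hb2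
  have hpos : 0 < ‖e‖ ^ 2 + ‖j‖ ^ 2 := by
    rcases h0 with h0 | h0
    · have := norm_pos_iff.2 h0; positivity
    · have := norm_pos_iff.2 h0; positivity
  have hI : 0 < ⟪e, j⟫ := by
    by_contra hc
    push Not at hc
    nlinarith
  refine ⟨2 * b⁻¹, by linarith, by linarith, ?_⟩
  rw [inner_expand]
  have h1 : (2 * b⁻¹)⁻¹ = b / 2 := by field_simp
  have h2 : b⁻¹ * b = 1 := inv_mul_cancel₀ hb0.ne'
  rw [h1]
  have h3 : 2 * b⁻¹ * (b⁻¹ + b - b / 2) ≤ 2 := by nlinarith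
  have h4 : 2 * b⁻¹ * (b⁻¹ + b - b / 2) * ‖e‖ ^ 2 ≤ 2 * ‖e‖ ^ 2 :=
    mul_le_mul_of_nonneg_right h3 (sq_nonneg _)
  nlinarith [sq_nonneg ‖j‖, mul_pos hbi hI]

lemma cs_sq (e j : E) : ⟪e, j⟫ ^ 2 ≤ ‖e‖ ^ 2 * ‖j‖ ^ 2 := by
  rw [← mul_pow, ← sq_abs]
  exact pow_le_pow_left₀ (abs_nonneg _) (abs_real_inner_le_norm e j) 2

lemma inU_closed {b : ℝ} (hb : 1 < b) {e j : E} (h : inU b e j) :
    e ≠ 0 ∧ b⁻¹ * ‖e‖ ^ 2 ≤ ⟪e, j⟫ ∧ ⟪e, j⟫ ≤ b * ‖e‖ ^ 2 ∧ ‖j‖ ^ 2 ≤ 2 * b * ⟪e, j⟫ := by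
  obtain ⟨h, h1, h2, h3⟩ := h
  rw [inner_expand] at h3
  have hb0 : 0 < b := by linarith
  have hbi : 0 < b⁻¹ := inv_pos.2 hb0
  have hh : 0 < h := hbi.trans h1
  set m := b⁻¹ + b - h⁻¹ with hm
  have hmb : m < b := by
    have : b⁻¹ < h⁻¹ := (inv_lt_inv₀ hb0 hh).2 h2
    linarith
  have hma : b⁻¹ < m := by
    have : h⁻¹ < b := by rwa [inv_lt_comm₀ hh hb0]
    linarith
  have he : e ≠ 0 := by
    rintro rfl
    simp only [inner_zero_left, norm_zero] at h3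
    nlinarith [sq_nonneg ‖j‖]
  have hE : 0 < ‖e‖ ^ 2 := by have := norm_pos_iff.2 he; positivity
  have hcs := cs_sq e j
  set I := ⟪e, j⟫
  set Q := ‖e‖ ^ 2
  have h4 : (I - h * Q) * (I - m * Q) < 0 := by nlinarith
  have h5 : b⁻¹ * Q ≤ I := by
    by_contra hc
    push Not at hc
    have : 0 < (h * Q - I) * (m * Q - I) := mul_pos (by nlinarith) (by nlinarith)
    nlinarith
  have h6 : I ≤ b * Q := by
    by_contra hc
    push Not at hc
    have : 0 < (I - h * Q) * (I - m * Q) := mul_pos (by nlinarith) (by nlinarith)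
    linarith
  refine ⟨he, h5, h6, ?_⟩
  have hI : 0 ≤ I := le_trans (by positivity) h5
  have : 0 ≤ h * m * Q := by have := hbi.trans hma; positivity
  nlinarith

lemma inU_norm_le {b : ℝ} (hb : 1 < b) {e j : E} (h : inU b e j) :
    ‖e‖ ^ 2 + ‖j‖ ^ 2 ≤ 3 * b * ⟪e, j⟫ := by
  obtain ⟨-, h1, -, h3⟩ := inU_closed hb h
  have hb0 : 0 < b := by linarith
  rw [inv_mul_le_iff₀ hb0] at h1
  linarith

lemma dfc_nonneg (e j : E) : 0 ≤ dfc e j := by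
  unfold dfc
  rcases eq_or_ne e 0 with rfl | he
  · simp
  · have hE : 0 < ‖e‖ ^ 2 := by have := norm_pos_iff.2 he; positivity
    rw [sub_nonneg, div_le_iff₀ hE, mul_comm]
    exact cs_sq e j

lemma dfc_le (e j : E) : dfc e j ≤ ‖j‖ ^ 2 := by
  unfold dfc
  have : 0 ≤ ⟪e, j⟫ ^ 2 / ‖e‖ ^ 2 := by positivity
  linarith

/-- the conductivity read off from the pair `(e, j)` -/
def gam (b : ℝ) (e j : E) : ℝ := max b⁻¹ (min b (⟪e, j⟫ / ‖e‖ ^ 2))

lemma gam_mem {b : ℝ} (hb : 1 < b) (e j : E) : b⁻¹ ≤ gam b e j ∧ gam b e j ≤ b :=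
  ⟨le_max_left _ _, max_le ((inv_le_one_of_one_le₀ hb.le).trans hb.le) (min_le_left _ _)⟩

lemma limit_eq {b : ℝ} (hb : 1 < b) {e j : ℕ → E} {e' j' : E} (h : ∀ n, inU b (e n) (j n))
    (he : Tendsto e atTop (𝓝 e')) (hj : Tendsto j atTop (𝓝 j'))
    (hd : Tendsto (fun n => dfc (e n) (j n)) atTop (𝓝 0)) : j' = gam b e' j' • e' := by
  have hI : Tendsto (fun n => ⟪e n, j n⟫) atTop (𝓝 ⟪e', j'⟫) := he.inner hj
  have hE : Tendsto (fun n => ‖e n‖ ^ 2) atTop (𝓝 (‖e'‖ ^ 2)) := he.norm.pow 2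
  have hJ : Tendsto (fun n => ‖j n‖ ^ 2) atTop (𝓝 (‖j'‖ ^ 2)) := hj.norm.pow 2
  have h1 : b⁻¹ * ‖e'‖ ^ 2 ≤ ⟪e', j'⟫ :=
    le_of_tendsto_of_tendsto' (hE.const_mul _) hI fun n => (inU_closed hb (h n)).2.1
  have h2 : ⟪e', j'⟫ ≤ b * ‖e'‖ ^ 2 :=
    le_of_tendsto_of_tendsto' hI (hE.const_mul _) fun n => (inU_closed hb (h n)).2.2.1
  have h3 : ‖j'‖ ^ 2 ≤ 2 * b * ⟪e', j'⟫ :=
    le_of_tendsto_of_tendsto' hJ (hI.const_mul _) fun n => (inU_closed hb (h n)).2.2.2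
  have h4 : ‖e'‖ ^ 2 * ‖j'‖ ^ 2 - ⟪e', j'⟫ ^ 2 = 0 := by
    have h5 := hE.mul hd
    rw [mul_zero] at h5
    refine tendsto_nhds_unique ((hE.mul hJ).sub (hI.pow 2)) (h5.congr fun n => ?_)
    have := norm_ne_zero_iff.2 (inU_closed hb (h n)).1
    unfold dfc
    field_simp
  rcases eq_or_ne e' 0 with rfl | he'
  · simp only [inner_zero_left, mul_zero] at h3
    have : ‖j'‖ = 0 := by nlinarith [norm_nonneg j']
    simpa using this
  · have hQ : 0 < ‖e'‖ ^ 2 := by have := norm_pos_iff.2 he'; positivity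
    have hg : gam b e' j' = ⟪e', j'⟫ / ‖e'‖ ^ 2 := by
      unfold gam
      rw [min_eq_right ((div_le_iff₀ hQ).2 h2), max_eq_right ((le_div_iff₀ hQ).2 h1)]
    rw [hg, ← sub_eq_zero, ← inner_self_eq_zero (𝕜 := ℝ), inner_expand]
    field_simp
    linarith

/-! ### convergence in a Hilbert space -/

lemma hilb_cauchy {H : Type*} [NormedAddCommGroup H] [InnerProductSpace ℝ H] (z : ℕ → H)
    (ε N : ℝ) (hε : 0 ≤ ε) (h : ∀ k i, k ≤ i → |⟪z k, z (i + 1) - z i⟫| ≤ ε / 2 ^ i)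
    (hN : ∀ n, ‖z n‖ ^ 2 ≤ N) : CauchySeq z := by
  let a : ℕ → ℝ := fun n => ‖z n‖ ^ 2 - 4 * (ε / 2 ^ n)
  have h1 : ∀ k l, k ≤ l → -(2 * (ε / 2 ^ k) - 2 * (ε / 2 ^ l)) ≤ ⟪z k, z l - z k⟫ := by
    intro k l hkl
    induction l, hkl using Nat.le_induction with
    | base => simp
    | succ l hkl ih =>
      have h2 := (abs_le.1 (h k l hkl)).1
      have h3 : z (l + 1) - z k = (z (l + 1) - z l) + (z l - z k) := by abel
      have h4 : ε / 2 ^ (l + 1) = ε / 2 ^ l / 2 := by rw [pow_succ, div_div]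
      rw [h3, inner_add_right, h4]
      linarith
  have h2 : ∀ k l, k ≤ l → ‖z l - z k‖ ^ 2 ≤ a l - a k := by
    intro k l hkl
    have h3 := h1 k l hkl
    rw [inner_sub_right, real_inner_self_eq_norm_sq] at h3
    rw [norm_sub_sq_real, real_inner_comm]
    simp only [a]
    linarith
  have hm : Monotone a := fun k l hkl => by nlinarith [h2 k l hkl, sq_nonneg ‖z l - z k‖]
  have hb : BddAbove (range a) := ⟨N, by
    rintro _ ⟨n, rfl⟩
    have : 0 ≤ ε / 2 ^ n := by positivity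
    have := hN n
    simp only [a]
    linarith⟩
  have hc := (tendsto_atTop_ciSup hm hb).cauchySeq
  rw [Metric.cauchySeq_iff'] at hc ⊢
  intro δ hδ
  obtain ⟨n, hn⟩ := hc (δ ^ 2) (by positivity)
  refine ⟨n, fun l hl => ?_⟩
  have h3 := hn l hl
  rw [Real.dist_eq] at h3
  rw [dist_eq_norm]
  exact lt_of_pow_lt_pow_left₀ 2 hδ.le ((h2 n l hl).trans_lt (lt_of_abs_lt h3))

lemma l2_conv (z : ℕ → E → E) (hz : ∀ n, MemLp (z n) 2 volume) (ε N : ℝ) (hε : 0 ≤ ε)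
    (h : ∀ k i, k ≤ i → |∫ x, ⟪z k x, z (i + 1) x - z i x⟫| ≤ ε / 2 ^ i)
    (hN : ∀ n, ∫ x, ‖z n x‖ ^ 2 ≤ N) :
    ∃ w : E → E, Measurable w ∧ MemLp w 2 volume ∧
      Tendsto (fun n => ∫ x, ‖w x - z n x‖ ^ 2) atTop (𝓝 0) := by
  let Z : ℕ → Lp E 2 (volume : Measure E) := fun n => (hz n).toLp (z n)
  have hZ : ∀ n, Z n =ᵐ[volume] z n := fun n => (hz n).coeFn_toLp
  have hc : CauchySeq Z := by
    refine hilb_cauchy Z ε N hε (fun k i hki => ?_) (fun n => ?_)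
    · rw [L2.inner_def]
      convert h k i hki using 2
      refine integral_congr_ae ?_
      filter_upwards [hZ k, hZ i, hZ (i + 1), Lp.coeFn_sub (Z (i + 1)) (Z i)] with x h1 h2 h3 h4
      rw [h4, Pi.sub_apply, h1, h2, h3]
    · rw [norm_toLp_sq]; exact hN n
  obtain ⟨W, hW⟩ := cauchySeq_tendsto_of_complete hc
  refine ⟨W, (Lp.stronglyMeasurable W).measurable, Lp.memLp W, ?_⟩
  have h1 : Tendsto (fun n => ‖W - Z n‖ ^ 2) atTop (𝓝 0) := by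
    have := ((tendsto_const_nhds (x := W)).sub hW).norm.pow 2
    simpa using this
  refine h1.congr fun n => ?_
  rw [norm_Lp_sq]
  refine integral_congr_ae ?_
  filter_upwards [hZ n, Lp.coeFn_sub W (Z n)] with x h1 h2
  rw [h2, Pi.sub_apply, h1]

lemma subseq_ae {f : ℕ → E → ℝ} (hf : ∀ n, Integrable (f n) volume) (h0 : ∀ n x, 0 ≤ f n x)
    (h : Tendsto (fun n => ∫ x, f n x) atTop (𝓝 0)) :
    ∃ ns : ℕ → ℕ, StrictMono ns ∧ ∀ᵐ x, Tendsto (fun n => f (ns n) x) atTop (𝓝 0) := by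
  have hs : ∀ n x, ‖√(f n x)‖ ^ 2 = f n x := fun n x => by
    rw [Real.norm_of_nonneg (Real.sqrt_nonneg _), Real.sq_sqrt (h0 n x)]
  obtain ⟨ns, h1, h2⟩ := exists_subseq_ae_of_integral_norm_sq (μ := volume)
    (g := fun n x => √(f n x)) (fun n => by
      refine (memLp_two_iff_integrable_sq_norm
        (Real.continuous_sqrt.comp_aestronglyMeasurable (hf n).1)).2 ?_
      simpa only [hs] using hf n) (by simpa only [hs] using h)
  refine ⟨ns, h1, h2.mono fun x hx => ?_⟩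
  have := hx.norm.pow 2
  simpa only [hs, norm_zero, ne_eq, OfNat.ofNat_ne_zero, not_false_eq_true, zero_pow] using this

lemma memLp_ind {F : Type*} [NormedAddCommGroup F] {Ω : Set E} (hΩ : MeasurableSet Ω)
    (hb : Bornology.IsBounded Ω) {f : E → F} (hf : AEStronglyMeasurable f (volume.restrict Ω))
    {B : ℝ} (hB : ∀ x ∈ Ω, ‖f x‖ ≤ B) :
    MemLp (Ω.indicator f) 2 volume ∧
      ∫ x, ‖Ω.indicator f x‖ ^ 2 ≤ B ^ 2 * (volume Ω).toReal := by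
  have hfin : IsFiniteMeasure (volume.restrict Ω) := ⟨by simpa using hb.measure_lt_top⟩
  have h1 : MemLp f 2 (volume.restrict Ω) :=
    MemLp.of_bound hf B ((ae_restrict_mem hΩ).mono hB)
  refine ⟨(memLp_indicator_iff_restrict hΩ).2 h1, ?_⟩
  have h2 : (fun x => ‖Ω.indicator f x‖ ^ 2) = Ω.indicator fun x => ‖f x‖ ^ 2 := by
    funext x
    by_cases hx : x ∈ Ω <;> simp [hx]
  rw [h2, integral_indicator hΩ]
  calc ∫ x in Ω, ‖f x‖ ^ 2 ≤ ∫ _ in Ω, B ^ 2 := by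
        refine integral_mono_ae (integrable_norm_sq h1) (integrable_const _) ?_
        exact (ae_restrict_mem hΩ).mono fun x hx => pow_le_pow_left₀ (norm_nonneg _) (hB x hx) 2
    _ = B ^ 2 * (volume Ω).toReal := by
        rw [setIntegral_const, smul_eq_mul, mul_comm]; rfl

lemma exists_chain {α : Type*} (P : α → Prop) (R : ℕ → α → α → Prop) (a : α) (ha : P a)
    (h : ∀ n s, P s → ∃ s', P s' ∧ R n s s') :
    ∃ f : ℕ → α, f 0 = a ∧ ∀ n, P (f n) ∧ R n (f n) (f (n + 1)) := by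
  choose F hF using h
  let g : ℕ → {s // P s} := fun n => Nat.rec ⟨a, ha⟩ (fun n s => ⟨F n s.1 s.2, (hF n s.1 s.2).1⟩) n
  exact ⟨fun n => (g n).1, rfl, fun n => ⟨(g n).2, (hF n (g n).1 (g n).2).2⟩⟩

end

end Crest.Agent.R83.CI
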