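import Crest.Agent.R83.CI1

/-!
Row 83: the iteration of the convex integration step.
-/

set_option autoImplicit false

open MeasureTheory Set Filter Topology Metric
open scoped Gradient ContDiff RealInnerProductSpace ENNReal

namespace Crest.Agent.R83.CI

noncomputable section

/-- the conclusion of `StepStmt` for fixed `b`, `c` -/
def StepAt (b c : ℝ) : Prop :=
  ∀ (Ω : Set E) (e j : E → E) (B ε : ℝ) (𝓕 : Set (E → E)), IsOpen Ω → Bornology.IsBounded Ω →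
    ContinuousOn e Ω → ContinuousOn j Ω → (∀ x ∈ Ω, ‖e x‖ ≤ B ∧ ‖j x‖ ≤ B) →
    (∀ x ∈ Ω, inU b (e x) (j x)) → 𝓕.Finite → (∀ F ∈ 𝓕, MemLp F 2 volume) → 0 < ε →
    ∃ (φ : E → ℝ) (k : E → E), Test Ω φ ∧ ContDiff ℝ ∞ k ∧ HasCompactSupport k ∧ tsupport k ⊆ Ω ∧
      (∀ η, Test univ η → ∫ x, ⟪k x, ∇ η x⟫ = 0) ∧ (∀ x, |φ x| ≤ ε) ∧
      (∀ x ∈ Ω, inU b (e x + ∇ φ x) (j x + k x)) ∧
      (∀ F ∈ 𝓕, |∫ x, ⟪F x, ∇ φ x⟫| ≤ ε ∧ |∫ x, ⟪F x, k x⟫| ≤ ε) ∧
      c * (∫ x in Ω, dfc (e x) (j x)) - ε ≤ ∫ x, ‖∇ φ x‖ ^ 2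

/-- the state of the iteration -/
structure St where
  /-- potential -/
  Φ : E → ℝ
  /-- current -/
  K : E → E
  /-- history -/
  𝓕 : Set (E → E)

/-- the invariant of the iteration -/
structure Inv (b : ℝ) (Ω : Set E) (e j : E → E) (s : St) : Prop where
  test : Test Ω s.Φ
  cont : Continuous s.K
  cpt : HasCompactSupport s.K
  off : ∀ x, x ∉ Ω → s.K x = 0
  div : ∀ η, Test univ η → ∫ x, ⟪s.K x, ∇ η x⟫ = 0
  inu : ∀ x ∈ Ω, inU b (e x + ∇ s.Φ x) (j x + s.K x)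
  fin : s.𝓕.Finite
  mem : ∀ F ∈ s.𝓕, MemLp F 2 volume

/-- the relation between consecutive states -/
structure Rel (c : ℝ) (Ω : Set E) (e j : E → E) (ε : ℝ) (s s' : St) : Prop where
  sup : ∀ x, |s'.Φ x - s.Φ x| ≤ ε
  sub : s.𝓕 ⊆ s'.𝓕
  meme : (Ω.indicator fun x => e x + ∇ s.Φ x) ∈ s'.𝓕
  memj : (Ω.indicator fun x => j x + s.K x) ∈ s'.𝓕
  orth : ∀ F ∈ s'.𝓕, |∫ x, ⟪F x, ∇ s'.Φ x - ∇ s.Φ x⟫| ≤ ε ∧ |∫ x, ⟪F x, s'.K x - s.K x⟫| ≤ ε
  zero : ∫ x, ⟪s'.K x - s.K x, ∇ s'.Φ x - ∇ s.Φ x⟫ = 0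
  gain : c * (∫ x in Ω, dfc (e x + ∇ s.Φ x) (j x + s.K x)) - ε ≤ ∫ x, ‖∇ s'.Φ x - ∇ s.Φ x‖ ^ 2

variable {b c B : ℝ} {Ω : Set E} {e j : E → E}

lemma Inv.bd {s : St} (h : Inv b Ω e j s) (hB : ∀ x ∈ Ω, ‖e x‖ ≤ B ∧ ‖j x‖ ≤ B) :
    ∃ B', ∀ x ∈ Ω, ‖e x + ∇ s.Φ x‖ ≤ B' ∧ ‖j x + s.K x‖ ≤ B' := by
  obtain ⟨B1, h0, h1⟩ := h.test.exists_bound
  obtain ⟨B2, h2⟩ := h.cont.bounded_above_of_compact_support h.cpt
  have h3 : 0 ≤ B2 := (norm_nonneg _).trans (h2 0)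
  refine ⟨B + B1 + B2, fun x hx => ⟨(norm_add_le _ _).trans ?_, (norm_add_le _ _).trans ?_⟩⟩
  · linarith [(hB x hx).1, (h1 x).2]
  · linarith [(hB x hx).2, h2 x]

lemma Inv.memK {s : St} (h : Inv b Ω e j s) : MemLp s.K 2 volume :=
  h.cont.memLp_of_hasCompactSupport h.cpt

lemma step_exists (hS : StepAt b c) (hΩ : IsOpen Ω) (hb : Bornology.IsBounded Ω)
    (he : ContinuousOn e Ω) (hj : ContinuousOn j Ω) (hB : ∀ x ∈ Ω, ‖e x‖ ≤ B ∧ ‖j x‖ ≤ B)
    {ε : ℝ} (hε : 0 < ε) (s : St) (h : Inv b Ω e j s) :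
    ∃ s', Inv b Ω e j s' ∧ Rel c Ω e j ε s s' := by
  obtain ⟨B', hB'⟩ := h.bd hB
  have he' : ContinuousOn (fun x => e x + ∇ s.Φ x) Ω := he.add h.test.continuous_grad.continuousOn
  have hj' : ContinuousOn (fun x => j x + s.K x) Ω := hj.add h.cont.continuousOn
  have hfin : (insert (Ω.indicator fun x => e x + ∇ s.Φ x)
    (insert (Ω.indicator fun x => j x + s.K x) s.𝓕)).Finite := (h.fin.insert _).insert _
  have hmem : ∀ F ∈ insert (Ω.indicator fun x => e x + ∇ s.Φ x)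
      (insert (Ω.indicator fun x => j x + s.K x) s.𝓕), MemLp F 2 volume := by
    rintro F (rfl | rfl | hF)
    · exact (memLp_ind hΩ.measurableSet hb (he'.aestronglyMeasurable hΩ.measurableSet)
        fun x hx => (hB' x hx).1).1
    · exact (memLp_ind hΩ.measurableSet hb (hj'.aestronglyMeasurable hΩ.measurableSet)
        fun x hx => (hB' x hx).2).1
    · exact h.mem F hF
  obtain ⟨φ, k, h1, h2, h3, h4, h5, h6, h7, h8, h9⟩ :=
    hS Ω _ _ B' ε _ hΩ hb he' hj' hB' h.inu hfin hmem hε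
  have hg : ∀ x, ∇ (fun y => s.Φ y + φ y) x = ∇ s.Φ x + ∇ φ x := fun x =>
    grad_add (h.test.differentiable x) (h1.differentiable x)
  have hk2 : MemLp k 2 volume := h2.continuous.memLp_of_hasCompactSupport h3
  refine ⟨⟨fun x => s.Φ x + φ x, fun x => s.K x + k x, _⟩,
    ⟨h.test.add h1, h.cont.add h2.continuous, h.cpt.add h3, fun x hx => ?_, fun η hη => ?_,
      fun x hx => ?_, hfin, hmem⟩, ?_, ?_, ?_, ?_, ?_, ?_, ?_⟩
  · show s.K x + k x = 0
    rw [h.off x hx, image_eq_zero_of_notMem_tsupport fun h' => hx (h4 h'), add_zero]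
  · show ∫ x, ⟪s.K x + k x, ∇ η x⟫ = 0
    simp only [inner_add_left]
    rw [integral_add (integrable_inner' h.memK hη.memLp_grad) (integrable_inner' hk2 hη.memLp_grad),
      h.div η hη, h5 η hη, add_zero]
  · show inU b (e x + ∇ (fun y => s.Φ y + φ y) x) (j x + (s.K x + k x))
    rw [hg, ← add_assoc, ← add_assoc]
    exact h7 x hx
  · intro x; simpa using h6 x
  · exact fun F hF => Or.inr (Or.inr hF)
  · exact Or.inl rfl
  · exact Or.inr (Or.inl rfl)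
  · intro F hF
    simpa only [hg, add_sub_cancel_left] using h8 F hF
  · simpa only [hg, add_sub_cancel_left] using h5 φ h1.univ
  · simpa only [hg, add_sub_cancel_left] using h9

/-- the sequence of approximate solutions -/
lemma seq_exists (hS : StepAt b c) (hb1 : 1 < b) (hΩ : IsOpen Ω) (hb : Bornology.IsBounded Ω)
    (he : ContinuousOn e Ω) (hj : ContinuousOn j Ω) (hB : ∀ x ∈ Ω, ‖e x‖ ≤ B ∧ ‖j x‖ ≤ B)
    (hU : ∀ x ∈ Ω, inU b (e x) (j x)) {ε : ℝ} (hε : 0 < ε) :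
    ∃ (Φ : ℕ → E → ℝ) (K ee jj : ℕ → E → E), (∀ x, Φ 0 x = 0 ∧ K 0 x = 0) ∧
      (∀ n, Test Ω (Φ n)) ∧ (∀ n η, Test univ η → ∫ x, ⟪K n x, ∇ η x⟫ = 0) ∧
      (∀ n x, ee n x = Ω.indicator e x + ∇ (Φ n) x ∧ jj n x = Ω.indicator j x + K n x) ∧
      (∀ n, MemLp (ee n) 2 volume ∧ MemLp (jj n) 2 volume ∧ MemLp (K n) 2 volume) ∧
      (∀ n x, x ∉ Ω → ee n x = 0 ∧ jj n x = 0) ∧
      (∀ n, ∀ x ∈ Ω, inU b (ee n x) (jj n x)) ∧
      (∀ n x, |Φ (n + 1) x - Φ n x| ≤ ε / 2 ^ n) ∧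
      (∀ k i, k ≤ i → |∫ x, ⟪ee k x, ee (i + 1) x - ee i x⟫| ≤ ε / 2 ^ i) ∧
      (∀ k i, k ≤ i → |∫ x, ⟪jj k x, jj (i + 1) x - jj i x⟫| ≤ ε / 2 ^ i) ∧
      (∀ n, (∫ x, ‖ee n x‖ ^ 2) + ∫ x, ‖jj n x‖ ^ 2 ≤
        3 * b * (B ^ 2 * (volume Ω).toReal + 4 * ε)) ∧
      (∀ n, Integrable (fun x => dfc (ee n x) (jj n x)) volume) ∧
      ∀ n, c * (∫ x, dfc (ee n x) (jj n x)) - ε / 2 ^ n ≤ ∫ x, ‖ee (n + 1) x - ee n x‖ ^ 2 := by
  have hm := hΩ.measurableSet
  have hg0 : ∀ x : E, ∇ (fun _ : E => (0 : ℝ)) x = 0 := fun x => by simp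
  obtain ⟨s, hs0, hs⟩ := exists_chain (Inv b Ω e j) (fun n => Rel c Ω e j (ε / 2 ^ n))
    ⟨fun _ => 0, fun _ => 0, ∅⟩
    ⟨Test.zero Ω, continuous_const, HasCompactSupport.zero, fun _ _ => rfl, fun η _ => by simp,
      fun x hx => by simpa [hg0] using hU x hx, finite_empty, fun F hF => hF.elim⟩
    (fun n s h => step_exists hS hΩ hb he hj hB (by positivity) s h)
  set ee : ℕ → E → E := fun n => Ω.indicator fun x => e x + ∇ (s n).Φ x with hee
  set jj : ℕ → E → E := fun n => Ω.indicator fun x => j x + (s n).K x with hjj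
  have h1 : ∀ n x, ee n x = Ω.indicator e x + ∇ (s n).Φ x ∧
      jj n x = Ω.indicator j x + (s n).K x := by
    intro n x
    by_cases hx : x ∈ Ω
    · simp [hee, hjj, hx]
    · simp [hee, hjj, hx, (hs n).1.test.grad_eq_zero hx, (hs n).1.off x hx]
  have hde : ∀ n x, ee (n + 1) x - ee n x = ∇ (s (n + 1)).Φ x - ∇ (s n).Φ x := fun n x => by
    rw [(h1 _ x).1, (h1 _ x).1]; abel
  have hdj : ∀ n x, jj (n + 1) x - jj n x = (s (n + 1)).K x - (s n).K x := fun n x => by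
    rw [(h1 _ x).2, (h1 _ x).2]; abel
  have hsub : ∀ k i, k ≤ i → (s (k + 1)).𝓕 ⊆ (s (i + 1)).𝓕 := by
    intro k i hki
    induction i, hki using Nat.le_induction with
    | base => exact Subset.rfl
    | succ i _ ih => exact ih.trans (hs (i + 1)).2.sub
  have hme : ∀ n, MemLp (ee n) 2 volume := fun n => (hs (n + 1)).1.mem _ (hs n).2.meme
  have hmj : ∀ n, MemLp (jj n) 2 volume := fun n => (hs (n + 1)).1.mem _ (hs n).2.memj
  have hoff : ∀ n x, x ∉ Ω → ee n x = 0 ∧ jj n x = 0 := fun n x hx => by simp [hee, hjj, hx]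
  have hinu : ∀ n, ∀ x ∈ Ω, inU b (ee n x) (jj n x) := fun n x hx => by
    simpa [hee, hjj, hx] using (hs n).1.inu x hx
  have hI : ∀ n, ∫ x, ⟪ee n x, jj n x⟫ ≤ B ^ 2 * (volume Ω).toReal + 4 * ε - 4 * (ε / 2 ^ n) := by
    intro n
    induction n with
    | zero =>
      have a1 := (memLp_ind hm hb (he.aestronglyMeasurable hm) fun x hx => (hB x hx).1)
      have a2 := (memLp_ind hm hb (hj.aestronglyMeasurable hm) fun x hx => (hB x hx).2)
      have a3 : ∀ x, ⟪ee 0 x, jj 0 x⟫ = ⟪Ω.indicator e x, Ω.indicator j x⟫ := fun x => by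
        rw [(h1 0 x).1, (h1 0 x).2, hs0]; simp
      simp only [a3]
      have a4 := (le_abs_self _).trans (abs_integral_inner_le a1.1 a2.1)
      have a5 : 0 ≤ B ^ 2 * (volume Ω).toReal := by positivity
      have a6 := mul_le_mul (Real.sqrt_le_sqrt a1.2) (Real.sqrt_le_sqrt a2.2) (Real.sqrt_nonneg _)
        (Real.sqrt_nonneg _)
      rw [Real.mul_self_sqrt a5] at a6
      simp only [pow_zero, div_one]
      linarith
    | succ n ih =>
      have a1 : ∀ x, ⟪ee (n + 1) x, jj (n + 1) x⟫ = ⟪ee n x, jj n x⟫ +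
          ⟪ee n x, jj (n + 1) x - jj n x⟫ + ⟪jj n x, ee (n + 1) x - ee n x⟫ +
          ⟪jj (n + 1) x - jj n x, ee (n + 1) x - ee n x⟫ := fun x => by
        simp only [inner_sub_left, inner_sub_right, real_inner_comm (ee _ x) (jj _ x)]
        ring
      have i1 := integrable_inner' (hme n) (hmj n)
      have i2 : Integrable (fun x => ⟪ee n x, jj (n + 1) x - jj n x⟫) volume :=
        integrable_inner' (hme n) ((hmj (n + 1)).sub (hmj n))
      have i3 : Integrable (fun x => ⟪jj n x, ee (n + 1) x - ee n x⟫) volume :=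
        integrable_inner' (hmj n) ((hme (n + 1)).sub (hme n))
      have i4 : Integrable (fun x => ⟪jj (n + 1) x - jj n x, ee (n + 1) x - ee n x⟫) volume :=
        integrable_inner' ((hmj (n + 1)).sub (hmj n)) ((hme (n + 1)).sub (hme n))
      simp only [a1]
      rw [integral_add (by exact (i1.add i2).add i3) i4, integral_add (by exact i1.add i2) i3,
        integral_add i1 i2]
      simp only [hde, hdj]
      have a2 := (abs_le.1 ((hs n).2.orth _ (hs n).2.meme).2).2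
      have a3 := (abs_le.1 ((hs n).2.orth _ (hs n).2.memj).1).2
      have a4 := (hs n).2.zero
      have a5 : ε / 2 ^ (n + 1) = ε / 2 ^ n / 2 := by rw [pow_succ, div_div]
      rw [a4, a5]
      change ∫ x, ⟪ee n x, _⟫ ≤ _ at a2
      change ∫ x, ⟪jj n x, _⟫ ≤ _ at a3
      linarith
  have hdf : ∀ n, (fun x => dfc (ee n x) (jj n x)) =
      Ω.indicator fun x => dfc (e x + ∇ (s n).Φ x) (j x + (s n).K x) := by
    intro n
    funext x
    by_cases hx : x ∈ Ω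
    · simp [hee, hjj, hx]
    · simp [hee, hjj, hx, dfc]
  refine ⟨fun n => (s n).Φ, fun n => (s n).K, ee, jj, fun x => by simp [hs0],
    fun n => (hs n).1.test, fun n => (hs n).1.div, h1,
    fun n => ⟨hme n, hmj n, (hs n).1.memK⟩, hoff, hinu, fun n => (hs n).2.sup, fun k i hki => ?_,
    fun k i hki => ?_, fun n => ?_, fun n => ?_, fun n => ?_⟩
  · simp only [hde]
    exact ((hs i).2.orth _ (hsub k i hki (hs k).2.meme)).1
  · simp only [hdj]
    exact ((hs i).2.orth _ (hsub k i hki (hs k).2.memj)).2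
  · rw [← integral_add (integrable_norm_sq (hme n)) (integrable_norm_sq (hmj n))]
    have a1 : ∫ x, (‖ee n x‖ ^ 2 + ‖jj n x‖ ^ 2) ≤ ∫ x, 3 * b * ⟪ee n x, jj n x⟫ := by
      refine integral_mono ((integrable_norm_sq (hme n)).add (integrable_norm_sq (hmj n)))
        ((integrable_inner' (hme n) (hmj n)).const_mul _) fun x => ?_
      by_cases hx : x ∈ Ω
      · exact inU_norm_le hb1 (hinu n x hx)
      · simp [hoff n x hx]
    rw [integral_const_mul] at a1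
    refine a1.trans (mul_le_mul_of_nonneg_left ((hI n).trans ?_) (by linarith))
    have : 0 ≤ ε / 2 ^ n := by positivity
    linarith
  · refine (integrable_norm_sq (hmj n)).mono' ?_ (Eventually.of_forall fun x => ?_)
    · have a1 := (hme n).1.aemeasurable
      have a2 := (hmj n).1.aemeasurable
      exact ((a2.norm.pow_const 2).sub (((a1.inner a2).pow_const 2).div
        (a1.norm.pow_const 2))).aestronglyMeasurable
    · rw [Real.norm_of_nonneg (dfc_nonneg _ _)]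
      exact dfc_le _ _
  · rw [hdf, integral_indicator hm]
    simp only [hde]
    exact (hs n).2.gain

end

end Crest.Agent.R83.CI
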