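import Crest.Agent.R83.CI2

/-!
Row 83: the limit of the convex integration iteration.
-/

set_option autoImplicit false

open MeasureTheory Set Filter Topology Metric
open scoped Gradient ContDiff RealInnerProductSpace ENNReal

namespace Crest.Agent.R83.CI

noncomputable section

variable {b c B : ℝ} {Ω : Set E} {e j : E → E}

lemma tendsto_geo (ε : ℝ) : Tendsto (fun n : ℕ => ε / 2 ^ n) atTop (𝓝 0) :=
  tendsto_const_nhds.div_atTop (tendsto_pow_atTop_atTop_of_one_lt one_lt_two)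

lemma integral_sub_le {u v w : E → E} (hu : MemLp u 2 volume) (hv : MemLp v 2 volume)
    (hw : MemLp w 2 volume) :
    ∫ x, ‖u x - v x‖ ^ 2 ≤ 2 * (∫ x, ‖w x - u x‖ ^ 2) + 2 * ∫ x, ‖w x - v x‖ ^ 2 := by
  have h := integral_norm_add_sq_le (μ := volume) (g := fun x => u x - w x)
    (h := fun x => w x - v x) (hu.sub hw) (hw.sub hv)
  simp only [sub_add_sub_cancel] at h
  simpa only [norm_sub_rev (u _) (w _)] using h

lemma energy_le {z : ℕ → E → E} {w : E → E} (hz : ∀ n, MemLp (z n) 2 volume)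
    (hw : MemLp w 2 volume) (h : Tendsto (fun n => ∫ x, ‖w x - z n x‖ ^ 2) atTop (𝓝 0)) :
    ∀ δ : ℝ, 0 < δ → ∀ᶠ n in atTop, ∫ x, ‖w x - z 0 x‖ ^ 2 ≤
      4 * (∫ x, ‖z n x‖ ^ 2) + 4 * (∫ x, ‖z 0 x‖ ^ 2) + δ := by
  intro δ hδ
  filter_upwards [(h.const_mul 2).eventually (gt_mem_nhds (show 2 * 0 < δ by simpa using hδ))]
    with n hn
  have h1 := integral_sub_le hw (hz 0) (hz n)
  have h2 := integral_sub_le (hz n) (hz 0) (MemLp.zero (p := 2) (μ := (volume : Measure E)))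
  simp only [Pi.zero_apply, zero_sub, norm_neg] at h2
  simp only [norm_sub_rev (z n _) (w _)] at h1
  linarith

theorem core (hS : StepAt b c) (hb1 : 1 < b) (hc : 0 < c) (hΩ : IsOpen Ω)
    (hb : Bornology.IsBounded Ω) (he : ContinuousOn e Ω) (hj : ContinuousOn j Ω)
    (hB : ∀ x ∈ Ω, ‖e x‖ ≤ B ∧ ‖j x‖ ≤ B) (hU : ∀ x ∈ Ω, inU b (e x) (j x)) {ε : ℝ} (hε : 0 < ε) :
    ∃ (γ φ : E → ℝ) (g k : E → E), Measurable γ ∧ (∀ x, b⁻¹ ≤ γ x ∧ γ x ≤ b) ∧ IsH Ω φ g ∧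
      (∀ x, |φ x| ≤ 2 * ε) ∧ MemLp k 2 volume ∧ (∀ x, x ∉ Ω → φ x = 0 ∧ g x = 0 ∧ k x = 0) ∧
      (∀ η, Test univ η → ∫ x, ⟪k x, ∇ η x⟫ = 0) ∧
      (∀ᵐ x, x ∈ Ω → j x + k x = γ x • (e x + g x)) ∧
      (∫ x, ‖g x‖ ^ 2) + (∫ x, ‖k x‖ ^ 2) ≤
        24 * b * (B ^ 2 * (volume Ω).toReal + 4 * ε) + 2 * ε := by
  have hm := hΩ.measurableSet
  obtain ⟨Φ, K, ee, jj, h0, hT, hdiv, hdef, hmem, hoff, hinu, hsup, hoe, hoj, hN, hdi, hgain⟩ :=
    seq_exists hS hb1 hΩ hb he hj hB hU hε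
  have hpos : ∀ z : E → E, 0 ≤ ∫ x, ‖z x‖ ^ 2 := fun z => integral_nonneg fun x => by positivity
  obtain ⟨we, hwe1, hwe2, hwe⟩ := l2_conv ee (fun n => (hmem n).1) ε _ hε.le hoe
    (fun n => (le_add_of_nonneg_right (hpos (jj n))).trans (hN n))
  obtain ⟨wj, hwj1, hwj2, hwj⟩ := l2_conv jj (fun n => (hmem n).2.1) ε _ hε.le hoj
    (fun n => (le_add_of_nonneg_left (hpos (ee n))).trans (hN n))
  -- the defect tends to zero
  have hd1 : Tendsto (fun n => ∫ x, ‖ee (n + 1) x - ee n x‖ ^ 2) atTop (𝓝 0) := by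
    have h1 := ((hwe.comp (tendsto_add_atTop_nat 1)).const_mul 2).add (hwe.const_mul 2)
    simp only [mul_zero, add_zero] at h1
    exact squeeze_zero (fun n => hpos _)
      (fun n => integral_sub_le (hmem (n + 1)).1 (hmem n).1 hwe2) h1
  have hd2 : Tendsto (fun n => ∫ x, dfc (ee n x) (jj n x)) atTop (𝓝 0) := by
    have h1 := (hd1.add (tendsto_geo ε)).const_mul c⁻¹
    simp only [mul_zero, add_zero] at h1
    refine squeeze_zero (fun n => integral_nonneg fun x => dfc_nonneg _ _) (fun n => ?_) h1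
    rw [le_inv_mul_iff₀ hc]
    linarith [hgain n]
  have i1 : ∀ n, Integrable (fun x => ‖we x - ee n x‖ ^ 2) volume := fun n =>
    integrable_norm_sq (hwe2.sub (hmem n).1)
  have i2 : ∀ n, Integrable (fun x => ‖wj x - jj n x‖ ^ 2) volume := fun n =>
    integrable_norm_sq (hwj2.sub (hmem n).2.1)
  obtain ⟨ns, hns, hae⟩ := subseq_ae
    (f := fun n x => ‖we x - ee n x‖ ^ 2 + ‖wj x - jj n x‖ ^ 2 + dfc (ee n x) (jj n x))
    (fun n => ((i1 n).add (i2 n)).add (hdi n))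
    (fun n x => by have := dfc_nonneg (ee n x) (jj n x); positivity) (by
      have h1 := (hwe.add hwj).add hd2
      simp only [add_zero] at h1
      refine h1.congr fun n => ?_
      rw [integral_add (by exact (i1 n).add (i2 n)) (hdi n), integral_add (i1 n) (i2 n)])
  have hae' : ∀ᵐ x, Tendsto (fun n => ee (ns n) x) atTop (𝓝 (we x)) ∧
      Tendsto (fun n => jj (ns n) x) atTop (𝓝 (wj x)) ∧
      Tendsto (fun n => dfc (ee (ns n) x) (jj (ns n) x)) atTop (𝓝 0) := by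
    filter_upwards [hae] with x hx
    have key : ∀ (z : ℕ → E) (w : E), Tendsto (fun n => ‖w - z n‖ ^ 2) atTop (𝓝 0) →
        Tendsto z atTop (𝓝 w) := by
      intro z w h
      rw [tendsto_iff_norm_sub_tendsto_zero]
      have := h.sqrt
      simpa only [Real.sqrt_sq (norm_nonneg _), Real.sqrt_zero, norm_sub_rev w] using this
    refine ⟨key _ _ (squeeze_zero (fun n => by positivity) (fun n => ?_) hx),
      key _ _ (squeeze_zero (fun n => by positivity) (fun n => ?_) hx),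
      squeeze_zero (fun n => dfc_nonneg _ _) (fun n => ?_) hx⟩
    · nlinarith [dfc_nonneg (ee (ns n) x) (jj (ns n) x), sq_nonneg ‖wj x - jj (ns n) x‖]
    · nlinarith [dfc_nonneg (ee (ns n) x) (jj (ns n) x), sq_nonneg ‖we x - ee (ns n) x‖]
    · nlinarith [sq_nonneg ‖we x - ee (ns n) x‖, sq_nonneg ‖wj x - jj (ns n) x‖]
  have he0 : ∀ x, ee 0 x = Ω.indicator e x := fun x => by
    rw [(hdef 0 x).1, show Φ 0 = fun _ => 0 from funext fun y => (h0 y).1]; simp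
  have hj0 : ∀ x, jj 0 x = Ω.indicator j x := fun x => by rw [(hdef 0 x).2, (h0 x).2, add_zero]
  set g : E → E := Ω.indicator fun x => we x - e x with hg
  set k : E → E := Ω.indicator fun x => wj x - j x with hk
  have hgk : ∀ᵐ x, g x = we x - ee 0 x ∧ k x = wj x - jj 0 x := by
    filter_upwards [hae'] with x hx
    by_cases hxΩ : x ∈ Ω
    · simp [hg, hk, he0, hj0, hxΩ]
    · have a1 : we x = 0 := tendsto_nhds_unique hx.1 (by simp [(hoff _ x hxΩ).1])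
      have a2 : wj x = 0 := tendsto_nhds_unique hx.2.1 (by simp [(hoff _ x hxΩ).2])
      simp [hg, hk, he0, hj0, hxΩ, a1, a2]
  have hg2 : MemLp g 2 volume := (hwe2.sub (hmem 0).1).ae_eq (hgk.mono fun x hx => hx.1.symm)
  have hk2 : MemLp k 2 volume := (hwj2.sub (hmem 0).2.1).ae_eq (hgk.mono fun x hx => hx.2.symm)
  have hgc : Tendsto (fun n => ∫ x, ‖g x - ∇ (Φ n) x‖ ^ 2) atTop (𝓝 0) := by
    refine hwe.congr fun n => integral_congr_ae (hgk.mono fun x hx => ?_)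
    show ‖we x - ee n x‖ ^ 2 = ‖g x - ∇ (Φ n) x‖ ^ 2
    rw [hx.1, he0, (hdef n x).1, sub_sub]
  have hkc : Tendsto (fun n => ∫ x, ‖k x - K n x‖ ^ 2) atTop (𝓝 0) := by
    refine hwj.congr fun n => integral_congr_ae (hgk.mono fun x hx => ?_)
    show ‖wj x - jj n x‖ ^ 2 = ‖k x - K n x‖ ^ 2
    rw [hx.2, hj0, (hdef n x).2, sub_sub]
  -- the potential
  have hdist : ∀ x n, dist (Φ n x) (Φ (n + 1) x) ≤ 2 * ε / 2 / 2 ^ n := fun x n => by
    rw [dist_comm, Real.dist_eq, mul_div_cancel_left₀ _ two_ne_zero]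
    exact hsup n x
  choose φ hφ using fun x => cauchySeq_tendsto_of_complete (cauchySeq_of_le_geometric_two (hdist x))
  have hφn : ∀ n x, |φ x - Φ n x| ≤ 2 * ε / 2 ^ n := fun n x => by
    rw [← Real.dist_eq, dist_comm]
    exact dist_le_of_le_geometric_two_of_tendsto (hdist x) (hφ x) n
  have hφ0 : ∀ x, x ∉ Ω → φ x = 0 := fun x hx =>
    tendsto_nhds_unique (hφ x) (by simp [(hT _).eq_zero hx])
  have hφm : Measurable φ := measurable_of_tendsto_metrizable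
    (fun n => (hT n).continuous.measurable) (tendsto_pi_nhds.2 hφ)
  have hφL : ∀ n, MemLp (fun x => φ x - Φ n x) 2 volume ∧
      ∫ x, (φ x - Φ n x) ^ 2 ≤ (2 * ε / 2 ^ n) ^ 2 * (volume Ω).toReal := by
    intro n
    have h1 := memLp_ind hm hb (f := fun x => φ x - Φ n x)
      (hφm.sub (hT n).continuous.measurable).aestronglyMeasurable fun x _ => hφn n x
    have h2 : (Ω.indicator fun x => φ x - Φ n x) = fun x => φ x - Φ n x := by
      funext x
      by_cases hx : x ∈ Ω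
      · simp [hx]
      · simp [hx, hφ0 x hx, (hT n).eq_zero hx]
    rw [h2] at h1
    simpa only [Real.norm_eq_abs, sq_abs] using h1
  refine ⟨fun x => gam b (we x) (wj x), φ, g, k, ?_, fun x => gam_mem hb1 _ _, ?_, fun x => ?_,
    hk2, fun x hx => ⟨hφ0 x hx, by simp [hg, hx], by simp [hk, hx]⟩, fun η hη => ?_, ?_, ?_⟩
  · exact measurable_const.max (measurable_const.min ((hwe1.inner hwj1).div
      (hwe1.norm.pow_const 2)))
  · refine IsH.of_tendsto (by simpa [(h0 _).1] using (hφL 0).1) hg2 (fun n => (hT n).isH) ?_ hgc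
    have h1 := ((tendsto_geo (2 * ε)).pow 2).mul_const (volume Ω).toReal
    simp only [ne_eq, OfNat.ofNat_ne_zero, not_false_eq_true, zero_pow, zero_mul] at h1
    exact squeeze_zero (fun n => integral_nonneg fun x => by positivity) (fun n => (hφL n).2) h1
  · simpa [(h0 x).1] using hφn 0 x
  · have h1 := (hkc.sqrt).mul_const √(∫ x, ‖∇ η x‖ ^ 2)
    simp only [Real.sqrt_zero, zero_mul] at h1
    refine abs_nonpos_iff.1 (ge_of_tendsto' h1 fun n => ?_)
    refine le_trans (le_of_eq ?_) (abs_integral_inner_le (hk2.sub (hmem n).2.2) hη.memLp_grad)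
    simp only [inner_sub_left]
    rw [integral_sub (integrable_inner' hk2 hη.memLp_grad)
      (integrable_inner' (hmem n).2.2 hη.memLp_grad), hdiv n η hη, sub_zero]
  · filter_upwards [hae'] with x hx hxΩ
    simp only [hg, hk, indicator_of_mem hxΩ, add_sub_cancel]
    exact limit_eq hb1 (fun n => hinu (ns n) x hxΩ) hx.1 hx.2.1 hx.2.2
  · obtain ⟨n, h1, h2⟩ := ((energy_le (fun n => (hmem n).1) hwe2 hwe ε hε).and
      (energy_le (fun n => (hmem n).2.1) hwj2 hwj ε hε)).exists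
    have a1 : ∫ x, ‖g x‖ ^ 2 = ∫ x, ‖we x - ee 0 x‖ ^ 2 :=
      integral_congr_ae (hgk.mono fun x hx => by simp only [hx.1])
    have a2 : ∫ x, ‖k x‖ ^ 2 = ∫ x, ‖wj x - jj 0 x‖ ^ 2 :=
      integral_congr_ae (hgk.mono fun x hx => by simp only [hx.2])
    rw [a1, a2]
    linarith [hN n, hN 0]

/-- The convex integration theorem, for a nonnegative constant `Λ`. -/
theorem main (hS : StepStmt) (Λ : ℝ) (hΛ : 0 ≤ Λ) : ∃ a b C : ℝ, 0 < a ∧ a ≤ 1 ∧ 1 ≤ b ∧ 0 ≤ C ∧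
  ∀ (Ω : Set E) (e j : E → E) (B ε : ℝ), IsOpen Ω → Bornology.IsBounded Ω →
    ContinuousOn e Ω → ContinuousOn j Ω → (∀ x ∈ Ω, ‖e x‖ ≤ B ∧ ‖j x‖ ≤ B) →
    (∀ x ∈ Ω, ‖e x‖ ^ 2 + ‖j x‖ ^ 2 ≤ Λ * ⟪e x, j x⟫) → 0 < ε →
    ∃ (γ φ : E → ℝ) (g k : E → E), Measurable γ ∧ (∀ x, a ≤ γ x ∧ γ x ≤ b) ∧ IsH Ω φ g ∧
      (∀ x, |φ x| ≤ ε) ∧ MemLp k 2 volume ∧ (∀ x, x ∉ Ω → φ x = 0 ∧ g x = 0 ∧ k x = 0) ∧
      (∀ η, Test univ η → ∫ x, ⟪k x, ∇ η x⟫ = 0) ∧
      (∀ᵐ x, x ∈ Ω → j x + k x = γ x • (e x + g x)) ∧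
      (∫ x, ‖g x‖ ^ 2) + (∫ x, ‖k x‖ ^ 2) ≤ C * B ^ 2 * (volume Ω).toReal + ε := by
  set b := 4 * Λ + 2 with hbdef
  have hb1 : 1 < b := by linarith
  obtain ⟨c, hc, hS'⟩ := hS b hb1
  refine ⟨b⁻¹, b, 24 * b, by positivity, inv_le_one_of_one_le₀ hb1.le, hb1.le, by positivity, ?_⟩
  intro Ω e j B ε hΩ hb he hj hB hle hε
  set Ω' : Set E := Ω ∩ (fun x => (e x, j x)) ⁻¹' {0}ᶜ with hΩ'
  have hsub : Ω' ⊆ Ω := inter_subset_left
  have hO : IsOpen Ω' := (he.prodMk hj).isOpen_inter_preimage hΩ isOpen_compl_singleton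
  have hden : 0 < 96 * b + 2 := by positivity
  obtain ⟨γ, φ, g, k, h1, h2, h3, h4, h5, h6, h7, h8, h9⟩ := core (B := B) hS' hb1 hc hO
    (hb.subset hsub) (he.mono hsub) (hj.mono hsub) (fun x hx => hB x hx.1)
    (fun x hx => inU_of_le hΛ hbdef (by
      by_contra h
      push Not at h
      exact hx.2 (by simp [h.1, h.2])) (hle x hx.1)) (div_pos hε hden)
  have h10 : ε / (96 * b + 2) * (96 * b + 2) = ε := div_mul_cancel₀ _ hden.ne'
  have h11 := div_pos hε hden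
  refine ⟨γ, φ, g, k, h1, h2, h3.mono hsub, fun x => (h4 x).trans (by nlinarith), h5,
    fun x hx => h6 x fun h => hx (hsub h), h7, ?_, h9.trans ?_⟩
  · filter_upwards [h8] with x hx hxΩ
    by_cases hx' : x ∈ Ω'
    · exact hx hx'
    · have : (e x, j x) = 0 := by
        by_contra h
        exact hx' ⟨hxΩ, h⟩
      rw [Prod.mk_eq_zero] at this
      simp [this.1, this.2, (h6 x hx').2.1, (h6 x hx').2.2]
  · have h12 : (volume Ω').toReal ≤ (volume Ω).toReal :=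
      ENNReal.toReal_mono hb.measure_lt_top.ne (measure_mono hsub)
    have h13 : 24 * b * (B ^ 2 * (volume Ω').toReal) ≤ 24 * b * (B ^ 2 * (volume Ω).toReal) := by
      gcongr
    nlinarith

end

end Crest.Agent.R83.CI
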