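import Crest.Agent.R83.CascadeUnit

/-! Row 83: the cascade on the flat torus times an interval. -/

set_option autoImplicit false

open Set Filter Topology
open scoped ContDiff

namespace Crest.Agent.R83

namespace Casc

lemma tsum_two {f g : ℕ → ℝ} (i j : ℕ) (hf : ∀ m, m ≠ i → f m = 0) (hg : ∀ m, m ≠ j → g m = 0) :
    ∑' m, (f m + g m) = f i + g j :=
  ((hasSum_single i hf).add (hasSum_single j hg)).tsum_eq

lemma exists_bound {f : ℝ → ℝ} (hf : Continuous f) {T : ℝ} (h : ∀ t, t ≤ -T ∨ T / 2 ≤ t → f t = 0) :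
    ∃ C, 0 ≤ C ∧ ∀ t, |f t| ≤ C := by
  have hc : HasCompactSupport f := HasCompactSupport.intro (isCompact_Icc (a := -T) (b := T / 2))
    fun x hx => h x (by
      by_contra h1
      push Not at h1
      exact hx ⟨h1.1.le, h1.2.le⟩)
  obtain ⟨C, hC⟩ := hf.bounded_above_of_compact_support hc
  exact ⟨C, (norm_nonneg _).trans (hC 0), hC⟩

/-- the rescaled time of mode `n` -/
def tau (T : ℝ) (n : ℕ) (t : ℝ) : ℝ := 2 ^ n * (t - T) + T

lemma tau_deriv (T : ℝ) (n : ℕ) (t : ℝ) : HasDerivAt (tau T n) (2 ^ n) t := by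
  have := (((hasDerivAt_id t).sub_const T).const_mul ((2 : ℝ) ^ n)).add_const T
  rwa [mul_one] at this

lemma tau_smooth (T : ℝ) (n : ℕ) : ContDiff ℝ ∞ (tau T n) :=
  (contDiff_const.mul (contDiff_id.sub contDiff_const)).add contDiff_const

lemma tau_succ (T : ℝ) (n : ℕ) (t : ℝ) : tau T (n + 1) t = 2 * tau T n t - T := by
  simp only [tau]
  ring

lemma exists_level {T t : ℝ} (hT : 0 < T) (h1 : -2 ≤ t) (h2 : t < T) :
    ∃ n, -2 ≤ tau T n t ∧ tau T n t ≤ T / 2 ∧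
      ∀ m, m ≠ n → m ≠ n + 1 → tau T m t ≤ -T ∨ T / 2 ≤ tau T m t := by
  classical
  have hex : ∃ n, tau T n t < T / 2 := by
    obtain ⟨n, hn⟩ := pow_unbounded_of_one_lt (T / (T - t)) (one_lt_two (α := ℝ))
    rw [div_lt_iff₀ (by linarith)] at hn
    exact ⟨n, by rw [tau]; linarith⟩
  have hn := Nat.find_spec hex
  refine ⟨Nat.find hex, ?_, hn.le, fun m hm hm' => ?_⟩
  · rcases h : Nat.find hex with _ | n
    · simpa [tau] using h1
    · have := Nat.find_min hex (show n < Nat.find hex by omega)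
      rw [tau_succ]
      linarith
  · rcases lt_or_gt_of_ne hm with h | h
    · exact Or.inr (not_lt.1 (Nat.find_min hex h))
    · left
      have h3 : (2 : ℝ) ^ (Nat.find hex + 2) ≤ 2 ^ m := pow_le_pow_right₀ one_le_two (by omega)
      rw [tau] at hn ⊢
      rw [pow_add] at h3
      nlinarith

end Casc

open Casc in
theorem cascade : CascadeStmt := by
  obtain ⟨T, Λ, μ, a, r, hT, hμ, hμ2, ha, hr, h0, h1, hQ⟩ := exists_profile
  have ha' : ∀ t, HasDerivAt a (deriv a t) t := fun t =>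
    (ha.differentiable (by simp) t).hasDerivAt
  have hr' : ∀ t, HasDerivAt r (deriv r t) t := fun t =>
    (hr.differentiable (by simp) t).hasDerivAt
  obtain ⟨C1, p1, b1⟩ := exists_bound ha.continuous fun t h => (h0 t h).1
  obtain ⟨C2, p2, b2⟩ := exists_bound hr.continuous fun t h => (h0 t h).2.1
  obtain ⟨C3, p3, b3⟩ := exists_bound (ha.continuous_deriv (by simp)) fun t h => (h0 t h).2.2.1
  obtain ⟨C4, p4, b4⟩ := exists_bound (hr.continuous_deriv (by simp)) fun t h => (h0 t h).2.2.2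
  let A : ℕ → ℝ → ℝ := fun n t => (μ / 2) ^ n * a (tau T n t)
  let R : ℕ → ℝ → ℝ := fun n t => μ ^ n * r (tau T n t)
  have hAs : ∀ n, ContDiff ℝ ∞ (A n) := fun n => contDiff_const.mul (ha.comp (tau_smooth T n))
  have hRs : ∀ n, ContDiff ℝ ∞ (R n) := fun n => contDiff_const.mul (hr.comp (tau_smooth T n))
  have e1 : ∀ n t, deriv (A n) t = μ ^ n * deriv a (tau T n t) := fun n t => by
    refine ((((ha' _).comp t (tau_deriv T n t)).const_mul ((μ / 2) ^ n)).congr_deriv ?_).deriv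
    rw [div_pow]
    field_simp
  have e2 : ∀ n t, ((2 ^ n : ℕ) : ℝ) * A n t = μ ^ n * a (tau T n t) := fun n t => by
    simp only [A, div_pow]
    push_cast
    field_simp
  have e3 : ∀ n t, R n t = μ ^ n * r (tau T n t) := fun n t => rfl
  have e4 : ∀ n t, deriv (R n) t / ((2 ^ n : ℕ) : ℝ) = μ ^ n * deriv r (tau T n t) := fun n t => by
    have : deriv (R n) t = _ := (((hr' _).comp t (tau_deriv T n t)).const_mul (μ ^ n)).deriv
    rw [this]
    push_cast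
    field_simp
  have hz : ∀ n t, tau T n t ≤ -T ∨ T / 2 ≤ tau T n t → A n t = 0 ∧ R n t = 0 := fun n t h => by
    simp only [A, R, (h0 _ h).1, (h0 _ h).2.1, mul_zero, and_self]
  have hT1 : ∀ n t, T ≤ t → T / 2 ≤ tau T n t := fun n t h => by
    have : 0 ≤ (2 : ℝ) ^ n * (t - T) := mul_nonneg (by positivity) (by linarith)
    rw [tau]
    linarith
  have hT2 : ∀ n t, 1 ≤ n → t ≤ 0 → tau T n t ≤ -T := fun n t hn h => by
    have : (2 : ℝ) ^ 1 ≤ 2 ^ n := pow_le_pow_right₀ one_le_two hn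
    rw [tau]
    nlinarith
  have hbd : ∀ n m t, m ≤ n → ((2 ^ n : ℕ) : ℝ) * |A n t| + |deriv (A n) t| + |R n t| +
      |deriv (R n) t| / ((2 ^ n : ℕ) : ℝ) ≤ (C1 + C2 + C3 + C4) / 2 ^ m := fun n m t h => by
    have k1 : ((2 ^ n : ℕ) : ℝ) * |A n t| = μ ^ n * |a (tau T n t)| := by
      rw [← abs_of_pos (pow_pos hμ n), ← abs_mul, ← e2, abs_mul ((2 ^ n : ℕ) : ℝ), Nat.abs_cast]
    have k2 : |deriv (R n) t| / ((2 ^ n : ℕ) : ℝ) = μ ^ n * |deriv r (tau T n t)| := by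
      rw [← abs_of_pos (pow_pos hμ n), ← abs_mul, ← e4, abs_div, Nat.abs_cast]
    have k3 : μ ^ n ≤ 1 / 2 ^ m := by
      rw [← one_div_pow]
      exact (pow_le_pow_left₀ hμ.le hμ2 n).trans
        (pow_le_pow_of_le_one (by norm_num) (by norm_num) h)
    rw [k1, k2, e1, e3, abs_mul, abs_mul, abs_of_pos (pow_pos hμ n), ← mul_add, ← mul_add,
      ← mul_add, div_eq_mul_one_div, mul_comm (C1 + C2 + C3 + C4)]
    refine mul_le_mul k3 ?_ (by positivity) (by positivity)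
    linarith [b1 (tau T n t), b2 (tau T n t), b3 (tau T n t), b4 (tau T n t)]
  refine ⟨T, Λ, C1 + C2 + C3 + C4, fun m => A (2 * m), fun m => R (2 * m), fun m => A (2 * m + 1),
    fun m => R (2 * m + 1), fun m => 2 ^ (2 * m), fun m => 2 ^ (2 * m + 1), hT, rfl,
    fun m => ⟨by positivity, by positivity⟩, fun m => ⟨hAs _, hRs _, hAs _, hRs _⟩,
    fun m t h => ⟨(hz _ _ (Or.inr (hT1 _ _ h))).1, (hz _ _ (Or.inr (hT1 _ _ h))).2,
      (hz _ _ (Or.inr (hT1 _ _ h))).1, (hz _ _ (Or.inr (hT1 _ _ h))).2⟩,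
    fun t k1 k2 => ?_,
    fun m t h => ⟨(hz _ _ (Or.inl (hT2 _ _ (by omega) h))).1,
      (hz _ _ (Or.inl (hT2 _ _ (by omega) h))).2, (hz _ _ (Or.inl (hT2 _ _ (by omega) h))).1,
      (hz _ _ (Or.inl (hT2 _ _ (by omega) h))).2⟩,
    fun m t => ⟨hbd _ _ _ (by omega), hbd _ _ _ (by omega)⟩, fun t φ ϑ ht => ?_⟩
  · simpa [A, R, tau] using h1 t k1 k2
  have key : ∃ i j : ℕ, (∀ m, m ≠ i → tau T (2 * m) t ≤ -T ∨ T / 2 ≤ tau T (2 * m) t) ∧
      (∀ m, m ≠ j → tau T (2 * m + 1) t ≤ -T ∨ T / 2 ≤ tau T (2 * m + 1) t) ∧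
      Q Λ (μ ^ (2 * i) * deriv a (tau T (2 * i) t)) (μ ^ (2 * i) * a (tau T (2 * i) t))
        (μ ^ (2 * i) * r (tau T (2 * i) t)) (μ ^ (2 * i) * deriv r (tau T (2 * i) t))
        (μ ^ (2 * j + 1) * deriv a (tau T (2 * j + 1) t))
        (μ ^ (2 * j + 1) * a (tau T (2 * j + 1) t)) (μ ^ (2 * j + 1) * r (tau T (2 * j + 1) t))
        (μ ^ (2 * j + 1) * deriv r (tau T (2 * j + 1) t)) := by
    rcases le_or_gt T t with h | h
    · refine ⟨0, 0, fun m _ => Or.inr (hT1 _ _ h), fun m _ => Or.inr (hT1 _ _ h), ?_⟩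
      obtain ⟨z1, z2, z3, z4⟩ := h0 _ (Or.inr (hT1 (2 * 0) t h))
      obtain ⟨z5, z6, z7, z8⟩ := h0 _ (Or.inr (hT1 (2 * 0 + 1) t h))
      rw [z1, z2, z3, z4, z5, z6, z7, z8]
      simp only [mul_zero]
      exact Q_zero
    · obtain ⟨n, k1, k2, k3⟩ := exists_level hT ht h
      have hq := (hQ _ k1 k2).smul (μ ^ n)
      simp only [← tau_succ, ← mul_assoc, ← pow_succ] at hq
      obtain ⟨i, rfl | rfl⟩ := Nat.even_or_odd' n
      · exact ⟨i, i, fun m hm => k3 _ (by omega) (by omega),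
          fun m hm => k3 _ (by omega) (by omega), hq⟩
      · exact ⟨i + 1, i, fun m hm => k3 _ (by omega) (by omega),
          fun m hm => k3 _ (by omega) (by omega), hq.symm⟩
  obtain ⟨i, j, hi, hj, hq⟩ := key
  have := hq _ _ _ _ (Real.cos_sq_add_sin_sq (((2 ^ (2 * i) : ℕ) : ℝ) * φ))
    (Real.cos_sq_add_sin_sq (((2 ^ (2 * j + 1) : ℕ) : ℝ) * ϑ))
  simp only [e1, e2, e3, e4]
  rw [tsum_two i j (fun m hm => by simp [(h0 _ (hi m hm)).2.2.1])
      (fun m hm => by simp [(h0 _ (hj m hm)).2.2.1]),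
    tsum_two i j (fun m hm => by simp [(h0 _ (hi m hm)).2.1])
      (fun m hm => by simp [(h0 _ (hj m hm)).2.1]),
    tsum_eq_single i (fun m hm => by simp [(h0 _ (hi m hm)).1]),
    tsum_eq_single j (fun m hm => by simp [(h0 _ (hj m hm)).1]),
    tsum_eq_single i (fun m hm => by simp [(h0 _ (hi m hm)).2.2.2]),
    tsum_eq_single j (fun m hm => by simp [(h0 _ (hj m hm)).2.2.2])]
  linarith

end Crest.Agent.R83
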