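import Mathlib

/-! Row 83: the ellipticity inequality for two modes (algebra). -/

set_option autoImplicit false

namespace Crest.Agent.R83.Casc

/-- the ellipticity inequality for two modes -/
def Q (Λ p q r w p' q' r' w' : ℝ) : Prop := ∀ c s c' s' : ℝ, c ^ 2 + s ^ 2 = 1 →
  c' ^ 2 + s' ^ 2 = 1 →
  (p * c + p' * c') ^ 2 + (q * s) ^ 2 + (q' * s') ^ 2 + (r * c + r' * c') ^ 2 + (w * s) ^ 2 +
    (w' * s') ^ 2 ≤
    Λ * ((p * c + p' * c') * (r * c + r' * c') + q * s * (w * s) + q' * s' * (w' * s'))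

variable {Λ Λ' p q r w p' q' r' w' : ℝ}

theorem Q.symm (h : Q Λ p q r w p' q' r' w') : Q Λ p' q' r' w' p q r w := fun c s c' s' h1 h2 => by
  have := h c' s' c s h2 h1
  linarith

theorem Q.smul (h : Q Λ p q r w p' q' r' w') (m : ℝ) :
    Q Λ (m * p) (m * q) (m * r) (m * w) (m * p') (m * q') (m * r') (m * w') :=
  fun c s c' s' h1 h2 => by
    have := mul_le_mul_of_nonneg_left (h c s c' s' h1 h2) (sq_nonneg m)
    linarith

theorem Q.mono (h : Q Λ p q r w p' q' r' w') (h0 : 0 < Λ) (hle : Λ ≤ Λ') :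
    Q Λ' p q r w p' q' r' w' := fun c s c' s' h1 h2 => by
  have h3 := h c s c' s' h1 h2
  refine h3.trans (mul_le_mul_of_nonneg_right hle ?_)
  exact nonneg_of_mul_nonneg_right (le_trans (by positivity) h3) h0 |> fun h => h

theorem Q_zero : Q Λ 0 0 0 0 0 0 0 0 := fun c s c' s' _ _ => by simp

theorem abs_mul_unit {a A c s : ℝ} (ha : |a| ≤ A) (h : c ^ 2 + s ^ 2 = 1) : |a * c| ≤ A := by
  have hc : |c| ≤ 1 := abs_le_one_iff_mul_self_le_one.2 (by nlinarith)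
  rw [abs_mul]
  exact (mul_le_of_le_one_right (abs_nonneg a) hc).trans ha

theorem neg_le_mul {a b A B : ℝ} (ha : |a| ≤ A) (hb : |b| ≤ B) : -(A * B) ≤ a * b := by
  have : |a * b| ≤ A * B := by
    rw [abs_mul]
    exact mul_le_mul ha hb (abs_nonneg b) ((abs_nonneg a).trans ha)
  exact (abs_le.1 this).1

theorem Q_pert {u : ℝ} (h1 : u ^ 2 ≤ p * r) (h2 : u ^ 2 ≤ q * w) (hp : |p| ≤ 4 * u)
    (hq : |q| ≤ 4 * u) (hr : |r| ≤ 4 * u) (hw : |w| ≤ 4 * u) (hp' : |p'| ≤ u / 20)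
    (hq' : |q'| ≤ u / 20) (hr' : |r'| ≤ u / 20) (hw' : |w'| ≤ u / 20) :
    Q 200 p q r w p' q' r' w' := fun c s c' s' e e' => by
  have e2 : s ^ 2 + c ^ 2 = 1 := by linarith
  have e2' : s' ^ 2 + c' ^ 2 = 1 := by linarith
  have a1 := abs_mul_unit hp e
  have a2 := abs_mul_unit hr e
  have a3 := abs_mul_unit hq e2
  have a4 := abs_mul_unit hw e2
  have b1 := abs_mul_unit hp' e'
  have b2 := abs_mul_unit hr' e'
  have b3 := abs_mul_unit hq' e2'
  have b4 := abs_mul_unit hw' e2'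
  have m0 : u ^ 2 ≤ p * c * (r * c) + q * s * (w * s) := by
    have := add_le_add (mul_le_mul_of_nonneg_right h1 (sq_nonneg c))
      (mul_le_mul_of_nonneg_right h2 (sq_nonneg s))
    rw [← mul_add, e] at this
    linarith
  have m1 := neg_le_mul a1 b2
  have m2 := neg_le_mul b1 a2
  have m3 := neg_le_mul b1 b2
  have m4 := neg_le_mul b3 b4
  have hu : 0 ≤ u := by linarith [abs_nonneg p]
  have s1 : (p * c + p' * c') ^ 2 ≤ (5 * u) ^ 2 :=
    sq_le_sq' (by linarith [(abs_le.1 a1).1, (abs_le.1 b1).1])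
      (by linarith [(abs_le.1 a1).2, (abs_le.1 b1).2])
  have s2 : (r * c + r' * c') ^ 2 ≤ (5 * u) ^ 2 :=
    sq_le_sq' (by linarith [(abs_le.1 a2).1, (abs_le.1 b2).1])
      (by linarith [(abs_le.1 a2).2, (abs_le.1 b2).2])
  have s3 := sq_le_sq' (abs_le.1 a3).1 (abs_le.1 a3).2
  have s4 := sq_le_sq' (abs_le.1 a4).1 (abs_le.1 a4).2
  have s5 := sq_le_sq' (abs_le.1 b3).1 (abs_le.1 b3).2
  have s6 := sq_le_sq' (abs_le.1 b4).1 (abs_le.1 b4).2
  nlinarith [sq_nonneg u]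

theorem Q_both (u v : ℝ) : Q 200 (-2 * u) u (-2 * u) (4 * u) (-v) (2 * v) (-v) (v / 2) :=
  fun c s c' s' _ _ => by
    nlinarith [sq_nonneg (-2 * u * c + -v * c'), sq_nonneg (u * s), sq_nonneg (v * s')]

theorem Q_single (h1 : p ^ 2 + r ^ 2 ≤ Λ * (p * r)) (h2 : q ^ 2 + w ^ 2 ≤ Λ * (q * w)) :
    Q Λ 0 0 0 0 p q r w := fun c s c' s' _ _ => by
  have := add_le_add (mul_le_mul_of_nonneg_right h1 (sq_nonneg c'))
    (mul_le_mul_of_nonneg_right h2 (sq_nonneg s'))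
  linarith

end Crest.Agent.R83.Casc
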