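import Crest.Agent.R83.Basic
import Crest.Agent.R83.CascadeQ

/-! Row 83: the unit step of the cascade. -/

set_option autoImplicit false

open Set Filter Topology
open scoped ContDiff

namespace Crest.Agent.R83.Casc

noncomputable section

/-- the step function -/
def ch (p t : ℝ) : ℝ := step 0 1 (t - p)

/-- its derivative -/
def dch (p t : ℝ) : ℝ := deriv (step 0 1) (t - p)

lemma ch_smooth (p : ℝ) : ContDiff ℝ ∞ (ch p) :=
  (step_contDiff 0 1).comp (contDiff_id.sub contDiff_const)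

lemma ch_deriv (p t : ℝ) : HasDerivAt (ch p) (dch p t) t :=
  HasDerivAt.comp_sub_const t p (step_hasDerivAt 0 1 (t - p))

lemma ch_nonneg (p t : ℝ) : 0 ≤ ch p t := step_nonneg _ _ _

lemma ch_le_one (p t : ℝ) : ch p t ≤ 1 := step_le_one _ _ _

lemma dch_nonneg (p t : ℝ) : 0 ≤ dch p t := deriv_step_nonneg one_pos _

lemma ch_zero {p t : ℝ} (h : t ≤ p) : ch p t = 0 := step_of_le one_pos (by linarith)

lemma ch_one {p t : ℝ} (h : p + 1 ≤ t) : ch p t = 1 := step_of_ge one_pos (by linarith)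

lemma dch_zero {p t : ℝ} (h : t ≤ p) : dch p t = 0 :=
  deriv_step_eq_zero one_pos (Or.inl (by linarith))

lemma dch_zero' {p t : ℝ} (h : p + 1 ≤ t) : dch p t = 0 :=
  deriv_step_eq_zero one_pos (Or.inr (by linarith))

variable (ε P : ℝ)

def DD (t : ℝ) : ℝ := ε * Real.exp (-((1 + 3 * ch (P + 2) t) * t))

def ph (t : ℝ) : ℝ := 1 + 3 * ch (P + 2) t + 3 * dch (P + 2) t * t

def SS (t : ℝ) : ℝ := -(ch 1 t * DD ε P t)

def dSS (t : ℝ) : ℝ := (ch 1 t * ph P t - dch 1 t) * DD ε P t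

def BB (t : ℝ) : ℝ := -SS ε P t * (1 - 3 / 4 * ch (P + 2) t)

def dBB (t : ℝ) : ℝ := -dSS ε P t * (1 - 3 / 4 * ch (P + 2) t) + SS ε P t * (3 / 4 * dch (P + 2) t)

def AA (t : ℝ) : ℝ := (1 - ch P t) * Real.exp (-2 * t)

def dAA (t : ℝ) : ℝ := (-dch P t - 2 * (1 - ch P t)) * Real.exp (-2 * t)

lemma DD_smooth : ContDiff ℝ ∞ (DD ε P) :=
  contDiff_const.mul (((contDiff_const.add (contDiff_const.mul (ch_smooth _))).mul
    contDiff_id).neg.exp)

lemma SS_smooth : ContDiff ℝ ∞ (SS ε P) := ((ch_smooth 1).mul (DD_smooth ε P)).neg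

lemma BB_smooth : ContDiff ℝ ∞ (BB ε P) :=
  (SS_smooth ε P).neg.mul (contDiff_const.sub (contDiff_const.mul (ch_smooth _)))

lemma DD_deriv (t : ℝ) : HasDerivAt (DD ε P) (-(ph P t * DD ε P t)) t := by
  have := (((((ch_deriv (P + 2) t).const_mul 3).const_add 1).mul
    (hasDerivAt_id t)).neg.exp).const_mul ε
  refine this.congr_deriv ?_
  simp [ph, DD]
  ring

lemma SS_deriv (t : ℝ) : HasDerivAt (SS ε P) (dSS ε P t) t := by
  have := ((ch_deriv 1 t).mul (DD_deriv ε P t)).neg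
  refine this.congr_deriv ?_
  simp [dSS]
  ring

lemma BB_deriv (t : ℝ) : HasDerivAt (BB ε P) (dBB ε P t) t := by
  have := (SS_deriv ε P t).neg.mul (((ch_deriv (P + 2) t).const_mul (3 / 4)).const_sub 1)
  refine this.congr_deriv ?_
  simp [dBB]

lemma AA_deriv (t : ℝ) : HasDerivAt (AA P) (dAA P t) t := by
  have := ((ch_deriv P t).const_sub 1).mul ((hasDerivAt_id t).const_mul (-2)).exp
  refine this.congr_deriv ?_
  simp [dAA]
  ring

/-- The ellipticity inequality for the unit step. -/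
theorem unit_Q : ∃ ε P Λ : ℝ, 0 < ε ∧ ε ≤ 1 ∧ 2 ≤ P ∧ ∀ t, -2 ≤ t → t ≤ P + 5 →
    Q Λ (dAA P t) (AA P t) (-2 * AA P t) (-2 * dAA P t) (dBB ε P t) (2 * BB ε P t) (SS ε P t)
      (dSS ε P t / 2) := by
  obtain ⟨K, hK⟩ := exists_deriv_step_le (a := 0) (b := 1) one_pos
  have hK' : ∀ p t, dch p t ≤ K := fun p t => hK _
  have hK0 : 0 ≤ K := (dch_nonneg 0 0).trans (hK' 0 0)
  obtain ⟨ε, hε, hε1⟩ : ∃ ε : ℝ, 0 < ε ∧ ε * ((K + 2) * Real.exp 2) = 1 / 20 :=
    ⟨1 / 20 / ((K + 2) * Real.exp 2), by positivity, div_mul_cancel₀ _ (by positivity)⟩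
  have he2 : 1 ≤ Real.exp 2 := Real.one_le_exp (by norm_num)
  have hε2 : ε ≤ 1 := by nlinarith [mul_nonneg hK0 (zero_le_one.trans he2)]
  obtain ⟨P, hP, hP1⟩ : ∃ P : ℝ, 2 ≤ P ∧ ε * P = 40 * (K + 2) := by
    refine ⟨40 * (K + 2) / ε, ?_, mul_div_cancel₀ _ hε.ne'⟩
    rw [le_div_iff₀ hε]
    linarith
  set M := 4 + 3 * K * (P + 5) + K with hM
  have hM4 : 4 ≤ M := by nlinarith
  refine ⟨ε, P, 200 + M, hε, hε2, hP, fun t h1 h2 => ?_⟩
  have hu := Real.exp_pos (-2 * t)
  by_cases c5 : P + 1 ≤ t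
  · -- only the second mode is present
    have hD : 0 < DD ε P t := mul_pos hε (Real.exp_pos _)
    have g0 := ch_nonneg (P + 2) t
    have g1 := ch_le_one (P + 2) t
    have g2 := dch_nonneg (P + 2) t
    have g3 := hK' (P + 2) t
    have g4 : 0 ≤ dch (P + 2) t * t := mul_nonneg g2 (by linarith)
    have g5 : dch (P + 2) t * t ≤ K * (P + 5) := mul_le_mul g3 h2 (by linarith) hK0
    have p1 : 1 ≤ ph P t := by rw [ph]; linarith
    have p2 : ph P t + K ≤ M := by rw [ph]; linarith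
    simp only [AA, dAA, dBB, BB, SS, dSS, ch_one c5, dch_zero' c5,
      ch_one (show 1 + 1 ≤ t by linarith), dch_zero' (show 1 + 1 ≤ t by linarith), sub_self,
      mul_zero, neg_zero, zero_mul, sub_zero, one_mul, neg_neg]
    generalize DD ε P t = D at hD
    generalize ph P t = f at p1 p2
    obtain ⟨g, hg⟩ : ∃ g, g = 1 - 3 / 4 * ch (P + 2) t := ⟨_, rfl⟩
    rw [← hg]
    have hg0 : 1 / 4 ≤ g := by linarith
    have hg1 : g ≤ 1 := by linarith
    obtain ⟨h, hh⟩ : ∃ h, h = f * g + 3 / 4 * dch (P + 2) t := ⟨_, rfl⟩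
    have hh0 : 1 / 4 ≤ h := by nlinarith
    have hh1 : h ≤ M := by nlinarith
    have e1 : -(f * D) * g + -D * (3 / 4 * dch (P + 2) t) = -(h * D) := by rw [hh]; ring
    rw [e1]
    refine Q_single ?_ ?_
    · have : h ^ 2 + 1 ≤ (200 + M) * h := by nlinarith
      nlinarith [mul_le_mul_of_nonneg_right this (sq_nonneg D)]
    · have h3 : g ≤ f := by linarith
      have h4 : f / 4 ≤ M * g := by nlinarith
      have : 4 * g ^ 2 + f ^ 2 / 4 ≤ (200 + M) * (g * f) := by
        nlinarith [mul_le_mul_of_nonneg_left h3 (show 0 ≤ g by linarith),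
          mul_le_mul_of_nonneg_left h4 (show 0 ≤ f by linarith)]
      nlinarith [mul_le_mul_of_nonneg_right this (sq_nonneg D)]
  refine Q.mono (Λ := 200) ?_ (by norm_num) (by linarith)
  have c5' : t ≤ P + 2 := by linarith
  have hv : 0 < ε * Real.exp (-t) := mul_pos hε (Real.exp_pos _)
  by_cases c1 : t ≤ 2
  · have g0 := ch_nonneg 1 t
    have g1 := ch_le_one 1 t
    have g2 := dch_nonneg 1 t
    have g3 := hK' 1 t
    simp only [AA, dAA, dBB, BB, SS, dSS, DD, ph, ch_zero c5', dch_zero c5',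
      ch_zero (c1.trans hP), dch_zero (c1.trans hP), mul_zero, zero_mul, sub_zero, add_zero,
      one_mul, mul_one, neg_neg, neg_zero, zero_sub]
    have hvu : (K + 2) * (ε * Real.exp (-t)) ≤ Real.exp (-2 * t) / 20 := by
      have : Real.exp (-t) ≤ Real.exp 2 * Real.exp (-2 * t) := by
        rw [← Real.exp_add]
        exact Real.exp_le_exp.2 (by linarith)
      nlinarith [mul_le_mul_of_nonneg_left this (show 0 ≤ ε * (K + 2) by positivity)]
    generalize ε * Real.exp (-t) = v at hv hvu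
    generalize Real.exp (-2 * t) = u at hu hvu
    have k1 := mul_le_mul_of_nonneg_right g1 hv.le
    have k2 := mul_le_mul_of_nonneg_right g3 hv.le
    have k3 := mul_nonneg g0 hv.le
    have k4 := mul_nonneg g2 hv.le
    have k5 := mul_nonneg hK0 hv.le
    refine Q_pert (u := u) (by nlinarith) (by nlinarith) ?_ ?_ ?_ ?_ ?_ ?_ ?_ ?_ <;>
      rw [abs_le] <;> constructor <;> linarith
  have c1' : 1 + 1 ≤ t := by linarith
  by_cases c3 : t ≤ P
  · simp only [AA, dAA, dBB, BB, SS, dSS, DD, ph, ch_zero c5', dch_zero c5', ch_zero c3,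
      dch_zero c3, ch_one c1', dch_zero' c1', mul_zero, zero_mul, sub_zero, add_zero,
      one_mul, mul_one, neg_neg, neg_zero, zero_sub]
    convert Q_both (Real.exp (-2 * t)) (ε * Real.exp (-t)) using 1
    ring
  · have g0 := ch_nonneg P t
    have g1 := ch_le_one P t
    have g2 := dch_nonneg P t
    have g3 := hK' P t
    simp only [AA, dAA, dBB, BB, SS, dSS, DD, ph, ch_zero c5', dch_zero c5', ch_one c1',
      dch_zero' c1', mul_zero, zero_mul, sub_zero, add_zero, one_mul, mul_one, neg_neg]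
    have hvu : 2 * (K + 2) * Real.exp (-2 * t) ≤ ε * Real.exp (-t) / 20 := by
      have : P * Real.exp (-2 * t) ≤ Real.exp (-t) := by
        have e : Real.exp (-t) = Real.exp t * Real.exp (-2 * t) := by
          rw [← Real.exp_add]
          congr 1
          ring
        rw [e]
        exact mul_le_mul_of_nonneg_right (by linarith [Real.add_one_le_exp t]) hu.le
      nlinarith [mul_le_mul_of_nonneg_left this hε.le]
    generalize ε * Real.exp (-t) = v at hv hvu
    generalize Real.exp (-2 * t) = u at hu hvu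
    have k1 := mul_le_mul_of_nonneg_right g1 hu.le
    have k2 := mul_le_mul_of_nonneg_right g3 hu.le
    have k3 := mul_nonneg g0 hu.le
    have k4 := mul_nonneg g2 hu.le
    have k5 := mul_nonneg hK0 hu.le
    refine Q.symm (Q_pert (u := v) (by nlinarith) (by nlinarith) ?_ ?_ ?_ ?_ ?_ ?_ ?_ ?_) <;>
      rw [abs_le] <;> constructor <;> linarith

/-- The self-similar profile. -/
theorem exists_profile : ∃ (T Λ μ : ℝ) (a r : ℝ → ℝ), 0 < T ∧ 0 < μ ∧ μ ≤ 1 / 2 ∧
    ContDiff ℝ ∞ a ∧ ContDiff ℝ ∞ r ∧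
    (∀ t, t ≤ -T ∨ T / 2 ≤ t → a t = 0 ∧ r t = 0 ∧ deriv a t = 0 ∧ deriv r t = 0) ∧
    (∀ t, -2 ≤ t → t ≤ 0 → a t = Real.exp (-2 * t) ∧ r t = -2 * Real.exp (-2 * t)) ∧
    ∀ t, -2 ≤ t → t ≤ T / 2 → Q Λ (deriv a t) (a t) (r t) (deriv r t) (μ * deriv a (2 * t - T))
      (μ * a (2 * t - T)) (μ * r (2 * t - T)) (μ * deriv r (2 * t - T)) := by
  obtain ⟨ε, P, Λ, hε, hε1, hP, hQ⟩ := unit_Q
  set μ := ε / 2 * Real.exp (-4 * (P + 5)) with hμ
  have hμ0 : 0 < μ := by positivity
  let a : ℝ → ℝ := fun t => (1 - ch P t) * (2 / μ * BB ε P (P + 5 + t / 2))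
  let r : ℝ → ℝ := fun t => (1 - ch P t) * (1 / μ * SS ε P (P + 5 + t / 2))
  have hlin : ContDiff ℝ ∞ fun t : ℝ => P + 5 + t / 2 := contDiff_const.add (contDiff_id.div_const 2)
  have hlin' : ∀ t : ℝ, HasDerivAt (fun t : ℝ => P + 5 + t / 2) (1 / 2) t := fun t =>
    ((hasDerivAt_id t).div_const 2).const_add _
  have hA : ∀ t, -4 ≤ t → a t = AA P t ∧ r t = -2 * AA P t := fun t ht => by
    have e1 : P + 2 + 1 ≤ P + 5 + t / 2 := by linarith
    have e2 : 1 + 1 ≤ P + 5 + t / 2 := by linarith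
    have e3 : Real.exp (-((1 + 3 * 1) * (P + 5 + t / 2))) =
        Real.exp (-4 * (P + 5)) * Real.exp (-2 * t) := by
      rw [← Real.exp_add]
      congr 1
      ring
    simp only [a, r, AA, BB, SS, DD, ch_one e1, ch_one e2, e3, hμ]
    constructor
    · field_simp
      ring
    · field_simp
  have hB : ∀ t, t ≤ P → a t = 2 / μ * BB ε P (P + 5 + t / 2) ∧
      r t = 1 / μ * SS ε P (P + 5 + t / 2) := fun t ht => by
    simp only [a, r, ch_zero ht, sub_zero, one_mul, and_self]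
  have hA' : ∀ t, -4 < t → deriv a t = dAA P t ∧ deriv r t = -2 * dAA P t := fun t ht => by
    constructor
    · refine ((AA_deriv P t).congr_of_eventuallyEq ?_).deriv
      filter_upwards [Ioi_mem_nhds ht] with x hx using (hA x hx.le).1
    · refine (((AA_deriv P t).const_mul (-2)).congr_of_eventuallyEq ?_).deriv
      filter_upwards [Ioi_mem_nhds ht] with x hx using (hA x hx.le).2
  have hB' : ∀ t, t < P → deriv a t = 2 / μ * (dBB ε P (P + 5 + t / 2) * (1 / 2)) ∧
      deriv r t = 1 / μ * (dSS ε P (P + 5 + t / 2) * (1 / 2)) := fun t ht => by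
    constructor
    · refine ((((BB_deriv ε P _).comp t (hlin' t)).const_mul (2 / μ)).congr_of_eventuallyEq
        ?_).deriv
      filter_upwards [Iio_mem_nhds ht] with x hx using (hB x hx.le).1
    · refine ((((SS_deriv ε P _).comp t (hlin' t)).const_mul (1 / μ)).congr_of_eventuallyEq
        ?_).deriv
      filter_upwards [Iio_mem_nhds ht] with x hx using (hB x hx.le).2
  refine ⟨2 * (P + 5), Λ, μ, a, r, by linarith, hμ0, ?_, ?_, ?_, ?_, fun t h1 h2 => ?_,
    fun t h1 h2 => ?_⟩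
  · have : Real.exp (-4 * (P + 5)) ≤ 1 := Real.exp_le_one_iff.2 (by linarith)
    nlinarith [Real.exp_pos (-4 * (P + 5))]
  · exact (contDiff_const.sub (ch_smooth P)).mul (contDiff_const.mul ((BB_smooth ε P).comp hlin))
  · exact (contDiff_const.sub (ch_smooth P)).mul (contDiff_const.mul ((SS_smooth ε P).comp hlin))
  · rintro t (ht | ht)
    · have e1 : P + 5 + t / 2 ≤ 1 := by linarith
      rw [(hB t (by linarith)).1, (hB t (by linarith)).2, (hB' t (by linarith)).1,
        (hB' t (by linarith)).2]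
      simp [dBB, BB, dSS, SS, ch_zero e1, dch_zero e1]
    · have e1 : P + 1 ≤ t := by linarith
      rw [(hA t (by linarith)).1, (hA t (by linarith)).2, (hA' t (by linarith)).1,
        (hA' t (by linarith)).2]
      simp [dAA, AA, ch_one e1, dch_zero' e1]
  · rw [(hA t (by linarith)).1, (hA t (by linarith)).2, AA, ch_zero (show t ≤ P by linarith)]
    simp
  · have e : P + 5 + (2 * t - 2 * (P + 5)) / 2 = t := by ring
    rw [(hA t (by linarith)).1, (hA t (by linarith)).2, (hA' t (by linarith)).1,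
      (hA' t (by linarith)).2, (hB _ (by linarith)).1, (hB _ (by linarith)).2,
      (hB' _ (by linarith)).1, (hB' _ (by linarith)).2, e]
    convert hQ t h1 (by linarith) using 1 <;> field_simp

end

end Crest.Agent.R83.Casc
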