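import Crest.Agent.R83.C1

/-! Row 83: chain rule, product rule and the maximum principle in `H¹₀`. -/

set_option autoImplicit false

open MeasureTheory Set Filter Topology Metric
open scoped Gradient ContDiff RealInnerProductSpace ENNReal

namespace Crest.Agent.R83

namespace ChainAux

lemma lip {β : ℝ → ℝ} {L : ℝ} (hβ : ContDiff ℝ 1 β) (hL : ∀ t, |deriv β t| ≤ L) (a b : ℝ) :
    |β a - β b| ≤ L * |a - b| :=
  convex_univ.norm_image_sub_le_of_norm_deriv_le (𝕜 := ℝ)
    (fun x _ => hβ.differentiable (by simp) x) (fun x _ => hL x) (mem_univ b) (mem_univ a)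

lemma memLp_grad {ψ : E → ℝ} (h1 : ContDiff ℝ 1 ψ) (hc : HasCompactSupport ψ) :
    MemLp (∇ ψ) 2 volume :=
  (continuous_grad h1).memLp_of_hasCompactSupport (hasCompactSupport_grad hc)

/-- the `C¹` function with derivative `b` vanishing at `c` -/
lemma exists_prim {b : ℝ → ℝ} (hb : Continuous b) (c : ℝ) :
    ∃ β : ℝ → ℝ, ContDiff ℝ 1 β ∧ deriv β = b ∧ β c = 0 := by
  have hd : ∀ t, HasDerivAt (fun t => ∫ s in c..t, b s) (b t) t := fun t =>
    (hb.integral_hasStrictDerivAt c t).hasDerivAt
  have e : deriv (fun t => ∫ s in c..t, b s) = b := funext fun t => (hd t).deriv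
  refine ⟨fun t => ∫ s in c..t, b s, ?_, e, by simp⟩
  rw [contDiff_one_iff_deriv, e]
  exact ⟨fun t => (hd t).differentiableAt, hb⟩

end ChainAux

open ChainAux

theorem chain : ChainStmt := by
  intro U w g ψ β L hU H hψ hψc hβ hL
  obtain ⟨φ, hT, t1, t2, a1, -⟩ := H.exists_seq
  have hL0 : 0 ≤ L := (abs_nonneg _).trans (hL 0)
  have hβ' : Continuous (deriv β) := hβ.continuous_deriv le_rfl
  have hβd : ∀ t, HasDerivAt β (deriv β t) t := fun t =>
    (hβ.differentiable (by simp) t).hasDerivAt
  have hψd : Differentiable ℝ ψ := hψ.differentiable (by simp)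
  have mψ := memLp_grad hψ hψc
  have mw : AEStronglyMeasurable (fun x => ψ x + w x) volume :=
    hψ.continuous.aestronglyMeasurable.add H.memu.1
  have mG : MemLp (fun x => ∇ ψ x + g x) 2 volume := mψ.add H.memg
  have hn : ∀ n, IsH U (fun x => β (ψ x + φ n x) - β (ψ x))
      (fun x => deriv β (ψ x + φ n x) • (∇ ψ x + ∇ (φ n) x) - deriv β (ψ x) • ∇ ψ x) := by
    intro n
    have hs : Function.support (fun x => β (ψ x + φ n x) - β (ψ x)) ⊆
        Function.support (φ n) := by
      intro x hx h0
      exact hx (by simp [h0])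
    have := c1 U (fun x => β (ψ x + φ n x) - β (ψ x)) hU
      ((hβ.comp (hψ.add (hT n).contDiff_one)).sub (hβ.comp hψ)) ((hT n).cpt.mono hs)
      ((closure_mono hs).trans (hT n).sub)
    refine this.congr (Eventually.of_forall fun x => rfl) (Eventually.of_forall fun x => ?_)
    have d1 : DifferentiableAt ℝ (fun x => ψ x + φ n x) x := (hψd x).add ((hT n).differentiable x)
    rw [grad_sub (φ := fun x => β (ψ x + φ n x)) (ψ := fun x => β (ψ x))
      ((hβd _).differentiableAt.comp x d1) ((hβd _).differentiableAt.comp x (hψd x)),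
      grad_comp (φ := fun x => ψ x + φ n x) (hβd _) d1, grad_comp (hβd _) (hψd x),
      grad_add (hψd x) ((hT n).differentiable x)]
  refine IsH.of_tendsto ?_ ?_ hn ?_ ?_
  · refine (H.memu.const_mul L).mono ((hβ.continuous.comp_aestronglyMeasurable mw).sub
      (hβ.continuous.comp hψ.continuous).aestronglyMeasurable) (Eventually.of_forall fun x => ?_)
    have := lip hβ hL (ψ x + w x) (ψ x)
    simpa [abs_of_nonneg hL0] using this
  · exact (memLp_smul_of_bdd (hβ'.comp_aestronglyMeasurable mw)
      (Eventually.of_forall fun x => hL _) mG).sub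
      (memLp_smul_of_bdd (hβ'.comp hψ.continuous).aestronglyMeasurable
        (Eventually.of_forall fun x => hL _) mψ)
  · have t1' := t1.const_mul (L ^ 2)
    rw [mul_zero] at t1'
    refine squeeze_zero (fun n => integral_nonneg fun x => sq_nonneg _) (fun n => ?_) t1'
    rw [← integral_const_mul]
    refine integral_mono_of_nonneg (Eventually.of_forall fun x => sq_nonneg _)
      ((integrable_sq (H.memu.sub (hT n).memLp)).const_mul _) (Eventually.of_forall fun x => ?_)
    have := lip hβ hL (ψ x + w x) (ψ x + φ n x)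
    have h2 := pow_le_pow_left₀ (abs_nonneg _) this 2
    simp only [mul_pow, sq_abs] at h2
    simpa using h2
  · have mφ : ∀ n, AEStronglyMeasurable (fun x => deriv β (ψ x + φ n x)) volume := fun n =>
      (hβ'.comp (hψ.continuous.add (hT n).continuous)).aestronglyMeasurable
    have md : ∀ n, AEStronglyMeasurable
        (fun x => deriv β (ψ x + w x) - deriv β (ψ x + φ n x)) volume := fun n =>
      (hβ'.comp_aestronglyMeasurable mw).sub (mφ n)
    have bd : ∀ n x, |deriv β (ψ x + w x) - deriv β (ψ x + φ n x)| ≤ 2 * L := fun n x =>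
      (abs_sub _ _).trans (by linarith [hL (ψ x + w x), hL (ψ x + φ n x)])
    have t3 : Tendsto (fun n => ∫ x, ‖(deriv β (ψ x + w x) - deriv β (ψ x + φ n x)) •
        (∇ ψ x + g x)‖ ^ 2) atTop (𝓝 (∫ _ : E, (0 : ℝ))) := by
      refine tendsto_integral_of_dominated_convergence
        (fun x => (2 * L) ^ 2 * ‖∇ ψ x + g x‖ ^ 2) (fun n => ?_)
        ((integrable_norm_sq mG).const_mul _) (fun n => Eventually.of_forall fun x => ?_) ?_
      · exact (((md n).smul mG.1).norm.pow 2)
      · rw [Real.norm_of_nonneg (by positivity), norm_smul, mul_pow]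
        exact mul_le_mul_of_nonneg_right
          (pow_le_pow_left₀ (norm_nonneg _) (bd n x) 2) (by positivity)
      · filter_upwards [a1] with x hx
        have h1 : Tendsto (fun n => deriv β (ψ x + φ n x)) atTop (𝓝 (deriv β (ψ x + w x))) :=
          (hβ'.tendsto _).comp (hx.const_add _)
        have h2 := (((h1.const_sub (deriv β (ψ x + w x))).smul_const (∇ ψ x + g x)).norm).pow 2
        simpa using h2
    have t4 := ((t2.const_mul (L ^ 2)).const_mul 2).add (t3.const_mul 2)
    simp only [mul_zero, integral_zero, add_zero] at t4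
    refine squeeze_zero (fun n => integral_nonneg fun x => by positivity) (fun n => ?_) t4
    have m1 : MemLp (fun x => g x - ∇ (φ n) x) 2 volume := H.memg.sub (hT n).memLp_grad
    have := integral_norm_add_sq_le
      (memLp_smul_of_bdd (mφ n) (Eventually.of_forall fun x => hL _) m1)
      (memLp_smul_of_bdd (md n) (Eventually.of_forall (bd n)) mG)
    refine le_trans (le_of_eq ?_) (this.trans ?_)
    · congr 1
      funext x
      congr 2
      module
    · gcongr
      rw [← integral_const_mul]
      refine integral_mono_of_nonneg (Eventually.of_forall fun x => by positivity)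
        ((integrable_norm_sq m1).const_mul _) (Eventually.of_forall fun x => ?_)
      simp only [norm_smul, mul_pow]
      exact mul_le_mul_of_nonneg_right (pow_le_pow_left₀ (norm_nonneg _) (hL _) 2) (by positivity)

namespace ChainAux

lemma sq_isH {u : E → ℝ} {g : E → E} {M : ℝ} (H : IsH univ u g) (hM : ∀ᵐ x, |u x| ≤ M) :
    IsH univ (fun x => u x ^ 2) (fun x => (2 * u x) • g x) := by
  set N := |M| with hN
  have hN0 : 0 ≤ N := abs_nonneg M
  obtain ⟨β, h1, h2, h3⟩ := exists_prim (b := fun t => 2 * max (-N) (min N t)) (by fun_prop) 0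
  have hb : ∀ t, |t| ≤ N → deriv β t = 2 * t := by
    intro t ht
    rw [h2]
    simp only
    rw [min_eq_right (abs_le.mp ht).2, max_eq_right (abs_le.mp ht).1]
  have hv : ∀ t, |t| ≤ N → β t = t ^ 2 := by
    intro t ht
    have hd : ∀ s, HasDerivAt (fun s => β s - s ^ 2) (deriv β s - 2 * s) s := fun s => by
      have := ((h1.differentiable (by simp) s).hasDerivAt).sub (hasDerivAt_pow 2 s)
      exact this.congr_deriv (by simp)
    have := (convex_Icc (-N) N).norm_image_sub_le_of_norm_hasDerivWithin_le (C := 0)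
      (f := fun s => β s - s ^ 2) (f' := fun s => deriv β s - 2 * s)
      (fun s _ => (hd s).hasDerivWithinAt)
      (fun s hs => by rw [hb s (abs_le.mpr hs)]; simp) (x := 0) (y := t)
      ⟨by linarith, hN0⟩ (abs_le.mp ht)
    simp only [h3, zero_mul, norm_le_zero_iff] at this
    linarith
  have := chain univ u g (fun _ => 0) β (2 * N) isOpen_univ H contDiff_const
    HasCompactSupport.zero h1 (by
      intro t
      rw [h2]
      simp only [abs_mul, abs_two]
      refine mul_le_mul_of_nonneg_left (abs_le.mpr ⟨le_max_left _ _, ?_⟩) (by norm_num)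
      exact max_le (by linarith) (min_le_left _ _))
  refine this.congr ?_ ?_
  · filter_upwards [hM] with x hx
    rw [zero_add, h3, hv _ (hx.trans (le_abs_self M)), sub_zero]
  · filter_upwards [hM] with x hx
    rw [zero_add, hb _ (hx.trans (le_abs_self M))]
    simp

end ChainAux

theorem prod : ProdStmt := by
  intro u w g h M H H' hu hw
  have h1 := sq_isH (H.add H') (M := 2 * M) (by
    filter_upwards [hu, hw] with x a b
    exact (abs_add_le _ _).trans (by linarith))
  have h2 := sq_isH (H.sub H') (M := 2 * M) (by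
    filter_upwards [hu, hw] with x a b
    exact (abs_sub _ _).trans (by linarith))
  refine ((h1.sub h2).const_mul (1 / 4)).congr (Eventually.of_forall fun x => by ring)
    (Eventually.of_forall fun x => ?_)
  module

namespace ChainAux

lemma upper (hP : PoincareStmt) (U : Set E) (γ ψ w f : E → ℝ) (a b M : ℝ) (g F : E → E)
    (hU : IsOpen U) (hb : Bornology.IsBounded U) (hγ : Measurable γ) (ha : 0 < a)
    (hab : ∀ x, a ≤ γ x ∧ γ x ≤ b) (hψ : ContDiff ℝ 1 ψ) (hψc : HasCompactSupport ψ)
    (hM : ∀ x, ψ x ≤ M) (H : IsH U w g)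
    (heq : ∀ η h, IsH U η h → ∫ x, γ x * ⟪∇ ψ x + g x, h x⟫ = pr f F η h)
    (hs : ∀ᵐ x, (f x ≠ 0 ∨ F x ≠ 0) → ψ x + w x ≤ M) : ∀ᵐ x, ψ x + w x ≤ M := by
  obtain ⟨β, h1, h2, h3⟩ := exists_prim (b := fun t => min 1 (max 0 (t - M))) (by fun_prop) M
  have b0 : ∀ t, 0 ≤ deriv β t := fun t => by
    rw [h2]; exact le_min zero_le_one (le_max_left _ _)
  have b1 : ∀ t, deriv β t ≤ 1 := fun t => by rw [h2]; exact min_le_left _ _
  have bz : ∀ t, t ≤ M → deriv β t = 0 := fun t ht => by
    rw [h2]
    simp only
    rw [max_eq_left (by linarith), min_eq_right zero_le_one]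
  have vz : ∀ t, t ≤ M → β t = 0 := by
    intro t ht
    have := (convex_Iic M).norm_image_sub_le_of_norm_deriv_le (𝕜 := ℝ) (C := 0) (f := β)
      (fun s _ => h1.differentiable (by simp) s) (fun s hs => by rw [bz s hs]; simp)
      (x := M) (y := t) (mem_Iic.mpr le_rfl) ht
    simpa [h3] using this
  have vp : ∀ t, M < t → 0 < β t := by
    intro t ht
    have := strictMonoOn_of_deriv_pos (convex_Ici M) h1.continuous.continuousOn (f := β) (by
      intro s hs
      rw [interior_Ici] at hs
      rw [h2]
      exact lt_min zero_lt_one (lt_max_of_lt_right (sub_pos.mpr hs)))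
      (mem_Ici.mpr le_rfl) (mem_Ici.mpr ht.le) ht
    rwa [h3] at this
  have Hη : IsH U (fun x => β (ψ x + w x)) (fun x => deriv β (ψ x + w x) • (∇ ψ x + g x)) :=
    (chain U w g ψ β 1 hU H hψ hψc h1 fun t => abs_le.mpr ⟨by linarith [b0 t], b1 t⟩).congr
      (Eventually.of_forall fun x => by rw [vz _ (hM x), sub_zero])
      (Eventually.of_forall fun x => by rw [bz _ (hM x), zero_smul, sub_zero])
  have e1 := heq _ _ Hη
  have e2 : pr f F (fun x => β (ψ x + w x)) (fun x => deriv β (ψ x + w x) • (∇ ψ x + g x)) = 0 := by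
    unfold pr
    rw [← integral_zero E ℝ (μ := volume)]
    refine integral_congr_ae ?_
    filter_upwards [hs] with x hx
    by_cases h0 : f x ≠ 0 ∨ F x ≠ 0
    · rw [vz _ (hx h0), bz _ (hx h0)]; simp
    · push Not at h0
      rw [h0.1, h0.2]; simp
  rw [e2] at e1
  have mG : MemLp (fun x => ∇ ψ x + g x) 2 volume := (memLp_grad hψ hψc).add H.memg
  have e3 : ∫ x, ‖deriv β (ψ x + w x) • (∇ ψ x + g x)‖ ^ 2 ≤ 0 := by
    have hi : Integrable (fun x => γ x * ⟪∇ ψ x + g x, deriv β (ψ x + w x) • (∇ ψ x + g x)⟫) := by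
      refine (integrable_inner' mG Hη.memg).bdd_mul (c := b) hγ.aestronglyMeasurable
        (Eventually.of_forall fun x => ?_)
      rw [Real.norm_of_nonneg (ha.le.trans (hab x).1)]
      exact (hab x).2
    have : ∫ x, a * ‖deriv β (ψ x + w x) • (∇ ψ x + g x)‖ ^ 2 ≤ 0 := by
      rw [← e1]
      refine integral_mono_of_nonneg (Eventually.of_forall fun x => by positivity) hi
        (Eventually.of_forall fun x => ?_)
      simp only [norm_smul, mul_pow, inner_smul_right, real_inner_self_eq_norm_sq,
        Real.norm_eq_abs, sq_abs]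
      have p0 := b0 (ψ x + w x)
      have p1 := b1 (ψ x + w x)
      have p2 := (hab x).1
      have p3 : deriv β (ψ x + w x) ^ 2 ≤ deriv β (ψ x + w x) := by nlinarith
      exact mul_le_mul p2 (mul_le_mul_of_nonneg_right p3 (by positivity)) (by positivity)
        (ha.le.trans p2)
    rw [integral_const_mul] at this
    exact nonpos_of_mul_nonpos_right this ha |> fun h => h
  obtain ⟨R, hR⟩ := hb.subset_ball (0 : E)
  obtain ⟨C, hC, hPC⟩ := hP R
  have e4 := hPC U _ _ hR Hη
  have e5 : ∫ x, ‖β (ψ x + w x)‖ ^ 2 ≤ 0 := by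
    simp only [Real.norm_eq_abs, sq_abs]
    exact e4.trans (mul_nonpos_of_nonneg_of_nonpos hC e3)
  filter_upwards [ae_eq_zero_of_integral_norm_sq Hη.memu e5] with x hx
  by_contra hlt
  exact (vp _ (not_le.mp hlt)).ne' hx

end ChainAux

theorem maxp (hP : PoincareStmt) : MaxStmt := by
  intro U γ ψ w f a b M g F hU hb hγ ha hab hψ hψc hM H heq hs
  have h1 := upper hP U γ ψ w f a b M g F hU hb hγ ha hab hψ hψc
    (fun x => (abs_le.mp (hM x)).2) H heq (by
      filter_upwards [hs] with x hx h
      exact (abs_le.mp (hx h)).2)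
  have h2 := upper hP U γ (fun x => -ψ x) (fun x => -w x) (fun x => -f x) a b M (fun x => -g x)
    (fun x => -F x) hU hb hγ ha hab hψ.neg hψc.neg
    (fun x => by linarith [(abs_le.mp (hM x)).1]) H.neg (by
      intro η h Hη
      have := heq η h Hη
      unfold pr at this ⊢
      simp only [grad_neg, ← neg_add, inner_neg_left, mul_neg, neg_mul, integral_neg, this])
    (by
      filter_upwards [hs] with x hx h
      simp only [ne_eq, neg_eq_zero] at h
      linarith [(abs_le.mp (hx h)).1])
  filter_upwards [h1, h2] with x p q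
  exact abs_le.mpr ⟨by linarith, p⟩

end Crest.Agent.R83
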