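import Crest.Prelude.Def_Conductivity

/-!
Row 83 (S0111, non-uniqueness for bounded scalar conductivities): definitions and the statements of
the independent pieces of the proof.
-/

set_option autoImplicit false

open MeasureTheory Set Filter Topology Metric
open scoped Gradient ContDiff RealInnerProductSpace ENNReal

namespace Crest.Agent.R83

noncomputable section

abbrev E : Type := EuclideanSpace ℝ (Fin 3)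

/-! ### Sobolev framework -/

/-- smooth test function supported in `U` -/
structure Test (U : Set E) (φ : E → ℝ) : Prop where
  smooth : ContDiff ℝ ∞ φ
  cpt : HasCompactSupport φ
  sub : tsupport φ ⊆ U

/-- `u ∈ H¹₀(U)` with weak gradient `g` -/
structure IsH (U : Set E) (u : E → ℝ) (g : E → E) : Prop where
  memu : MemLp u 2 volume
  memg : MemLp g 2 volume
  approx : ∀ ε : ℝ, 0 < ε → ∃ φ, Test U φ ∧ ∫ x, (u x - φ x) ^ 2 ≤ ε ∧ ∫ x, ‖g x - ∇ φ x‖ ^ 2 ≤ ε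

/-- pointwise divergence -/
def dvg (v : E → E) (x : E) : ℝ := ∑ i : Fin 3, fderiv ℝ v x (EuclideanSpace.single i 1) i

/-- the pairing `∫ f v + ⟪F, k⟫` -/
def pr (f : E → ℝ) (F : E → E) (v : E → ℝ) (k : E → E) : ℝ := ∫ x, (f x * v x + ⟪F x, k x⟫)

def C1Stmt : Prop := ∀ (U : Set E) (φ : E → ℝ), IsOpen U → ContDiff ℝ 1 φ → HasCompactSupport φ →
  tsupport φ ⊆ U → IsH U φ (∇ φ)

def ChainStmt : Prop := ∀ (U : Set E) (w : E → ℝ) (g : E → E) (ψ : E → ℝ) (β : ℝ → ℝ) (L : ℝ),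
  IsOpen U → IsH U w g → ContDiff ℝ 1 ψ → HasCompactSupport ψ → ContDiff ℝ 1 β →
  (∀ t, |deriv β t| ≤ L) →
  IsH U (fun x => β (ψ x + w x) - β (ψ x))
    (fun x => deriv β (ψ x + w x) • (∇ ψ x + g x) - deriv β (ψ x) • ∇ ψ x)

def ProdStmt : Prop := ∀ (u w : E → ℝ) (g h : E → E) (M : ℝ), IsH univ u g → IsH univ w h →
  (∀ᵐ x, |u x| ≤ M) → (∀ᵐ x, |w x| ≤ M) →
  IsH univ (fun x => u x * w x) (fun x => u x • h x + w x • g x)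

def PoincareStmt : Prop := ∀ R : ℝ, ∃ C : ℝ, 0 ≤ C ∧ ∀ (U : Set E) (u : E → ℝ) (g : E → E),
  U ⊆ ball 0 R → IsH U u g → ∫ x, u x ^ 2 ≤ C * ∫ x, ‖g x‖ ^ 2

def LaxStmt : Prop := ∀ (U : Set E) (γ : E → ℝ) (a b : ℝ) (F : E → E), Bornology.IsBounded U →
  Measurable γ → 0 < a → (∀ x, a ≤ γ x ∧ γ x ≤ b) → MemLp F 2 volume →
  ∃ u g, IsH U u g ∧ ∀ η h, IsH U η h → ∫ x, γ x * ⟪g x, h x⟫ = ∫ x, ⟪F x, h x⟫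

def MaxStmt : Prop := ∀ (U : Set E) (γ ψ w f : E → ℝ) (a b M : ℝ) (g F : E → E), IsOpen U →
  Bornology.IsBounded U → Measurable γ → 0 < a → (∀ x, a ≤ γ x ∧ γ x ≤ b) →
  ContDiff ℝ 1 ψ → HasCompactSupport ψ → (∀ x, |ψ x| ≤ M) → IsH U w g →
  (∀ η h, IsH U η h → ∫ x, γ x * ⟪∇ ψ x + g x, h x⟫ = pr f F η h) →
  (∀ᵐ x, (f x ≠ 0 ∨ F x ≠ 0) → |ψ x + w x| ≤ M) → ∀ᵐ x, |ψ x + w x| ≤ M

def WeakStmt : Prop := ∀ (U : Set E) (u : ℕ → E → ℝ) (g : ℕ → E → E) (K M : ℝ)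
  (𝒰 : Ultrafilter ℕ), (∀ n, IsH U (u n) (g n)) → (∀ n, ∫ x, u n x ^ 2 ≤ K) →
  (∀ n, ∫ x, ‖g n x‖ ^ 2 ≤ K) → (∀ n, ∀ᵐ x, |u n x| ≤ M) →
  ∃ d h, IsH U d h ∧ (∀ᵐ x, |d x| ≤ M) ∧ ∀ F : E → E, MemLp F 2 volume →
    Tendsto (fun n => ∫ x, ⟪F x, g n x⟫) 𝒰 (𝓝 (∫ x, ⟪F x, h x⟫))

/-- solving `div V = f` with compact support in a connected open set -/
def BogStmt : Prop := ∀ U K : Set E, IsOpen U → IsPreconnected U → IsCompact K → K ⊆ U →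
  ∃ (C : ℝ) (K' : Set E), 0 ≤ C ∧ IsCompact K' ∧ K' ⊆ U ∧ ∀ (f : E → ℝ) (B : ℝ), Continuous f →
    (∀ x, x ∉ K → f x = 0) → (∀ x, |f x| ≤ B) → ∫ x, f x = 0 →
    ∃ V : E → E, Continuous V ∧ (∀ x, x ∉ K' → V x = 0) ∧ (∀ x, ‖V x‖ ≤ C * B) ∧
      ∀ η : E → ℝ, ContDiff ℝ ∞ η → ∫ x, ⟪V x, ∇ η x⟫ = -∫ x, f x * η x

/-- Weyl's lemma with interior estimates -/
def WeylStmt : Prop := ∀ t : ℝ, 0 < t → ∃ C : ℝ, 0 ≤ C ∧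
  ∀ (U : Set E) (u : E → ℝ) (g : E → E) (B : ℝ), IsOpen U → IsH univ u g →
    (∀ η, Test U η → ∫ x, ⟪g x, ∇ η x⟫ = 0) → 0 ≤ B → ∫ x, u x ^ 2 ≤ B ^ 2 →
    ∃ v : E → ℝ, ContDiff ℝ ∞ v ∧ (∀ x, |v x| ≤ C * B ∧ ‖∇ v x‖ ≤ C * B) ∧
      (∀ x y, ‖∇ v x - ∇ v y‖ ≤ C * B * ‖x - y‖) ∧
      ∀ᵐ x, closedBall x t ⊆ U → v x = u x ∧ ∇ v x = g x

/-! ### Convex integration -/

/-- the open set of strict one-step laminates of the phases `b⁻¹` and `b` -/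
def inU (b : ℝ) (e j : E) : Prop :=
  ∃ h : ℝ, b⁻¹ < h ∧ h < b ∧ ⟪j - h • e, j - (b⁻¹ + b - h⁻¹) • e⟫ < 0

/-- squared distance of `j` from the line through `e` -/
def dfc (e j : E) : ℝ := ‖j‖ ^ 2 - ⟪e, j⟫ ^ 2 / ‖e‖ ^ 2

def StepStmt : Prop := ∀ b : ℝ, 1 < b → ∃ c : ℝ, 0 < c ∧
  ∀ (Ω : Set E) (e j : E → E) (B ε : ℝ) (𝓕 : Set (E → E)), IsOpen Ω → Bornology.IsBounded Ω →
    ContinuousOn e Ω → ContinuousOn j Ω → (∀ x ∈ Ω, ‖e x‖ ≤ B ∧ ‖j x‖ ≤ B) →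
    (∀ x ∈ Ω, inU b (e x) (j x)) → 𝓕.Finite → (∀ F ∈ 𝓕, MemLp F 2 volume) → 0 < ε →
    ∃ (φ : E → ℝ) (k : E → E), Test Ω φ ∧ ContDiff ℝ ∞ k ∧ HasCompactSupport k ∧ tsupport k ⊆ Ω ∧
      (∀ η, Test univ η → ∫ x, ⟪k x, ∇ η x⟫ = 0) ∧ (∀ x, |φ x| ≤ ε) ∧
      (∀ x ∈ Ω, inU b (e x + ∇ φ x) (j x + k x)) ∧
      (∀ F ∈ 𝓕, |∫ x, ⟪F x, ∇ φ x⟫| ≤ ε ∧ |∫ x, ⟪F x, k x⟫| ≤ ε) ∧
      c * (∫ x in Ω, dfc (e x) (j x)) - ε ≤ ∫ x, ‖∇ φ x‖ ^ 2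

def CIStmt : Prop := ∀ Λ : ℝ, 0 ≤ Λ → ∃ a b C : ℝ, 0 < a ∧ a ≤ 1 ∧ 1 ≤ b ∧ 0 ≤ C ∧
  ∀ (Ω : Set E) (e j : E → E) (B ε : ℝ), IsOpen Ω → Bornology.IsBounded Ω →
    ContinuousOn e Ω → ContinuousOn j Ω → (∀ x ∈ Ω, ‖e x‖ ≤ B ∧ ‖j x‖ ≤ B) →
    (∀ x ∈ Ω, ‖e x‖ ^ 2 + ‖j x‖ ^ 2 ≤ Λ * ⟪e x, j x⟫) → 0 < ε →
    ∃ (γ φ : E → ℝ) (g k : E → E), Measurable γ ∧ (∀ x, a ≤ γ x ∧ γ x ≤ b) ∧ IsH Ω φ g ∧
      (∀ x, |φ x| ≤ ε) ∧ MemLp k 2 volume ∧ (∀ x, x ∉ Ω → φ x = 0 ∧ g x = 0 ∧ k x = 0) ∧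
      (∀ η, Test univ η → ∫ x, ⟪k x, ∇ η x⟫ = 0) ∧
      (∀ᵐ x, x ∈ Ω → j x + k x = γ x • (e x + g x)) ∧
      (∫ x, ‖g x‖ ^ 2) + (∫ x, ‖k x‖ ^ 2) ≤ C * B ^ 2 * (volume Ω).toReal + ε

/-! ### Geometry: prolate spheroids with foci `± e0` -/

def e0 : E := EuclideanSpace.single 0 1

/-- the confocal parameter -/
def rr (x : E) : ℝ := (‖x - e0‖ + ‖x + e0‖) / 2

/-- the potential of the focal segment -/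
def NN (x : E) : ℝ := Real.log ((rr x + 1) / (rr x - 1)) / 2

def nu (x : E) : E := !₂[x 0 / rr x ^ 2, x 1 / (rr x ^ 2 - 1), x 2 / (rr x ^ 2 - 1)]

/-- swap of the coordinates `0` and `1` -/
def sw : E ≃ₗᵢ[ℝ] E := LinearIsometryEquiv.piLpCongrLeft 2 ℝ ℝ (Equiv.swap (0 : Fin 3) 1)

def kap : ℝ := 13 / 25

def sg (i : Fin 2) : ℝ := if i = 0 then 1 else -1

def cc (i : Fin 2) : E := (sg i * (53 / 100)) • e0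

/-- the two similarities -/
def SS (i : Fin 2) (x : E) : E := cc i + kap • sw x

/-- their inverses -/
def TT (i : Fin 2) (x : E) : E := kap⁻¹ • sw (x - cc i)

/-- gradient of `v ∘ SS i` when `k` is the gradient of `v` -/
def pull (i : Fin 2) (k : E → E) (x : E) : E := kap • sw (k (SS i x))

/-- gradient of `v ∘ TT i` when `k` is the gradient of `v` -/
def push (i : Fin 2) (k : E → E) (x : E) : E := kap⁻¹ • sw (k (TT i x))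

/-- smooth step, `0` for `t ≤ a`, `1` for `t ≥ b` -/
def step (a b t : ℝ) : ℝ := Real.smoothTransition ((t - a) / (b - a))

def th (x : E) : ℝ := 1 - step (1393 / 1000) (1397 / 1000) (rr x)

def f1 (x : E) : ℝ := ⟪∇ NN x, ∇ th x⟫

def V1 (x : E) : E := -(NN x) • ∇ th x

structure GeomFacts : Prop where
  cont : Continuous rr
  lip : ∀ x y, |rr x - rr y| ≤ ‖x - y‖
  one_le : ∀ x, 1 ≤ rr x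
  norm_le : ∀ x, ‖x‖ ≤ rr x
  sq_le : ∀ x, rr x ^ 2 ≤ ‖x‖ ^ 2 + 1
  smooth : ∀ x, 1 < rr x → ContDiffAt ℝ ∞ rr x
  ellipsoid : ∀ x, 1 < rr x → x 0 ^ 2 / rr x ^ 2 + (x 1 ^ 2 + x 2 ^ 2) / (rr x ^ 2 - 1) = 1
  le_iff : ∀ (ρ : ℝ) (x : E), 1 < ρ →
    (rr x ≤ ρ ↔ x 0 ^ 2 / ρ ^ 2 + (x 1 ^ 2 + x 2 ^ 2) / (ρ ^ 2 - 1) ≤ 1)
  grad : ∀ x, 1 < rr x → nu x ≠ 0 ∧ ∇ rr x = (rr x * ‖nu x‖ ^ 2)⁻¹ • nu x
  compact : ∀ β : ℝ, IsCompact {x | rr x ≤ β}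
  shell_conn : ∀ α β : ℝ, 1 ≤ α → IsPreconnected {x | α < rr x ∧ rr x < β}
  comp_smooth : ∀ (h : ℝ → ℝ) (α : ℝ), 1 < α → ContDiffOn ℝ ∞ h (Ioi 1) →
    (∀ t, t ≤ α → h t = h α) → ContDiff ℝ ∞ (fun x => h (rr x))
  grad_comp : ∀ (h : ℝ → ℝ) (h' : ℝ) (x : E), 1 < rr x → HasDerivAt h h' (rr x) →
    HasGradientAt (fun y => h (rr y)) (h' • ∇ rr x) x
  N_smooth : ∀ x, 1 < rr x → ContDiffAt ℝ ∞ NN x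
  N_grad : ∀ x, 1 < rr x → ∇ NN x = -(rr x ^ 2 - 1)⁻¹ • ∇ rr x
  N_harm : ∀ η, Test {x | 1 < rr x} η → ∫ x, ⟪∇ NN x, ∇ η x⟫ = 0
  child : ∀ i x, rr x ≤ 141 / 100 → rr (SS i x) ≤ 134 / 100
  child_sign : ∀ i x, rr x ≤ 141 / 100 → 0 < sg i * SS i x 0
  th_test : Test {x | rr x < 14 / 10} th
  f1_cont : Continuous f1
  V1_cont : Continuous V1
  f1_nonneg : ∀ x, 0 ≤ f1 x
  f1_V1_zero : ∀ x, rr x < 1393 / 1000 ∨ 1397 / 1000 < rr x → f1 x = 0 ∧ V1 x = 0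
  f1_pos : 0 < ∫ x, f1 x
  conn : ∃ U : Set E, IsOpen U ∧ IsPreconnected U ∧
    (∀ x ∈ U, rr x < 137 / 100 ∧ ∀ i, 139 / 100 < rr (TT i x)) ∧
    (∀ x, 1355 / 1000 ≤ rr x → rr x ≤ 1365 / 1000 → x ∈ U) ∧
    (∀ i x, 1393 / 1000 ≤ rr (TT i x) → rr (TT i x) ≤ 1397 / 1000 → x ∈ U)

/-! ### The compactly supported dipole field -/

/-- the cascade on the flat torus times an interval (profiles of the modes) -/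
def CascadeStmt : Prop := ∃ (T Λ C : ℝ) (a r b s : ℕ → ℝ → ℝ) (k l : ℕ → ℕ), 0 < T ∧ k 0 = 1 ∧
  (∀ m, 0 < k m ∧ 0 < l m) ∧
  (∀ m, ContDiff ℝ ∞ (a m) ∧ ContDiff ℝ ∞ (r m) ∧ ContDiff ℝ ∞ (b m) ∧ ContDiff ℝ ∞ (s m)) ∧
  (∀ m t, T ≤ t → a m t = 0 ∧ r m t = 0 ∧ b m t = 0 ∧ s m t = 0) ∧
  (∀ t, -2 ≤ t → t ≤ 0 → a 0 t = Real.exp (-2 * t) ∧ r 0 t = -2 * Real.exp (-2 * t)) ∧
  (∀ m t, t ≤ 0 → a (m + 1) t = 0 ∧ r (m + 1) t = 0 ∧ b m t = 0 ∧ s m t = 0) ∧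
  (∀ m t, (k m : ℝ) * |a m t| + |deriv (a m) t| + |r m t| + |deriv (r m) t| / k m ≤ C / 2 ^ m ∧
    (l m : ℝ) * |b m t| + |deriv (b m) t| + |s m t| + |deriv (s m) t| / l m ≤ C / 2 ^ m) ∧
  ∀ t φ ϑ : ℝ, -2 ≤ t →
    let et := ∑' m, (deriv (a m) t * Real.cos (k m * φ) + deriv (b m) t * Real.cos (l m * ϑ))
    let eφ := ∑' m, -(k m * a m t * Real.sin (k m * φ))
    let eϑ := ∑' m, -(l m * b m t * Real.sin (l m * ϑ))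
    let jt := ∑' m, (r m t * Real.cos (k m * φ) + s m t * Real.cos (l m * ϑ))
    let jφ := ∑' m, -(deriv (r m) t / k m * Real.sin (k m * φ))
    let jϑ := ∑' m, -(deriv (s m) t / l m * Real.sin (l m * ϑ))
    et ^ 2 + eφ ^ 2 + eϑ ^ 2 + jt ^ 2 + jφ ^ 2 + jϑ ^ 2 ≤ Λ * (et * jt + eφ * jφ + eϑ * jϑ)

/-- the dipole field in the flat solid torus; coordinates `p = (y, φ, z)`, periodic in `φ = p 1` -/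
def FlatStmt : Prop := ∃ (L δ C : ℝ) (w : ℕ → E → ℝ) (v : ℕ → E → E), 0 < δ ∧
  (∀ m p, w m (p + EuclideanSpace.single 1 (2 * Real.pi)) = w m p ∧
    v m (p + EuclideanSpace.single 1 (2 * Real.pi)) = v m p) ∧
  (∀ m p, 0 < Real.sin (p 1) ^ 2 + p 0 ^ 2 + p 2 ^ 2 →
    ContDiffAt ℝ ∞ (w m) p ∧ ContDiffAt ℝ ∞ (v m) p ∧ dvg (v m) p = 0) ∧
  (∀ m p, 1 / 100 ≤ p 0 ^ 2 + p 2 ^ 2 → w m p = 0 ∧ v m p = 0) ∧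
  (∀ m p, |w (m + 1) p| ≤ C / 2 ^ m ∧ ‖∇ (w (m + 1)) p‖ ≤ C / 2 ^ m ∧ ‖v (m + 1) p‖ ≤ C / 2 ^ m) ∧
  (∀ m p, p 0 ^ 2 + p 2 ^ 2 < δ ^ 2 → w (m + 1) p = 0 ∧ v (m + 1) p = 0) ∧
  (∀ (σ : ℝ) (p : E), σ = 1 ∨ σ = -1 → 0 < σ * Real.cos (p 1) →
    0 < p 0 ^ 2 + Real.tan (p 1) ^ 2 + p 2 ^ 2 → p 0 ^ 2 + Real.tan (p 1) ^ 2 + p 2 ^ 2 < δ ^ 2 →
    w 0 p = σ * (L - Real.log (p 0 ^ 2 + Real.tan (p 1) ^ 2 + p 2 ^ 2) / 4) ∧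
    v 0 p = -(σ / √(p 0 ^ 2 + Real.tan (p 1) ^ 2 + p 2 ^ 2) ^ 3) •
      !₂[p 0 / Real.cos (p 1) ^ 2, Real.tan (p 1), p 2 / Real.cos (p 1) ^ 2]) ∧
  ∀ ε : ℝ, 0 < ε → ∃ Λ : ℝ, 0 ≤ Λ ∧ ∀ p : E, ε ≤ Real.sin (p 1) ^ 2 + p 0 ^ 2 + p 2 ^ 2 →
    ‖∑' m, ∇ (w m) p‖ ^ 2 + ‖∑' m, v m p‖ ^ 2 ≤ Λ * ⟪∑' m, ∇ (w m) p, ∑' m, v m p⟫

/-- the dipole subsolution between the two children -/
def DesignStmt : Prop := ∃ (Λ M : ℝ) (W : E → ℝ) (e J : E → E), 0 ≤ Λ ∧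
  IsH {x | rr x < 135 / 100} W e ∧ (∀ x, |W x| ≤ M) ∧ Continuous e ∧ Continuous J ∧
  (∀ x, 135 / 100 ≤ rr x → e x = 0 ∧ J x = 0) ∧
  (∀ i x, rr (TT i x) < 1405 / 1000 →
    e x = sg i • ∇ (fun y => (1 - th (TT i y)) * NN (TT i y)) x ∧ J x = e x) ∧
  (∀ x, ‖e x‖ ^ 2 + ‖J x‖ ^ 2 ≤ Λ * ⟪e x, J x⟫) ∧
  ∀ η, Test {x | ∀ i, 14 / 10 < rr (TT i x)} η → ∫ x, ⟪J x, ∇ η x⟫ = 0

/-! ### Killing a small harmonic error across a shell with finitely many choices at each scale -/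

def KillStmt : Prop := ∃ (ε₀ a b C : ℝ) (𝓕 : ℕ → Set (E → ℝ)), 0 < ε₀ ∧ 0 < a ∧ a ≤ 1 ∧ 1 ≤ b ∧
  (∀ n, (𝓕 n).Finite) ∧ ∀ (u : E → ℝ) (g : E → E), IsH univ u g → ∫ x, u x ^ 2 ≤ ε₀ →
    (∀ η, Test {x | rr x < 1388 / 1000} η → (∀ x, rr x ≤ 1372 / 1000 → ∇ η x = 0) →
      ∫ x, ⟪g x, ∇ η x⟫ = 0) →
    ∃ (γ u' : E → ℝ) (g' j' : E → E), Measurable γ ∧ (∀ x, a ≤ γ x ∧ γ x ≤ b) ∧
      (∀ x, rr x ≤ 1378 / 1000 ∨ 1386 / 1000 ≤ rr x → γ x = 1) ∧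
      IsH {x | rr x < 139 / 100} u' g' ∧ MemLp j' 2 volume ∧
      (∀ᵐ x, rr x ≤ 1378 / 1000 → u' x = u x ∧ g' x = g x ∧ j' x = g x) ∧
      (∀ᵐ x, 1378 / 1000 < rr x → |u' x| ≤ C ∧ γ x • (∇ NN x + g' x) = ∇ NN x + j' x) ∧
      (∀ᵐ x, 1386 / 1000 ≤ rr x → u' x = 0 ∧ g' x = 0 ∧ j' x = 0) ∧
      (∫ x in {x | 1378 / 1000 < rr x}, ‖g' x‖ ^ 2 ≤ C) ∧
      (∀ η, Test {x | 1374 / 1000 < rr x} η → ∫ x, ⟪j' x, ∇ η x⟫ = 0) ∧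
      ∀ n, ∃ f ∈ 𝓕 n, volume {x | γ x ≠ f x} ≤ ((n : ℝ≥0∞) + 1)⁻¹

/-! ### The recursion, its limit and the gauge transformation -/

/-- the source functional of a block -/
def Lam (γ : E → ℝ) (G : E → E) (v : E → ℝ) (k : E → E) : ℝ :=
  pr f1 (fun x => V1 x + γ x • G x) v k

def SeqStmt : Prop := ∃ (a b M K : ℝ) (γ d : ℕ → E → ℝ) (G D : ℕ → E → E), 0 < a ∧
  (∀ n, Measurable (γ n) ∧ (∀ x, a ≤ γ n x ∧ γ n x ≤ b) ∧ (∀ x, 139 / 100 ≤ rr x → γ n x = 1) ∧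
    MemLp (G n) 2 volume ∧ ∫ x, ‖G n x‖ ^ 2 ≤ K ∧ ∀ᵐ x, 14 / 10 ≤ rr x → G n x = 0) ∧
  (∀ x, G 0 x = 0) ∧
  (∀ n i x, rr x ≤ 14 / 10 → γ (n + 1) (SS i x) = γ n x) ∧
  (∀ n v k, IsH univ v k → Lam (γ (n + 1)) (G (n + 1)) v k =
    (Lam (γ n) (G n) (fun x => v (SS 0 x)) (pull 0 k) +
      Lam (γ n) (G n) (fun x => v (SS 1 x)) (pull 1 k)) / 2) ∧
  (∀ n, IsH {x | rr x < 135 / 100} (d n) (D n) ∧ (∀ᵐ x, |d n x| ≤ M) ∧ ∫ x, ‖D n x‖ ^ 2 ≤ K ∧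
    ∀ v k, IsH univ v k → ∫ x, γ (n + 1) x * ⟪D n x, k x⟫ =
      kap * (Lam (γ n) (G n) (fun x => v (SS 0 x)) (pull 0 k) -
        Lam (γ n) (G n) (fun x => v (SS 1 x)) (pull 1 k))) ∧
  ∀ m : ℕ, ∃ 𝓕 : Set (E → ℝ), 𝓕.Finite ∧ ∀ n, ∃ f ∈ 𝓕,
    volume {x | (∀ i, 14 / 10 < rr (TT i x)) ∧ γ (n + 1) x ≠ f x} ≤ ((m : ℝ≥0∞) + 1)⁻¹

def GaugeHyp : Prop := ∃ (γ d : E → ℝ) (g : E → E) (a b M : ℝ), 0 < a ∧ Measurable γ ∧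
  (∀ x, a ≤ γ x ∧ γ x ≤ b) ∧ (∀ x, 2 < ‖x‖ → γ x = 1) ∧ IsH (ball 0 2) d g ∧ (∀ᵐ x, |d x| ≤ M) ∧
  ¬ (∀ᵐ x, g x = 0) ∧
  ∀ u h, IsH univ u h → (∀ η, Test (ball 0 3) η → ∫ x, γ x * ⟪h x, ∇ η x⟫ = 0) →
    ∃ c : ℝ, ∀ η, Test univ η → ∫ x, γ x * ⟪g x, η x • h x + (u x - c) • ∇ η x⟫ = 0

/-- the statement of S0111 -/
def Result : Prop :=
  ∃ γ₀ γ₁ : EuclideanSpace ℝ (Fin 3) → ℝ, ∃ c C : ℝ, 0 < c ∧ Measurable γ₀ ∧ Measurable γ₁ ∧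
    (∀ x, c ≤ γ₀ x ∧ γ₀ x ≤ C ∧ c ≤ γ₁ x ∧ γ₁ x ≤ C) ∧
    (∃ r : ℝ, r < 3 ∧ ∀ x : EuclideanSpace ℝ (Fin 3), r < ‖x‖ → γ₀ x = 1 ∧ γ₁ x = 1) ∧
    0 < volume {x : EuclideanSpace ℝ (Fin 3) | γ₀ x ≠ γ₁ x} ∧
    Crest.AnalysisR.PDE.Calderon.SameBoundaryEnergies γ₀ γ₁

/-! ### small simp lemmas -/

@[simp] lemma sw_apply_zero (x : E) : sw x 0 = x 1 := by
  simp [sw, LinearIsometryEquiv.piLpCongrLeft_apply, Equiv.piCongrLeft']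

@[simp] lemma sw_apply_one (x : E) : sw x 1 = x 0 := by
  simp [sw, LinearIsometryEquiv.piLpCongrLeft_apply, Equiv.piCongrLeft']

@[simp] lemma sw_apply_two (x : E) : sw x 2 = x 2 := by
  simp [sw, LinearIsometryEquiv.piLpCongrLeft_apply, Equiv.piCongrLeft', Equiv.swap_apply_def]

@[simp] lemma sw_sw (x : E) : sw (sw x) = x := by
  ext i; fin_cases i <;> simp

lemma sw_symm : sw.symm = sw := by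
  ext x : 1
  exact sw.injective (by simp)

lemma inner_sw_left (x y : E) : ⟪sw x, y⟫ = ⟪x, sw y⟫ := by
  rw [← sw.inner_map_map x (sw y), sw_sw]

lemma kap_pos : 0 < kap := by norm_num [kap]

@[simp] lemma TT_SS (i : Fin 2) (x : E) : TT i (SS i x) = x := by
  simp [TT, SS, smul_smul, kap_pos.ne']

@[simp] lemma SS_TT (i : Fin 2) (x : E) : SS i (TT i x) = x := by
  simp [TT, SS, smul_smul, kap_pos.ne']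

@[simp] lemma sg_zero : sg 0 = 1 := by simp [sg]

@[simp] lemma sg_one : sg 1 = -1 := by simp [sg]

end

end Crest.Agent.R83
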