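import Crest.Agent.R83.DesignAsm

/-!
Row 83, design of the dipole field: gluing the inner and the outer description.
-/

set_option autoImplicit false

open MeasureTheory Set Filter Topology Metric
open scoped Gradient ContDiff RealInnerProductSpace ENNReal

namespace Crest.Agent.R83

noncomputable section

namespace Des

/-- gluing of two inner fields with an outer one -/
def glue {F : Type} (a : Fin 2 → E → F) (b : E → F) (x : E) : F :=
  if ri 0 x < 1402 / 1000 then a 0 x else if ri 1 x < 1402 / 1000 then a 1 x else b x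

/-- the outer part of the potential of a child -/
def PP (i : Fin 2) (y : E) : ℝ := (1 - th (TT i y)) * NN (TT i y)

/-- inner potentials -/
def inW (c : ℝ) (m : ℕ) (i : Fin 2) (y : E) : ℝ :=
  Nat.casesOn m (sg i * (PP i y + c)) fun _ => 0

variable {i : Fin 2} {x : E}

lemma glue_out {F : Type} {a : Fin 2 → E → F} {b : E → F}
    (hab : ∀ i x, 14 / 10 < ri i x → ri i x < 1405 / 1000 → b x = a i x)
    (hx : ∀ i, 14 / 10 < ri i x) : glue a b x = b x := by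
  unfold glue
  split_ifs with h0 h1
  · exact (hab 0 x (hx 0) (by linarith)).symm
  · exact (hab 1 x (hx 1) (by linarith)).symm
  · rfl

lemma arith {A V a v t Λ B D D0 : ℝ} (hA0 : 0 ≤ A) (hV0 : 0 ≤ V) (hA : A ≤ 3 * B * a)
    (hV : V ≤ 3 * B ^ 2 * v) (h : a ^ 2 + v ^ 2 ≤ Λ * t) (ht : 0 ≤ t) (hΛ : 0 ≤ Λ) (h0 : 0 < D0)
    (hD : D0 ≤ D) :
    A ^ 2 + V ^ 2 ≤ ((3 * B) ^ 2 + (3 * B ^ 2) ^ 2) * Λ / (kap * D0) * (kap * D * t) := by
  have hk := kap_pos
  have h1 : A ^ 2 ≤ (3 * B * a) ^ 2 := pow_le_pow_left₀ hA0 hA 2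
  have h2 : V ^ 2 ≤ (3 * B ^ 2 * v) ^ 2 := pow_le_pow_left₀ hV0 hV 2
  have h3 : (3 * B * a) ^ 2 + (3 * B ^ 2 * v) ^ 2 ≤
      ((3 * B) ^ 2 + (3 * B ^ 2) ^ 2) * (a ^ 2 + v ^ 2) := by
    nlinarith [sq_nonneg (3 * B * v), sq_nonneg (3 * B ^ 2 * a)]
  have h4 := mul_le_mul_of_nonneg_left h
    (show 0 ≤ (3 * B) ^ 2 + (3 * B ^ 2) ^ 2 by positivity)
  have h5 : ((3 * B) ^ 2 + (3 * B ^ 2) ^ 2) * (Λ * t) =
      ((3 * B) ^ 2 + (3 * B ^ 2) ^ 2) * Λ / (kap * D0) * (kap * D0 * t) := by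
    field_simp
  have h6 : ((3 * B) ^ 2 + (3 * B ^ 2) ^ 2) * Λ / (kap * D0) * (kap * D0 * t) ≤
      ((3 * B) ^ 2 + (3 * B ^ 2) ^ 2) * Λ / (kap * D0) * (kap * D * t) := by
    gcongr
  linarith

lemma summable_of_tail {a : ℕ → E} {C : ℝ} (h : ∀ m, ‖a (m + 1)‖ ≤ C / 2 ^ m) : Summable a := by
  rw [← summable_nat_add_iff 1]
  refine Summable.of_norm_bounded (g := fun k => C / 2 ^ k) ?_ h
  refine (summable_geometric_two.mul_left C).congr fun k => ?_
  rw [one_div, inv_pow, div_eq_mul_inv]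

lemma log_rho {ρ0 r : ℝ} (h0 : 0 < ρ0) (hr : 1 < r) (L : ℝ) :
    L - Real.log (rho ρ0 r ^ 2) / 4 =
      Real.log ((r + 1) / (r - 1)) / 2 + (L - Real.log ρ0 / 2) := by
  have h1 : 0 < r - 1 := by linarith
  have h2 : 0 < r + 1 := by linarith
  rw [Real.log_pow, rho, Real.log_div (by positivity) h2.ne', Real.log_mul h0.ne' h1.ne',
    Real.log_div h2.ne' h1.ne']
  push_cast
  ring

lemma PP_of_ge (h : 1397 / 1000 ≤ ri i x) : PP i x = NN (TT i x) := by
  show (1 - (1 - step (1393 / 1000) (1397 / 1000) (ri i x))) * NN (TT i x) = _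
  rw [step_of_ge (by norm_num) h]
  ring

section
variable (hG : GeomFacts)
include hG

lemma glue_in {F : Type} {a : Fin 2 → E → F} {b : E → F}
    (hab : ∀ i x, 14 / 10 < ri i x → ri i x < 1405 / 1000 → b x = a i x)
    (hx : ri i x < 1405 / 1000) : glue a b x = a i x := by
  have ho := other hG (i := i) (x := x) (by linarith)
  unfold glue
  split_ifs with h0 h1
  · obtain rfl : 0 = i := by_contra fun h => by linarith [ho 0 h]
    rfl
  · obtain rfl : 1 = i := by_contra fun h => by linarith [ho 1 h]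
    rfl
  · refine hab i x ?_ hx
    fin_cases i
    · exact lt_of_lt_of_le (by norm_num) (not_lt.1 h0)
    · exact lt_of_lt_of_le (by norm_num) (not_lt.1 h1)

lemma glue_in_ev {F : Type} {a : Fin 2 → E → F} {b : E → F}
    (hab : ∀ i x, 14 / 10 < ri i x → ri i x < 1405 / 1000 → b x = a i x)
    (hx : ri i x < 1405 / 1000) : glue a b =ᶠ[𝓝 x] a i :=
  ((ri_continuous hG i).continuousAt.eventually (gt_mem_nhds hx)).mono fun _ hy =>
    glue_in hG hab hy

lemma glue_out_ev {F : Type} {a : Fin 2 → E → F} {b : E → F}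
    (hab : ∀ i x, 14 / 10 < ri i x → ri i x < 1405 / 1000 → b x = a i x)
    (hx : ∀ i, 14 / 10 < ri i x) : glue a b =ᶠ[𝓝 x] b :=
  (eventually_all.2 fun i =>
    (ri_continuous hG i).continuousAt.eventually (lt_mem_nhds (hx i))).mono fun _ hy =>
    glue_out hab hy

lemma PP_contDiff (i : Fin 2) : ContDiff ℝ ∞ (PP i) := by
  have h := hG.comp_smooth (fun t => (1 - (1 - step (1393 / 1000) (1397 / 1000) t)) *
    (Real.log ((t + 1) / (t - 1)) / 2)) (1393 / 1000) (by norm_num) ?_ ?_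
  · exact h.comp (contDiff_TT i)
  · refine (contDiff_const.sub (contDiff_const.sub (step_contDiff _ _))).contDiffOn.mul
      (ContDiffOn.div_const (ContDiffOn.log (ContDiffOn.div (by fun_prop) (by fun_prop) ?_) ?_) _)
    · intro t ht
      exact (sub_pos.2 (mem_Ioi.1 ht)).ne'
    · intro t ht
      have := mem_Ioi.1 ht
      exact (div_pos (by linarith) (by linarith)).ne'
  · intro t ht
    simp only [step_of_le (show (1393 / 1000 : ℝ) < 1397 / 1000 by norm_num) ht,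
      step_of_le (show (1393 / 1000 : ℝ) < 1397 / 1000 by norm_num) le_rfl]
    ring

lemma inW_contDiff (c : ℝ) (m : ℕ) (i : Fin 2) : ContDiff ℝ ∞ (inW c m i) := by
  cases m with
  | zero => exact contDiff_const.mul ((PP_contDiff hG i).add contDiff_const)
  | succ k => exact contDiff_const

lemma grad_PP (h : 14 / 10 < ri i x) : ∇ (PP i) x = -(ri i x ^ 2 - 1)⁻¹ • ∇ (ri i) x := by
  have e : PP i =ᶠ[𝓝 x] fun y => NN (TT i y) :=
    ((ri_continuous hG i).continuousAt.eventually (lt_mem_nhds h)).mono fun y hy =>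
      PP_of_ge (by linarith)
  rw [e.gradient_eq, grad_NT hG (by linarith)]

variable {ρ0 : ℝ} (h0 : 0 < ρ0) (h1 : ρ0 ≤ 1 / 10)
include h0 h1

/-- bounds for the frame on the compact part of the outer region -/
lemma frame_bounds : ∃ B Δ ε : ℝ, 0 ≤ B ∧ 0 < Δ ∧ 0 < ε ∧ ∀ x, (∀ i, 1405 / 1000 ≤ ri i x) →
    R2 (XX ρ0) x ≤ 1 / 100 → ‖∇ (ss (XX ρ0)) x‖ ≤ B ∧ ‖om (XX ρ0) x‖ ≤ B ∧ ‖∇ (XX ρ0 2) x‖ ≤ B ∧
      Δ ≤ De (XX ρ0) x ∧ ε ≤ QQ (XX ρ0) x := by
  have hX := XX_contDiff hG h0 h1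
  have hK : IsCompact {x | (∀ i, 1405 / 1000 ≤ ri i x) ∧ R2 (XX ρ0) x ≤ 1 / 100} := by
    refine (hG.compact (134 / 100)).of_isClosed_subset (IsClosed.inter ?_ ?_) fun x hx => ?_
    · show IsClosed {x | ∀ i, 1405 / 1000 ≤ ri i x}
      rw [Set.ofPred_forall]
      exact isClosed_iInter fun i => isClosed_le continuous_const (ri_continuous hG i)
    · exact isClosed_le (R2_continuous hX) continuous_const
    · by_contra hc
      exact absurd hx.2 (not_le.2 (R2_far hG (not_le.1 hc)))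
  have hS : ∀ x ∈ {x | (∀ i, 1405 / 1000 ≤ ri i x) ∧ R2 (XX ρ0) x ≤ 1 / 100},
      0 < S2 (XX ρ0) x ∧ ∀ j, 139 / 100 < ri j x := fun x hx =>
    ⟨S2_pos_of_R2 hx.2, fun j => by linarith [hx.1 j]⟩
  obtain ⟨B0, b0⟩ := hK.exists_bound_of_continuousOn (f := ∇ (ss (XX ρ0))) fun x hx =>
    (contDiffAt_grad (ss_contDiffAt hX (hS x hx).1)).continuousAt.continuousWithinAt
  obtain ⟨B1, b1⟩ := hK.exists_bound_of_continuousOn (f := om (XX ρ0)) fun x hx =>
    (om_contDiffAt hX (hS x hx).1).continuousAt.continuousWithinAt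
  obtain ⟨B2, b2⟩ := hK.exists_bound_of_continuousOn (f := ∇ (XX ρ0 2))
    (contDiff_grad (hX 2)).continuous.continuousOn
  obtain ⟨Δ, d0, d1⟩ := hK.exists_forall_le' (f := De (XX ρ0)) (a := 0)
    (fun x hx => (De_continuousAt hX (hS x hx).1).continuousWithinAt)
    fun x hx => De_pos hX (hS x hx).1 (det_pos hG h0 h1 (hS x hx).2)
  obtain ⟨ε, e0, e1⟩ := hK.exists_forall_le' (f := QQ (XX ρ0)) (a := 0)
    (fun x hx => (QQ_continuousAt hX (hS x hx).1).continuousWithinAt)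
    fun x hx => QQ_pos (hS x hx).1 (nondeg hG h0 h1 (hS x hx).2)
  refine ⟨|B0| + |B1| + |B2|, Δ, ε, by positivity, d0, e0, fun x hx hx' => ?_⟩
  have a0 := (b0 x ⟨hx, hx'⟩).trans (le_abs_self _)
  have a1 := (b1 x ⟨hx, hx'⟩).trans (le_abs_self _)
  have a2 := (b2 x ⟨hx, hx'⟩).trans (le_abs_self _)
  have p0 := abs_nonneg B0
  have p1 := abs_nonneg B1
  have p2 := abs_nonneg B2
  exact ⟨by linarith, by linarith, by linarith, d1 x ⟨hx, hx'⟩, e1 x ⟨hx, hx'⟩⟩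

/-- the pull-back in the outer region -/
lemma outer {w : E → ℝ} {v : E → E}
    (hp : ∀ p, w (p + EuclideanSpace.single 1 (2 * Real.pi)) = w p ∧
      v (p + EuclideanSpace.single 1 (2 * Real.pi)) = v p)
    (hs : ∀ p : E, 0 < Real.sin (p 1) ^ 2 + p 0 ^ 2 + p 2 ^ 2 →
      ContDiffAt ℝ ∞ w p ∧ ContDiffAt ℝ ∞ v p ∧ dvg v p = 0)
    (hz : ∀ p : E, 1 / 100 ≤ p 0 ^ 2 + p 2 ^ 2 → w p = 0 ∧ v p = 0)
    (hx : ∀ i, 14 / 10 < ri i x) :
    ContDiffAt ℝ ∞ (fun y => w (Th (XX ρ0) y)) x ∧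
      ∇ (fun y => w (Th (XX ρ0) y)) x = PG (XX ρ0) (∇ w (Th (XX ρ0) x)) x ∧
      ContDiffAt ℝ ∞ (fun y => PV (XX ρ0) (v (Th (XX ρ0) y)) y) x ∧
      dvg (fun y => PV (XX ρ0) (v (Th (XX ρ0) y)) y) x = 0 := by
  have hX := XX_contDiff hG h0 h1
  by_cases h : 1 / 100 < R2 (XX ρ0) x
  · exact (pull_out hX hz h).2
  · have hS := S2_pos_of_R2 (not_lt.1 h)
    have hQ := QQ_pos hS (nondeg hG h0 h1 fun j => by linarith [hx j])
    rw [← QQ_eq] at hQ
    obtain ⟨a, b, c⟩ := hs _ hQ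
    exact pull_in hX hp hS a b c

/-- the toroidal coordinates in the overlap -/
lemma ovl (hl : 14 / 10 < ri i x) (hu : ri i x < 1405 / 1000) :
    0 < sg i * Real.cos (Th (XX ρ0) x 1) ∧
    Th (XX ρ0) x 0 ^ 2 + Real.tan (Th (XX ρ0) x 1) ^ 2 + Th (XX ρ0) x 2 ^ 2 =
      rho ρ0 (ri i x) ^ 2 ∧
    PV (XX ρ0) (-(sg i / √(rho ρ0 (ri i x) ^ 2) ^ 3) •
      !₂[Th (XX ρ0) x 0 / Real.cos (Th (XX ρ0) x 1) ^ 2, Real.tan (Th (XX ρ0) x 1),
        Th (XX ρ0) x 2 / Real.cos (Th (XX ρ0) x 1) ^ 2]) x = sg i • ∇ (PP i) x := by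
  have hX := XX_contDiff hG h0 h1
  have hr : 1 < ri i x := by linarith
  obtain ⟨o1, o2⟩ := overlap hG h0 h1 hl hu
  have r0 := rho_pos h0 hr
  have r1 := (rho_lt h0 hr).trans_le h1
  have r2 : rho ρ0 (ri i x) ^ 2 < 1 / 100 := by nlinarith
  have a0 : 1 / 2 < sg i * XX ρ0 0 x := by
    have : (XX ρ0 0 x - sg i) ^ 2 < 1 / 100 := by
      nlinarith [sq_nonneg (XX ρ0 1 x), sq_nonneg (XX ρ0 2 x)]
    rcases sg_cases i with h | h <;> rw [h] at this ⊢ <;> nlinarith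
  have a1 : XX ρ0 1 x ^ 2 < 1 / 100 := by
    nlinarith [sq_nonneg (XX ρ0 0 x - sg i), sq_nonneg (XX ρ0 2 x)]
  obtain ⟨p1, p2⟩ := pole_flux hX (sg_cases i) a0 a1 (-(sg i / √(rho ρ0 (ri i x) ^ 2) ^ 3))
  refine ⟨(pole hX (sg_cases i) a0 a1).2.1, p1.trans o1, ?_⟩
  rw [p2, mul_comm kap, mul_smul, o2, grad_PP hG hl, smul_smul, smul_smul, Real.sqrt_sq r0.le]
  congr 1
  field_simp

end

end Des

open Des in
theorem design (hG : GeomFacts) (hF : FlatStmt) : DesignStmt := by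
  obtain ⟨L, δ, C, w, v, hδ, hp, hs, hz, hb, hc, hpole, hΛ⟩ := hF
  obtain ⟨ρ0, h0, h1, h2⟩ : ∃ ρ0 : ℝ, 0 < ρ0 ∧ ρ0 ≤ 1 / 10 ∧ ρ0 ≤ δ :=
    ⟨min (1 / 10) δ, lt_min (by norm_num) hδ, min_le_left _ _, min_le_right _ _⟩
  have hX := XX_contDiff hG h0 h1
  obtain ⟨B, Δ, ε, hB, hΔ, hε, hfr⟩ := frame_bounds hG h0 h1
  obtain ⟨Λ, hΛ0, hΛ⟩ := hΛ ε hε
  have hC : 0 ≤ C := by simpa using (abs_nonneg _).trans (hb 0 0).1
  have gin : ∀ i x, ∇ (inW (L - Real.log ρ0 / 2) 0 i) x = sg i • ∇ (PP i) x := fun i x => by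
    rw [← grad_add_const (PP i) (L - Real.log ρ0 / 2), ← grad_const_mul]
    rfl
  have gin' : ∀ m i x, ∇ (inW (L - Real.log ρ0 / 2) (m + 1) i) x = 0 := fun m i x =>
    grad_eq_zero_of_eventually_const (c := 0) (Eventually.of_forall fun _ => rfl)
  have ov : ∀ m i x, 14 / 10 < ri i x → ri i x < 1405 / 1000 →
      w m (Th (XX ρ0) x) = inW (L - Real.log ρ0 / 2) m i x ∧
      PV (XX ρ0) (v m (Th (XX ρ0) x)) x = ∇ (inW (L - Real.log ρ0 / 2) m i) x := by
    intro m i x hl hu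
    have hr : 1 < ri i x := by linarith
    obtain ⟨o1, o2, o3⟩ := ovl hG h0 h1 hl hu
    have r0 := rho_pos h0 hr
    have r1 : rho ρ0 (ri i x) ^ 2 < δ ^ 2 :=
      pow_lt_pow_left₀ ((rho_lt h0 hr).trans_le h2) r0.le two_ne_zero
    cases m with
    | zero =>
      obtain ⟨q1, q2⟩ := hpole (sg i) _ (sg_cases i) o1 (by rw [o2]; positivity) (by rwa [o2])
      rw [q1, q2, o2, o3, gin, log_rho h0 hr]
      refine ⟨?_, rfl⟩
      show _ = sg i * (PP i x + _)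
      rw [PP_of_ge (by linarith)]
      rfl
    | succ k =>
      obtain ⟨q1, q2⟩ := hc k (Th (XX ρ0) x)
        (by linarith [sq_nonneg (Real.tan (Th (XX ρ0) x 1))])
      rw [q1, q2, PV_zero, gin']
      exact ⟨rfl, rfl⟩
  have ovW := fun m i x hl hu => (ov m i x hl hu).1
  have ovJ := fun m i x hl hu => (ov m i x hl hu).2
  have out := fun m x => outer hG h0 h1 (x := x) (hp m) (hs m) (hz m)
  have cov : ∀ x, (∃ i, ri i x < 1405 / 1000) ∨ ∀ i, 1405 / 1000 ≤ ri i x := fun x => by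
    by_contra hcon
    push Not at hcon
    obtain ⟨i, hi⟩ := hcon.2
    exact absurd hi (not_lt.2 (hcon.1 i))
  have lt : ∀ x, (∀ i, 1405 / 1000 ≤ ri i x) → ∀ i, 14 / 10 < ri i x := fun x hx i => by
    linarith [hx i]
  have gout : ∀ m x, (∀ i, 14 / 10 < ri i x) →
      ∇ (glue (inW (L - Real.log ρ0 / 2) m) fun y => w m (Th (XX ρ0) y)) x =
        PG (XX ρ0) (∇ (w m) (Th (XX ρ0) x)) x := fun m x hx =>
    (glue_out_ev hG (ovW m) hx).gradient_eq.trans (out m x hx).2.1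
  refine assemble hG (fun m => glue (inW (L - Real.log ρ0 / 2) m) fun y => w m (Th (XX ρ0) y))
    (fun m => glue (fun i => ∇ (inW (L - Real.log ρ0 / 2) m i))
      fun y => PV (XX ρ0) (v m (Th (XX ρ0) y)) y) ((1 + 3 * B + 3 * B ^ 2) * C)
    (((3 * B) ^ 2 + (3 * B ^ 2) ^ 2) * Λ / (kap * Δ)) (fun m => contDiff_iff_contDiffAt.2 fun x => ?_)
    (fun m => continuous_iff_continuousAt.2 fun x => ?_) (fun m x hx => ?_) (fun m x => ?_)
    (fun i x hx => ?_) (div_nonneg (mul_nonneg (by positivity) hΛ0) (mul_pos kap_pos hΔ).le)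
    (fun x hx => ?_) fun m x hx => ?_
  · rcases cov x with ⟨i, hi⟩ | hx
    · exact (inW_contDiff hG _ m i).contDiffAt.congr_of_eventuallyEq (glue_in_ev hG (ovW m) hi)
    · exact (out m x (lt x hx)).1.congr_of_eventuallyEq (glue_out_ev hG (ovW m) (lt x hx))
  · rcases cov x with ⟨i, hi⟩ | hx
    · exact (contDiff_grad (inW_contDiff hG _ m i)).continuous.continuousAt.congr
        (glue_in_ev hG (ovJ m) hi).symm
    · exact (out m x (lt x hx)).2.2.1.continuousAt.congr (glue_out_ev hG (ovJ m) (lt x hx)).symm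
  · have hx' : ∀ i, 14 / 10 < ri i x := fun i => by linarith [far_of_lt hG hx i]
    obtain ⟨q1, q2⟩ := hz m (Th (XX ρ0) x) (R2_far hG hx).le
    rw [glue_out (ovW m) hx', glue_out (ovJ m) hx', q1, q2, PV_zero]
    exact ⟨rfl, rfl⟩
  · have p0 : 0 ≤ C / 2 ^ m := by positivity
    have e : (1 + 3 * B + 3 * B ^ 2) * C / 2 ^ m = (1 + 3 * B + 3 * B ^ 2) * (C / 2 ^ m) :=
      mul_div_assoc _ _ _
    have p1 : 0 ≤ 3 * B * (C / 2 ^ m) := by positivity
    have p2 : 0 ≤ 3 * B ^ 2 * (C / 2 ^ m) := by positivity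
    rw [e, add_mul, add_mul, one_mul]
    rcases cov x with ⟨i, hi⟩ | hx
    · rw [(glue_in_ev hG (ovW (m + 1)) hi).gradient_eq, glue_in hG (ovW (m + 1)) hi,
        glue_in hG (ovJ (m + 1)) hi, gin', norm_zero]
      refine ⟨?_, by linarith, by linarith⟩
      show |(0 : ℝ)| ≤ _
      rw [abs_zero]; linarith
    · rw [gout _ x (lt x hx), glue_out (ovW (m + 1)) (lt x hx), glue_out (ovJ (m + 1)) (lt x hx)]
      obtain ⟨b1, b2, b3⟩ := hb m (Th (XX ρ0) x)
      refine ⟨by linarith, ?_⟩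
      by_cases h : 1 / 100 < R2 (XX ρ0) x
      · rw [(pull_out hX (hz (m + 1)) h).1, (hz (m + 1) (Th (XX ρ0) x) h.le).2, PG_zero, PV_zero,
          norm_zero]
        exact ⟨by linarith, by linarith⟩
      · obtain ⟨f0, f1, f2, -⟩ := hfr x hx (not_lt.1 h)
        have c1 := (norm_PG_le f0 f1 f2 _).trans (mul_le_mul_of_nonneg_left b2 (by positivity))
        have c2 := (norm_PV_le f0 f1 f2 _).trans (mul_le_mul_of_nonneg_left b3 (by positivity))
        exact ⟨by linarith, by linarith⟩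
  · refine ⟨(glue_in_ev hG (ovW 0) hx).gradient_eq.trans (gin i x),
      (glue_in hG (ovJ 0) hx).trans (glue_in_ev hG (ovW 0) hx).gradient_eq.symm, fun m => ⟨?_, ?_⟩⟩
    · exact (glue_in_ev hG (ovW (m + 1)) hx).gradient_eq.trans (gin' m i x)
    · exact (glue_in hG (ovJ (m + 1)) hx).trans (gin' m i x)
  · simp only [gout _ x (lt x hx), glue_out (ovJ _) (lt x hx)]
    by_cases h : 1 / 100 < R2 (XX ρ0) x
    · have z1 := fun m => (pull_out hX (hz m) h).1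
      have z2 := fun m => (hz m (Th (XX ρ0) x) h.le).2
      simp only [z1, z2, PG_zero, PV_zero, tsum_zero, norm_zero, inner_zero_left]
      norm_num
    · obtain ⟨f0, f1, f2, f3, f4⟩ := hfr x hx (not_lt.1 h)
      rw [← QQ_eq] at f4
      have k := hΛ _ f4
      have s1 : Summable fun m => ∇ (w m) (Th (XX ρ0) x) := summable_of_tail fun m => (hb m _).2.1
      have s2 : Summable fun m => v m (Th (XX ρ0) x) := summable_of_tail fun m => (hb m _).2.2
      rw [PG_tsum s1, PV_tsum s2, inner_PG_PV]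
      exact arith (norm_nonneg _) (norm_nonneg _) (norm_PG_le f0 f1 f2 _) (norm_PV_le f0 f1 f2 _) k
        (inner_nonneg_of hΛ0 k) hΛ0 hΔ f3
  · have e := glue_out_ev hG (ovJ m) hx
    exact ⟨((out m x hx).2.2.1.of_le (one_le_two.trans two_le_infty)).congr_of_eventuallyEq e,
      (dvg_congr e).trans (out m x hx).2.2.2⟩

end

end Crest.Agent.R83
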