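import Crest.Agent.R83.DesignMap

/-!
Row 83, design of the dipole field: summing the modes.
-/

set_option autoImplicit false

open MeasureTheory Set Filter Topology Metric
open scoped Gradient ContDiff RealInnerProductSpace ENNReal

namespace Crest.Agent.R83.Des

noncomputable section

lemma tail_le {F : Type*} [NormedAddCommGroup F] [CompleteSpace F] {f : ℕ → F} {u : ℕ → ℝ}
    (hu : Summable u) (h : ∀ m, ‖f m‖ ≤ u m) (n : ℕ) :
    ‖∑' m, f m - ∑ m ∈ Finset.range n, f m‖ ≤ ∑' m, u (m + n) := by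
  rw [← (Summable.of_norm_bounded hu h).sum_add_tsum_nat_add n, add_sub_cancel_left]
  exact tsum_of_norm_bounded ((summable_nat_add_iff n).2 hu).hasSum fun m => h _

lemma inner_nonneg_of {a v : E} {Λ : ℝ} (hΛ : 0 ≤ Λ) (h : ‖a‖ ^ 2 + ‖v‖ ^ 2 ≤ Λ * ⟪a, v⟫) :
    0 ≤ ⟪a, v⟫ := by
  by_contra hc
  have h1 : Λ * ⟪a, v⟫ ≤ 0 := mul_nonpos_of_nonneg_of_nonpos hΛ (not_le.1 hc).le
  have h2 : ‖a‖ ^ 2 = 0 := le_antisymm (by nlinarith [sq_nonneg ‖v‖]) (sq_nonneg _)
  rw [norm_eq_zero.1 (pow_eq_zero_iff two_ne_zero |>.1 h2), inner_zero_left] at hc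
  exact hc le_rfl

theorem assemble (hG : GeomFacts) (W : ℕ → E → ℝ) (J : ℕ → E → E) (C Λ : ℝ)
    (hW : ∀ m, ContDiff ℝ ∞ (W m)) (hJ : ∀ m, Continuous (J m))
    (h0 : ∀ m x, 134 / 100 < rr x → W m x = 0 ∧ J m x = 0)
    (hb : ∀ m x, |W (m + 1) x| ≤ C / 2 ^ m ∧ ‖∇ (W (m + 1)) x‖ ≤ C / 2 ^ m ∧
      ‖J (m + 1) x‖ ≤ C / 2 ^ m)
    (hin : ∀ i x, ri i x < 1405 / 1000 →
      ∇ (W 0) x = sg i • ∇ (fun y => (1 - th (TT i y)) * NN (TT i y)) x ∧ J 0 x = ∇ (W 0) x ∧
      ∀ m, ∇ (W (m + 1)) x = 0 ∧ J (m + 1) x = 0)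
    (hΛ0 : 0 ≤ Λ) (hΛ : ∀ x, (∀ i, 1405 / 1000 ≤ ri i x) →
      ‖∑' m, ∇ (W m) x‖ ^ 2 + ‖∑' m, J m x‖ ^ 2 ≤ Λ * ⟪∑' m, ∇ (W m) x, ∑' m, J m x⟫)
    (hd : ∀ m x, (∀ i, 14 / 10 < ri i x) → ContDiffAt ℝ 1 (J m) x ∧ dvg (J m) x = 0) :
    DesignStmt := by
  have hK := hG.compact (134 / 100)
  have hT : ∀ m, Test {x | rr x < 135 / 100} (W m) := fun m =>
    Test.of_zero_off (hW m) hK (fun x hx => by
      have : rr x ≤ 134 / 100 := hx
      show rr x < 135 / 100
      linarith) fun x hx => (h0 m x (not_le.1 hx)).1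
  have hJc : ∀ m, HasCompactSupport (J m) := fun m =>
    HasCompactSupport.intro hK fun x hx => (h0 m x (not_le.1 hx)).2
  have hg0 : ∀ m x, 134 / 100 < rr x → ∇ (W m) x = 0 := fun m x hx =>
    grad_eq_zero_of_eventually_const (c := 0)
      ((hG.cont.continuousAt.eventually (lt_mem_nhds hx)).mono fun y hy => (h0 m y hy).1)
  obtain ⟨B, -, hB⟩ := (hT 0).exists_bound
  obtain ⟨B', hB'⟩ := (hJc 0).exists_bound_of_continuous (hJ 0)
  obtain ⟨u, hu, hub⟩ : ∃ u : ℕ → ℝ, Summable u ∧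
      ∀ m x, ‖W m x‖ ≤ u m ∧ ‖∇ (W m) x‖ ≤ u m ∧ ‖J m x‖ ≤ u m := by
    refine ⟨fun m => Nat.casesOn m (max B B') fun k => C / 2 ^ k, ?_, fun m x => ?_⟩
    · rw [← summable_nat_add_iff 1]
      refine (summable_geometric_two.mul_left C).congr fun k => ?_
      show _ = C / 2 ^ k
      rw [one_div, inv_pow, div_eq_mul_inv]
    · cases m with
      | zero => exact ⟨le_max_of_le_left (hB x).1, le_max_of_le_left (hB x).2,
          le_max_of_le_right (hB' x)⟩
      | succ k => exact hb k x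
  have cW : Continuous fun x => ∑' m, W m x :=
    continuous_tsum (fun m => (hW m).continuous) hu fun m x => (hub m x).1
  have ce : Continuous fun x => ∑' m, ∇ (W m) x :=
    continuous_tsum (fun m => (hT m).continuous_grad) hu fun m x => (hub m x).2.1
  have cJ : Continuous fun x => ∑' m, J m x := continuous_tsum hJ hu fun m x => (hub m x).2.2
  have inn : ∀ i x, ri i x < 1405 / 1000 →
      ∑' m, ∇ (W m) x = ∇ (W 0) x ∧ ∑' m, J m x = ∇ (W 0) x := by
    intro i x hx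
    obtain ⟨-, a2, a3⟩ := hin i x hx
    refine ⟨tsum_eq_single 0 fun m hm => ?_, (tsum_eq_single 0 fun m hm => ?_).trans a2⟩
    · obtain ⟨k, rfl⟩ := Nat.exists_eq_succ_of_ne_zero hm
      exact (a3 k).1
    · obtain ⟨k, rfl⟩ := Nat.exists_eq_succ_of_ne_zero hm
      exact (a3 k).2
  refine ⟨max Λ 2, ∑' m, u m, fun x => ∑' m, W m x, fun x => ∑' m, ∇ (W m) x,
    fun x => ∑' m, J m x, le_max_of_le_left hΛ0, ?_, fun x => ?_, ce, cJ, fun x hx => ?_,
    fun i x hx => ?_, fun x => ?_, fun η hη => ?_⟩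
  · refine IsH.of_uniform (K := {x | rr x ≤ 134 / 100}) (ε := fun n => ∑' m, u (m + n))
      (fun n => IsH.sum (Finset.range n) fun m _ => (hT m).isH) hK.isBounded
      cW.aestronglyMeasurable ce.aestronglyMeasurable (fun n x hx => ?_)
      (fun n x => ⟨tail_le hu (fun m => (hub m x).1) n, tail_le hu (fun m => (hub m x).2.1) n⟩)
      (tendsto_sum_nat_add u)
    have hx' : 134 / 100 < rr x := not_le.1 hx
    simp only [(h0 _ x hx').1, hg0 _ x hx', Finset.sum_const_zero, tsum_zero, and_self]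
  · exact tsum_of_norm_bounded hu.hasSum fun m => (hub m x).1
  · have hx' : 134 / 100 < rr x := by linarith
    simp only [(h0 _ x hx').2, hg0 _ x hx', tsum_zero, and_self]
  · obtain ⟨a1, a2⟩ := inn i x hx
    exact ⟨a1.trans (hin i x hx).1, a2.trans a1.symm⟩
  · by_cases hx : ∀ i, 1405 / 1000 ≤ ri i x
    · have h1 := hΛ x hx
      exact h1.trans (mul_le_mul_of_nonneg_right (le_max_left _ _) (inner_nonneg_of hΛ0 h1))
    · push Not at hx
      obtain ⟨i, hi⟩ := hx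
      obtain ⟨a1, a2⟩ := inn i x hi
      show ‖∑' m, ∇ (W m) x‖ ^ 2 + ‖∑' m, J m x‖ ^ 2 ≤ _ * ⟪∑' m, ∇ (W m) x, ∑' m, J m x⟫
      rw [a1, a2, real_inner_self_eq_norm_sq, ← two_mul]
      exact mul_le_mul_of_nonneg_right (le_max_right _ _) (sq_nonneg _)
  · have hO : IsOpen {x | ∀ i, 14 / 10 < rr (TT i x)} := by
      rw [Set.ofPred_forall]
      exact isOpen_iInter_of_finite fun i => isOpen_lt continuous_const (ri_continuous hG i)
    have hz : ∀ m, ∫ x, ⟪J m x, ∇ η x⟫ = 0 := fun m =>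
      integral_inner_grad_eq_zero hO (fun x hx => hd m x hx) hη
    have hi : ∀ m, Integrable (fun x => ⟪J m x, ∇ η x⟫) := fun m =>
      integrable_inner' ((hJ m).memLp_of_hasCompactSupport (hJc m)) hη.memLp_grad
    have hn : Integrable (fun x => ‖∇ η x‖) :=
      (hη.continuous_grad.integrable_of_hasCompactSupport (hasCompactSupport_grad hη.cpt)).norm
    have hs : Summable fun m => ∫ x, ‖⟪J m x, ∇ η x⟫‖ := by
      refine Summable.of_nonneg_of_le (fun m => integral_nonneg fun x => norm_nonneg _)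
        (fun m => ?_) (hu.mul_right (∫ x, ‖∇ η x‖))
      rw [← integral_const_mul]
      exact integral_mono (hi m).norm (hn.const_mul _) fun x => (norm_inner_le_norm _ _).trans
        (mul_le_mul_of_nonneg_right (hub m x).2.2 (norm_nonneg _))
    have h1 := integral_tsum_of_summable_integral_norm hi hs
    simp only [hz, tsum_zero] at h1
    rw [h1]
    refine integral_congr_ae (Eventually.of_forall fun x => ?_)
    have h2 := (innerSL ℝ (∇ η x)).map_tsum
      (Summable.of_norm_bounded hu fun m => (hub m x).2.2)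
    simp only [innerSL_apply_apply] at h2
    simp only [real_inner_comm (∇ η x)]
    exact h2

end

end Crest.Agent.R83.Des
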