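import Crest.Agent.R83.DesignTor

/-!
Row 83, design of the dipole field: the map that rounds the two children.
-/

set_option autoImplicit false

open MeasureTheory Set Filter Topology Metric
open scoped Gradient ContDiff RealInnerProductSpace ENNReal

namespace Crest.Agent.R83.Des

noncomputable section

/-- confocal parameter of a child -/
def ri (i : Fin 2) (x : E) : ℝ := rr (TT i x)

/-- the diagonal stretching -/
def DD (ρ0 : ℝ) (k : Fin 3) : ℝ → ℝ := tl (if k = 1 then be ρ0 else al ρ0)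

/-- the rounding map -/
def XX (ρ0 : ℝ) (k : Fin 3) (x : E) : ℝ :=
  lam * x k + ∑ i : Fin 2, (DD ρ0 k (ri i x) - lam) * (x k - cc i k)

lemma DD_zero (ρ0 : ℝ) : DD ρ0 0 = tl (al ρ0) := rfl
lemma DD_one (ρ0 : ℝ) : DD ρ0 1 = tl (be ρ0) := rfl
lemma DD_two (ρ0 : ℝ) : DD ρ0 2 = tl (al ρ0) := rfl

lemma sg_cases (i : Fin 2) : sg i = 1 ∨ sg i = -1 := by fin_cases i <;> simp

lemma cc_zero (i : Fin 2) : cc i 0 = sg i * (53 / 100) := by
  show (sg i * (53 / 100)) * (EuclideanSpace.single (0 : Fin 3) (1 : ℝ)) 0 = _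
  simp
lemma cc_one (i : Fin 2) : cc i 1 = 0 := by
  show (sg i * (53 / 100)) * (EuclideanSpace.single (0 : Fin 3) (1 : ℝ)) 1 = _
  simp
lemma cc_two (i : Fin 2) : cc i 2 = 0 := by
  show (sg i * (53 / 100)) * (EuclideanSpace.single (0 : Fin 3) (1 : ℝ)) 2 = _
  simp

lemma lam_cc (i : Fin 2) : lam * cc i 0 = sg i := by rw [cc_zero, lam]; ring

lemma TT_zero (i : Fin 2) (x : E) : x 1 - cc i 1 = kap * TT i x 0 := by
  have : TT i x 0 = kap⁻¹ * sw (x - cc i) 0 := rfl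
  rw [this, sw_apply_zero, mul_inv_cancel_left₀ kap_pos.ne']; rfl
lemma TT_one (i : Fin 2) (x : E) : x 0 - cc i 0 = kap * TT i x 1 := by
  have : TT i x 1 = kap⁻¹ * sw (x - cc i) 1 := rfl
  rw [this, sw_apply_one, mul_inv_cancel_left₀ kap_pos.ne']; rfl
lemma TT_two (i : Fin 2) (x : E) : x 2 - cc i 2 = kap * TT i x 2 := by
  have : TT i x 2 = kap⁻¹ * sw (x - cc i) 2 := rfl
  rw [this, sw_apply_two, mul_inv_cancel_left₀ kap_pos.ne']; rfl

variable {ρ0 : ℝ} {i : Fin 2} {x : E}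

lemma prof_DD (h0 : 0 < ρ0) (h1 : ρ0 ≤ 1 / 10) (k : Fin 3) :
    ∃ f ℓ, Prof f ℓ ∧ DD ρ0 k = tl f := by
  fin_cases k
  exacts [⟨_, _, prof_al h0 h1, rfl⟩, ⟨_, _, prof_be h0 h1, rfl⟩, ⟨_, _, prof_al h0 h1, rfl⟩]

lemma XX_far (h : ∀ j, 141 / 100 ≤ ri j x) (k : Fin 3) : XX ρ0 k x = lam * x k := by
  unfold XX DD
  rw [Finset.sum_eq_zero fun j _ => by rw [tl_of_ge _ (h j), sub_self, zero_mul], add_zero]

lemma flux_alg (α β A B d0 d1 d2 : ℝ) (g : E) :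
    lin (vec (α * d0) (β * d1) (α * d2))
      (crs (β • EuclideanSpace.single 1 1 + (B * d1) • g) (α • EuclideanSpace.single 2 1 + (A * d2) • g))
      (crs (α • EuclideanSpace.single 2 1 + (A * d2) • g) (α • EuclideanSpace.single 0 1 + (A * d0) • g))
      (crs (α • EuclideanSpace.single 0 1 + (A * d0) • g) (β • EuclideanSpace.single 1 1 + (B * d1) • g)) =
    (α ^ 2 * β) • vec d0 d1 d2 + (α * (B * α - A * β) * d1) •
      vec (d0 * g 1) (-(d0 * g 0 + d2 * g 2)) (d2 * g 1) := by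
  refine ext3 ?_ ?_ ?_
  all_goals
    simp only [PiLp.smul_apply, PiLp.add_apply, lin_apply, crs_zero, crs_one, crs_two,
      smul_eq_mul, vec_zero, vec_one, vec_two]
    simp
    ring

lemma flux_alg2 {s r n ρ y0 y1 y2 : ℝ} {g : E} (hs : 0 < s) (hsq : s ^ 2 = r ^ 2 - 1)
    (hr : 0 < r) (hn : 0 < n) (el : y0 ^ 2 / r ^ 2 + (y1 ^ 2 + y2 ^ 2) / (r ^ 2 - 1) = 1)
    (hn' : n = y0 ^ 2 / (r ^ 2) ^ 2 + (y1 ^ 2 + y2 ^ 2) / (r ^ 2 - 1) ^ 2)
    (g0 : g 0 = kap⁻¹ * ((r * n)⁻¹ * (y1 / (r ^ 2 - 1))))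
    (g1 : g 1 = kap⁻¹ * ((r * n)⁻¹ * (y0 / r ^ 2)))
    (g2 : g 2 = kap⁻¹ * ((r * n)⁻¹ * (y2 / (r ^ 2 - 1)))) :
    (ρ / (kap * s) * (kap * y1)) ^ 2 + (ρ / (kap * r) * (kap * y0)) ^ 2 +
      (ρ / (kap * s) * (kap * y2)) ^ 2 = ρ ^ 2 ∧
    kap • (((ρ / (kap * s)) ^ 2 * (ρ / (kap * r))) • vec (kap * y1) (kap * y0) (kap * y2) +
      (ρ / (kap * s) * (ρ / (kap * r) * (2 / (r ^ 2 - 1) - 1 / r) * (ρ / (kap * s)) -
        ρ / (kap * s) * ((2 - r) / (r ^ 2 - 1)) * (ρ / (kap * r))) * (kap * y0)) •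
        vec (kap * y1 * g 1) (-(kap * y1 * g 0 + kap * y2 * g 2)) (kap * y2 * g 1)) =
      (ρ ^ 3 * (r ^ 2 - 1)⁻¹) • g := by
  have hk := kap_pos
  rw [← hsq] at el hn' g0 g2 ⊢
  have hμ : 2 / s ^ 2 - 1 / r - (2 - r) / s ^ 2 = 1 / (r * s ^ 2) := by
    field_simp
    linear_combination -hsq
  have el' : y0 ^ 2 * s ^ 2 + (y1 ^ 2 + y2 ^ 2) * r ^ 2 = r ^ 2 * s ^ 2 := by
    field_simp at el; linarith
  have hn2 : n * (r ^ 4 * s ^ 4) = y0 ^ 2 * s ^ 4 + (y1 ^ 2 + y2 ^ 2) * r ^ 4 := by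
    rw [hn']; field_simp
  have k1 : s ^ 2 * r ^ 4 * n + y0 ^ 2 = r ^ 4 := by
    refine mul_left_cancel₀ (pow_pos hs 2).ne' ?_
    linear_combination hn2 + r ^ 2 * el' + y0 ^ 2 * s ^ 2 * hsq
  have k2 : r ^ 2 * s ^ 4 * n - (y1 ^ 2 + y2 ^ 2) = s ^ 4 := by
    refine mul_left_cancel₀ (pow_pos hr 2).ne' ?_
    linear_combination hn2 + s ^ 2 * el' - (y1 ^ 2 + y2 ^ 2) * r ^ 2 * hsq
  have e : ρ / (kap * s) * (ρ / (kap * r) * (2 / s ^ 2 - 1 / r) * (ρ / (kap * s)) -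
      ρ / (kap * s) * ((2 - r) / s ^ 2) * (ρ / (kap * r))) =
      (ρ / (kap * s)) ^ 2 * (ρ / (kap * r)) * (1 / (r * s ^ 2)) := by
    rw [← hμ]; ring
  rw [e]
  constructor
  · have : (ρ / (kap * s) * (kap * y1)) ^ 2 + (ρ / (kap * r) * (kap * y0)) ^ 2 +
        (ρ / (kap * s) * (kap * y2)) ^ 2 = ρ ^ 2 * (y0 ^ 2 / r ^ 2 + (y1 ^ 2 + y2 ^ 2) / s ^ 2) := by
      field_simp
      ring
    rw [this, el, mul_one]
  · refine ext3 ?_ ?_ ?_
    all_goals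
      simp only [PiLp.smul_apply, PiLp.add_apply, smul_eq_mul, vec_zero, vec_one, vec_two, g0, g1,
        g2]
    · field_simp
      linear_combination ρ ^ 3 * y1 * k1
    · field_simp
      linear_combination ρ ^ 3 * y0 * k2
    · field_simp
      linear_combination ρ ^ 3 * y2 * k1

section
variable (hG : GeomFacts)
include hG

lemma ri_continuous (i : Fin 2) : Continuous (ri i) := hG.cont.comp (contDiff_TT i).continuous

lemma ri_contDiffAt (h : 1 < ri i x) : ContDiffAt ℝ ∞ (ri i) x :=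
  (hG.smooth _ h).comp x (contDiff_TT i).contDiffAt

lemma sign_of_le (h : ri i x ≤ 141 / 100) : 0 < sg i * x 0 := by
  have := hG.child_sign i (TT i x) h
  rwa [SS_TT] at this

lemma other (h : ri i x ≤ 141 / 100) (j : Fin 2) (hj : j ≠ i) : 141 / 100 < ri j x := by
  by_contra hcon
  have h1 := sign_of_le hG h
  have h2 := sign_of_le hG (not_lt.1 hcon)
  fin_cases i <;> fin_cases j <;> simp at hj h1 h2 <;> linarith

lemma exists_side (x : E) : ∃ i, ∀ j, j ≠ i → 141 / 100 < ri j x := by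
  by_cases h : ri 0 x ≤ 141 / 100
  · exact ⟨0, other hG h⟩
  · refine ⟨1, fun j hj => ?_⟩
    fin_cases j
    · exact not_le.1 h
    · exact absurd rfl hj

lemma far_of_lt (h : 134 / 100 < rr x) (i : Fin 2) : 141 / 100 < ri i x := by
  by_contra hcon
  have := hG.child i (TT i x) (not_lt.1 hcon)
  rw [SS_TT] at this
  linarith

lemma R2_far (h : 134 / 100 < rr x) : 1 / 100 < R2 (XX ρ0) x := by
  by_contra hcon
  have h1 := sum_sq_le (not_lt.1 hcon)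
  have h2 := fun k => XX_far (ρ0 := ρ0) (fun j => (far_of_lt hG h j).le) k
  rw [h2, h2, h2, lam] at h1
  have h3 := hG.sq_le x
  rw [norm_sq_eq_three] at h3
  nlinarith

lemma ne_cc (h : 1 < ri i x) : ¬ (x 0 = cc i 0 ∧ x 1 = 0 ∧ x 2 = 0) := by
  rintro ⟨h0, h1, h2⟩
  have e := hG.ellipsoid _ h
  have a0 := TT_zero i x
  have a1 := TT_one i x
  have a2 := TT_two i x
  rw [h1, cc_one, sub_self] at a0
  rw [h0, sub_self] at a1
  rw [h2, cc_two, sub_self] at a2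
  rw [(mul_eq_zero.1 a0.symm).resolve_left kap_pos.ne',
    (mul_eq_zero.1 a1.symm).resolve_left kap_pos.ne',
    (mul_eq_zero.1 a2.symm).resolve_left kap_pos.ne'] at e
  norm_num at e

lemma XX_contDiff (h0 : 0 < ρ0) (h1 : ρ0 ≤ 1 / 10) (k : Fin 3) : ContDiff ℝ ∞ (XX ρ0 k) := by
  obtain ⟨f, ℓ, P, e⟩ := prof_DD h0 h1 k
  have hc : ContDiff ℝ ∞ fun y : E => y k := (EuclideanSpace.proj k : E →L[ℝ] ℝ).contDiff
  have hD : ContDiff ℝ ∞ fun y => DD ρ0 k (rr y) := by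
    rw [e]
    exact hG.comp_smooth _ (12 / 10) (by norm_num) P.tl_smooth fun t ht => by
      rw [tl_of_le f ht, tl_of_le f le_rfl]
  exact (contDiff_const.mul hc).add (ContDiff.sum fun i _ =>
    ((hD.comp (contDiff_TT i)).sub contDiff_const).mul (hc.sub contDiff_const))

lemma XX_local (h : ∀ j, j ≠ i → 141 / 100 < ri j x) (k : Fin 3) :
    XX ρ0 k =ᶠ[𝓝 x] fun y => lam * cc i k + DD ρ0 k (ri i y) * (y k - cc i k) := by
  have e : ∀ᶠ y in 𝓝 x, ∀ j, j ≠ i → 141 / 100 < ri j y := by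
    refine eventually_all.2 fun j => ?_
    by_cases hj : j = i
    · exact Eventually.of_forall fun _ h => absurd hj h
    · filter_upwards [(ri_continuous hG j).continuousAt.eventually (lt_mem_nhds (h j hj))]
        with y hy _ using hy
  filter_upwards [e] with y hy
  unfold XX
  rw [Finset.sum_eq_single i (fun j _ hj => by
    unfold DD; rw [tl_of_ge _ (hy j hj).le, sub_self, zero_mul]) (by simp)]
  ring

lemma XX_eq (h : ∀ j, j ≠ i → 141 / 100 < ri j x) (k : Fin 3) :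
    XX ρ0 k x = lam * cc i k + DD ρ0 k (ri i x) * (x k - cc i k) :=
  (XX_local hG h k).self_of_nhds

lemma grad_XX (h : ∀ j, j ≠ i → 141 / 100 < ri j x) (hr : 1 < ri i x) {k : Fin 3} {D : ℝ}
    (hD : HasDerivAt (DD ρ0 k) D (ri i x)) :
    ∇ (XX ρ0 k) x = DD ρ0 k (ri i x) • EuclideanSpace.single k 1 +
      (D * (x k - cc i k)) • ∇ (ri i) x := by
  have d1 := dAt (ri_contDiffAt hG hr)
  have hc : DifferentiableAt ℝ (fun y : E => y k) x :=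
    (EuclideanSpace.proj k : E →L[ℝ] ℝ).differentiableAt
  rw [(XX_local hG h k).gradient_eq, grad_const_add,
    grad_mul (φ := fun y => DD ρ0 k (ri i y)) (hD.differentiableAt.comp x d1) (hc.sub_const _),
    grad_comp hD d1, smul_smul, mul_comm D]
  congr 2
  simp only [sub_eq_add_neg]
  rw [grad_add_const, grad_coord]

lemma grad_ri (hr : 1 < ri i x) : ∃ n : ℝ, 0 < n ∧
    n = TT i x 0 ^ 2 / (ri i x ^ 2) ^ 2 + (TT i x 1 ^ 2 + TT i x 2 ^ 2) / (ri i x ^ 2 - 1) ^ 2 ∧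
    ∇ (ri i) x 0 = kap⁻¹ * ((ri i x * n)⁻¹ * (TT i x 1 / (ri i x ^ 2 - 1))) ∧
    ∇ (ri i) x 1 = kap⁻¹ * ((ri i x * n)⁻¹ * (TT i x 0 / ri i x ^ 2)) ∧
    ∇ (ri i) x 2 = kap⁻¹ * ((ri i x * n)⁻¹ * (TT i x 2 / (ri i x ^ 2 - 1))) := by
  obtain ⟨h1, h2⟩ := hG.grad _ hr
  have e : ∇ (ri i) x = kap⁻¹ • sw (∇ rr (TT i x)) := grad_comp_TT i rr x
  refine ⟨‖nu (TT i x)‖ ^ 2, pow_pos (norm_pos_iff.2 h1) 2, ?_, ?_, ?_, ?_⟩
  · rw [norm_sq_eq_three]
    show (TT i x 0 / ri i x ^ 2) ^ 2 + (TT i x 1 / (ri i x ^ 2 - 1)) ^ 2 +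
      (TT i x 2 / (ri i x ^ 2 - 1)) ^ 2 = _
    rw [div_pow, div_pow, div_pow]; ring
  · rw [e, PiLp.smul_apply, sw_apply_zero, h2]; rfl
  · rw [e, PiLp.smul_apply, sw_apply_one, h2]; rfl
  · rw [e, PiLp.smul_apply, sw_apply_two, h2]; rfl

lemma grad_ri_sign (hr : 1 < ri i x) (k : Fin 3) : 0 ≤ (x k - cc i k) * ∇ (ri i) x k := by
  obtain ⟨n, hn, -, g0, g1, g2⟩ := grad_ri hG hr
  have hA := sq_sub_pos hr
  have hr0 : 0 < ri i x := by linarith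
  have key : ∀ t B : ℝ, 0 < B → 0 ≤ kap * t * (kap⁻¹ * ((ri i x * n)⁻¹ * (t / B))) := by
    intro t B hB
    have : kap * t * (kap⁻¹ * ((ri i x * n)⁻¹ * (t / B))) = (ri i x * n)⁻¹ * (t ^ 2 / B) := by
      have := kap_pos.ne'
      field_simp
    rw [this]; positivity
  fin_cases k
  · show 0 ≤ (x 0 - cc i 0) * ∇ (ri i) x 0
    rw [TT_one, g0]; exact key _ _ hA
  · show 0 ≤ (x 1 - cc i 1) * ∇ (ri i) x 1
    rw [TT_zero, g1]; exact key _ _ (by positivity)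
  · show 0 ≤ (x 2 - cc i 2) * ∇ (ri i) x 2
    rw [TT_two, g2]; exact key _ _ hA

lemma det_pos (h0 : 0 < ρ0) (h1 : ρ0 ≤ 1 / 10) (h : ∀ j, 139 / 100 < ri j x) :
    0 < det3 (∇ (XX ρ0 0) x) (∇ (XX ρ0 1) x) (∇ (XX ρ0 2) x) := by
  obtain ⟨i, hi⟩ := exists_side hG x
  have hr : 1 < ri i x := by linarith [h i]
  obtain ⟨A, hA, hA0, -⟩ := (prof_al h0 h1).tl_der (h i)
  obtain ⟨B, hB, hB0, -⟩ := (prof_be h0 h1).tl_der (h i)
  have a := (prof_al h0 h1).tl_pos (h i)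
  have b := (prof_be h0 h1).tl_pos (h i)
  have s0 := grad_ri_sign hG hr 0
  have s1 := grad_ri_sign hG hr 1
  have s2 := grad_ri_sign hG hr 2
  rw [grad_XX hG hi hr (k := 0) hA, grad_XX hG hi hr (k := 1) hB, grad_XX hG hi hr (k := 2) hA,
    DD_zero, DD_one, DD_two]
  set α := tl (al ρ0) (ri i x)
  set β := tl (be ρ0) (ri i x)
  have e : det3 (α • EuclideanSpace.single 0 1 + (A * (x 0 - cc i 0)) • ∇ (ri i) x)
      (β • EuclideanSpace.single 1 1 + (B * (x 1 - cc i 1)) • ∇ (ri i) x)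
      (α • EuclideanSpace.single 2 1 + (A * (x 2 - cc i 2)) • ∇ (ri i) x) =
      α * β * α + A * β * α * ((x 0 - cc i 0) * ∇ (ri i) x 0) +
        B * α * α * ((x 1 - cc i 1) * ∇ (ri i) x 1) +
        A * α * β * ((x 2 - cc i 2) * ∇ (ri i) x 2) := by
    rw [det3_eq]
    simp
    ring
  rw [e]
  positivity

lemma nondeg (h0 : 0 < ρ0) (h1 : ρ0 ≤ 1 / 10) (h : ∀ j, 139 / 100 < ri j x) :
    ¬ (XX ρ0 0 x ^ 2 = 1 ∧ XX ρ0 1 x = 0 ∧ XX ρ0 2 x = 0) := by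
  rintro ⟨e0, e1, e2⟩
  by_cases hf : ∀ j, 141 / 100 ≤ ri j x
  · rw [XX_far hf] at e0 e1 e2
    have a1 := (mul_eq_zero.1 e1).resolve_left lam_pos.ne'
    have a2 := (mul_eq_zero.1 e2).resolve_left lam_pos.ne'
    rcases sq_eq_one_iff.1 e0 with h3 | h3
    · refine ne_cc hG (i := 0) (by linarith [h 0]) ⟨?_, a1, a2⟩
      rw [cc_zero, sg_zero]; rw [lam] at h3; linarith
    · refine ne_cc hG (i := 1) (by linarith [h 1]) ⟨?_, a1, a2⟩
      rw [cc_zero, sg_one]; rw [lam] at h3; linarith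
  · push Not at hf
    obtain ⟨i, hi⟩ := hf
    have ho := other hG hi.le
    have hs := sign_of_le hG hi.le
    have a := (prof_al h0 h1).tl_pos (h i)
    have a' := (prof_al h0 h1).tl_le (h i)
    have b := (prof_be h0 h1).tl_pos (h i)
    rw [XX_eq hG ho] at e0 e1 e2
    simp only [lam_cc, cc_one, cc_two, mul_zero, zero_add, sub_zero, DD_zero, DD_one,
      DD_two] at e0 e1 e2
    refine ne_cc hG (i := i) (by linarith [h i]) ⟨?_, (mul_eq_zero.1 e1).resolve_left b.ne',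
      (mul_eq_zero.1 e2).resolve_left a.ne'⟩
    set α := tl (al ρ0) (ri i x)
    by_contra hne
    have hd : α * (x 0 - cc i 0) ≠ 0 := mul_ne_zero a.ne' (sub_ne_zero.2 hne)
    have h4 : 2 * sg i + α * (x 0 - cc i 0) = 0 := by
      refine (mul_eq_zero.1 (?_ : (α * (x 0 - cc i 0)) * _ = 0)).resolve_left hd
      rcases sg_cases i with h5 | h5 <;> rw [h5] at e0 ⊢ <;> linear_combination e0
    rw [cc_zero] at h4
    rw [lam] at a'
    rcases sg_cases i with h5 | h5 <;> rw [h5] at h4 hs <;> nlinarith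

lemma overlap (h0 : 0 < ρ0) (h1 : ρ0 ≤ 1 / 10) (hl : 14 / 10 < ri i x)
    (hu : ri i x < 1405 / 1000) :
    (XX ρ0 0 x - sg i) ^ 2 + XX ρ0 1 x ^ 2 + XX ρ0 2 x ^ 2 = rho ρ0 (ri i x) ^ 2 ∧
    kap • lin (vec (XX ρ0 0 x - sg i) (XX ρ0 1 x) (XX ρ0 2 x))
        (crs (∇ (XX ρ0 1) x) (∇ (XX ρ0 2) x)) (crs (∇ (XX ρ0 2) x) (∇ (XX ρ0 0) x))
        (crs (∇ (XX ρ0 0) x) (∇ (XX ρ0 1) x)) =
      (rho ρ0 (ri i x) ^ 3 * (ri i x ^ 2 - 1)⁻¹) • ∇ (ri i) x := by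
  have hr : 1 < ri i x := by linarith
  have ho := other hG (i := i) (x := x) (by linarith)
  obtain ⟨A, hA, -, hA1⟩ := (prof_al h0 h1).tl_der (r := ri i x) (by linarith)
  obtain ⟨B, hB, -, hB1⟩ := (prof_be h0 h1).tl_der (r := ri i x) (by linarith)
  have a := tl_mid (al ρ0) (r := ri i x) (by linarith) hu.le
  have b := tl_mid (be ρ0) (r := ri i x) (by linarith) hu.le
  have e0 : XX ρ0 0 x - sg i = al ρ0 (ri i x) * (x 0 - cc i 0) := by
    rw [XX_eq hG ho, lam_cc, DD_zero, a]; ring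
  have e1 : XX ρ0 1 x = be ρ0 (ri i x) * (x 1 - cc i 1) := by
    rw [XX_eq hG ho, DD_one, b]; simp [cc_one]
  have e2 : XX ρ0 2 x = al ρ0 (ri i x) * (x 2 - cc i 2) := by
    rw [XX_eq hG ho, DD_two, a]; simp [cc_two]
  have el : TT i x 0 ^ 2 / ri i x ^ 2 + (TT i x 1 ^ 2 + TT i x 2 ^ 2) / (ri i x ^ 2 - 1) = 1 :=
    hG.ellipsoid _ hr
  obtain ⟨n, hn, hn', g0, g1, g2⟩ := grad_ri hG hr
  rw [grad_XX hG ho hr (k := 0) hA, grad_XX hG ho hr (k := 1) hB, grad_XX hG ho hr (k := 2) hA,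
    e0, e1, e2, DD_zero, DD_one, DD_two, a, b, flux_alg, hA1 hu, hB1 hu, TT_zero, TT_one, TT_two,
    al, be]
  have hA0 := sq_sub_pos hr
  exact flux_alg2 (Real.sqrt_pos.2 hA0) (Real.sq_sqrt hA0.le) (by linarith) hn el hn' g0 g1 g2

lemma grad_NT (hr : 1 < ri i x) :
    ∇ (fun y => NN (TT i y)) x = -(ri i x ^ 2 - 1)⁻¹ • ∇ (ri i) x := by
  have e : ∇ (ri i) x = kap⁻¹ • sw (∇ rr (TT i x)) := grad_comp_TT i rr x
  have e' : ∇ (fun y => NN (TT i y)) x = kap⁻¹ • sw (∇ NN (TT i x)) := grad_comp_TT i NN x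
  rw [e, e', hG.N_grad _ hr, map_smul, smul_comm]
  rfl

end

end

end Crest.Agent.R83.Des
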