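import Crest.Agent.R83.Basic

/-!
Row 83, design of the dipole field: the scalar profiles.
-/

set_option autoImplicit false

open MeasureTheory Set Filter Topology Metric
open scoped Gradient ContDiff RealInnerProductSpace ENNReal

namespace Crest.Agent.R83.Des

noncomputable section

/-! ### the odd cut-off `uu` -/

/-- the radicand of `uu` -/
def ug (t : ℝ) : ℝ := t ^ 2 + (1 - step 0 (1 / 4) (t ^ 2))

/-- an increasing odd function equal to `±1` for `|t| ≥ 1/2` -/
def uu (t : ℝ) : ℝ := t / √(ug t)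

lemma ug_pos (t : ℝ) : 0 < ug t := by
  unfold ug
  by_cases h : t = 0
  · rw [h, step_of_le (by norm_num) (by norm_num)]; norm_num
  · have := step_le_one 0 (1 / 4) (t ^ 2)
    have := pow_pos (abs_pos.2 h) 2
    rw [sq_abs] at this
    linarith

lemma ug_contDiff : ContDiff ℝ ∞ ug :=
  (contDiff_id.pow 2).add (contDiff_const.sub ((step_contDiff _ _).comp (contDiff_id.pow 2)))

lemma uu_contDiff : ContDiff ℝ ∞ uu :=
  contDiff_id.div (ug_contDiff.sqrt fun t => (ug_pos t).ne')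
    fun t => (Real.sqrt_pos.2 (ug_pos t)).ne'

lemma mul_uu_pos {t : ℝ} (h : t ≠ 0) : 0 < t * uu t := by
  unfold uu
  rw [← mul_div_assoc]
  exact div_pos (mul_self_pos.2 h) (Real.sqrt_pos.2 (ug_pos t))

lemma uu_of_half {σ t : ℝ} (hσ : σ = 1 ∨ σ = -1) (h : 1 / 2 ≤ σ * t) : uu t = σ := by
  have h2 : (σ * t) ^ 2 = t ^ 2 := by rcases hσ with rfl | rfl <;> ring
  have h1 : 1 / 4 ≤ t ^ 2 := by nlinarith
  have h3 : ug t = (σ * t) ^ 2 := by
    unfold ug; rw [step_of_ge (by norm_num) h1, h2]; ring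
  have h4 : σ * t ≠ 0 := ne_of_gt (show 0 < σ * t by linarith)
  unfold uu
  rw [h3, Real.sqrt_sq (by linarith), div_eq_iff h4]
  rcases hσ with rfl | rfl <;> ring

lemma uu_deriv (t : ℝ) : ∃ u', HasDerivAt uu u' t ∧ 0 ≤ u' ∧ (t = 0 → 0 < u') := by
  have hs := Real.sqrt_pos.2 (ug_pos t)
  have hsq := Real.mul_self_sqrt (ug_pos t).le
  have h1 : HasDerivAt (fun t : ℝ => t ^ 2) (2 * t) t := by simpa using hasDerivAt_pow 2 t
  have h1' := (step_hasDerivAt 0 (1 / 4) (t ^ 2)).comp t h1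
  have h2 : HasDerivAt ug (2 * t + -(deriv (step 0 (1 / 4)) (t ^ 2) * (2 * t))) t :=
    h1.add (h1'.const_sub 1)
  have h3 := (hasDerivAt_id' t).div (h2.sqrt (ug_pos t).ne') hs.ne'
  have hd := deriv_step_nonneg (a := 0) (b := 1 / 4) (by norm_num) (t ^ 2)
  have hle := step_le_one 0 (1 / 4) (t ^ 2)
  set D := deriv (step 0 (1 / 4)) (t ^ 2)
  refine ⟨(1 - step 0 (1 / 4) (t ^ 2) + t ^ 2 * D) / √(ug t) ^ 3, h3.congr_deriv ?_, ?_, ?_⟩
  · have e : 1 - step 0 (1 / 4) (t ^ 2) = √(ug t) * √(ug t) - t ^ 2 := by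
      rw [hsq]; unfold ug; ring
    rw [e]
    field_simp
    ring
  · exact div_nonneg (by nlinarith [mul_nonneg (sq_nonneg t) hd]) (by positivity)
  · rintro rfl
    rw [step_of_le (by norm_num) (by norm_num)]
    exact div_pos (by norm_num) (by positivity)

/-! ### the flattened square `eta` -/

/-- `t²`, flattened near `0` -/
def eta (t : ℝ) : ℝ := t ^ 2 * step (1 / 100) (4 / 100) (t ^ 2)

lemma eta_contDiff : ContDiff ℝ ∞ eta :=
  (contDiff_id.pow 2).mul ((step_contDiff _ _).comp (contDiff_id.pow 2))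

lemma eta_nonneg (t : ℝ) : 0 ≤ eta t := mul_nonneg (sq_nonneg t) (step_nonneg _ _ _)

lemma eta_of_le {t : ℝ} (h : t ^ 2 ≤ 1 / 100) : eta t = 0 := by
  unfold eta; rw [step_of_le (by norm_num) h, mul_zero]

lemma sq_le_eta (t : ℝ) : t ^ 2 ≤ eta t + 4 / 100 := by
  by_cases h : 4 / 100 ≤ t ^ 2
  · unfold eta; rw [step_of_ge (by norm_num) h]; linarith
  · linarith [eta_nonneg t, not_le.1 h]

lemma eta_deriv (t : ℝ) : ∃ η', HasDerivAt eta η' t ∧ 2 * eta t ≤ η' * t := by
  have h1 : HasDerivAt (fun t : ℝ => t ^ 2) (2 * t) t := by simpa using hasDerivAt_pow 2 t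
  have h2 := h1.mul ((step_hasDerivAt (1 / 100) (4 / 100) (t ^ 2)).comp t h1)
  have hd := deriv_step_nonneg (a := 1 / 100) (b := 4 / 100) (by norm_num) (t ^ 2)
  refine ⟨_, h2, ?_⟩
  unfold eta
  simp only [Function.comp_apply]
  nlinarith [mul_nonneg hd (sq_nonneg (t ^ 2))]

/-! ### the radial profiles -/

/-- radius of the image sphere -/
def rho (ρ0 r : ℝ) : ℝ := ρ0 * (r - 1) / (r + 1)

/-- stretching along the short axes -/
def al (ρ0 r : ℝ) : ℝ := rho ρ0 r / (kap * √(r ^ 2 - 1))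

/-- stretching along the long axis -/
def be (ρ0 r : ℝ) : ℝ := rho ρ0 r / (kap * r)

/-- the outer stretching factor -/
def lam : ℝ := 100 / 53

/-- blending of a profile with the constant `lam` -/
def tl (f : ℝ → ℝ) (r : ℝ) : ℝ :=
  (1 - step (1405 / 1000) (141 / 100) r) * (step (12 / 10) (13 / 10) r * f r) +
    step (1405 / 1000) (141 / 100) r * lam

theorem anchor_al : type_of% @al.eq_1 := @al.eq_1
theorem anchor_be : type_of% @be.eq_1 := @be.eq_1
theorem anchor_rho : type_of% @rho.eq_1 := @rho.eq_1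
theorem anchor_lam : type_of% @lam.eq_1 := @lam.eq_1

/-- admissible profiles, with logarithmic derivative `ℓ` -/
structure Prof (f ℓ : ℝ → ℝ) : Prop where
  smooth : ContDiffOn ℝ ∞ f (Ioi 1)
  der : ∀ r, 1 < r → HasDerivAt f (f r * ℓ r) r
  nonneg : ∀ r, 1 < r → r < 2 → 0 ≤ ℓ r
  pos : ∀ r, 1 < r → 0 < f r
  le : ∀ r, 139 / 100 < r → f r ≤ lam

variable {ρ0 : ℝ}

lemma rho_pos (h0 : 0 < ρ0) {r : ℝ} (hr : 1 < r) : 0 < rho ρ0 r :=
  div_pos (mul_pos h0 (by linarith)) (by linarith)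

lemma rho_lt (h0 : 0 < ρ0) {r : ℝ} (hr : 1 < r) : rho ρ0 r < ρ0 := by
  unfold rho
  rw [div_lt_iff₀ (by linarith)]
  nlinarith

lemma rho_smooth : ContDiffOn ℝ ∞ (rho ρ0) (Ioi 1) :=
  ContDiffOn.div (by fun_prop) (by fun_prop) fun r hr => by
    have : (1 : ℝ) < r := hr
    linarith [show 0 < r + 1 by linarith]

lemma rho_der {r : ℝ} (hr : 1 < r) : HasDerivAt (rho ρ0) (rho ρ0 r * (2 / (r ^ 2 - 1))) r := by
  have h1 : r + 1 ≠ 0 := by linarith
  have h2 : r - 1 ≠ 0 := by linarith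
  have h3 : r ^ 2 - 1 = (r - 1) * (r + 1) := by ring
  refine ((((hasDerivAt_id' r).sub_const 1).const_mul ρ0).div
    ((hasDerivAt_id' r).add_const 1) h1).congr_deriv ?_
  unfold rho
  rw [h3]
  field_simp
  ring

lemma sq_sub_pos {r : ℝ} (hr : 1 < r) : 0 < r ^ 2 - 1 := by nlinarith

lemma prof_al (h0 : 0 < ρ0) (h1 : ρ0 ≤ 1 / 10) : Prof (al ρ0) fun r => (2 - r) / (r ^ 2 - 1) where
  smooth := rho_smooth.div
    (contDiffOn_const.mul (ContDiffOn.sqrt (by fun_prop) fun r hr => (sq_sub_pos hr).ne'))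
    fun r hr => (mul_pos kap_pos (Real.sqrt_pos.2 (sq_sub_pos hr))).ne'
  der r hr := by
    have hA := sq_sub_pos hr
    have hs := Real.sqrt_pos.2 hA
    have hsq := Real.mul_self_sqrt hA.le
    have hk := kap_pos
    have h2 : HasDerivAt (fun r : ℝ => r ^ 2 - 1) (2 * r) r := by
      simpa using (hasDerivAt_pow 2 r).sub_const 1
    refine ((rho_der hr).div ((h2.sqrt hA.ne').const_mul kap) (by positivity)).congr_deriv ?_
    unfold al
    set s := √(r ^ 2 - 1)
    rw [← hsq]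
    field_simp
  nonneg r hr h2 := div_nonneg (by linarith) (sq_sub_pos hr).le
  pos r hr := div_pos (rho_pos h0 hr) (mul_pos kap_pos (Real.sqrt_pos.2 (sq_sub_pos hr)))
  le r hr := by
    have h2 : 1 / 2 ≤ √(r ^ 2 - 1) := Real.le_sqrt_of_sq_le (by nlinarith)
    have h3 := rho_lt h0 (r := r) (by linarith)
    unfold al
    rw [div_le_iff₀ (mul_pos kap_pos (by linarith))]
    unfold lam kap
    linarith

lemma prof_be (h0 : 0 < ρ0) (h1 : ρ0 ≤ 1 / 10) :
    Prof (be ρ0) fun r => 2 / (r ^ 2 - 1) - 1 / r where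
  smooth := rho_smooth.div (by fun_prop)
    fun r hr => (mul_pos kap_pos (lt_trans one_pos hr)).ne'
  der r hr := by
    have hA := sq_sub_pos hr
    have hk := kap_pos
    have hr0 : 0 < r := by linarith
    refine ((rho_der hr).div ((hasDerivAt_id' r).const_mul kap) (by positivity)).congr_deriv ?_
    unfold be
    field_simp
  nonneg r hr h2 := by
    have hA := sq_sub_pos hr
    rw [sub_nonneg, div_le_div_iff₀ (by linarith) hA]
    nlinarith
  pos r hr := div_pos (rho_pos h0 hr) (mul_pos kap_pos (by linarith))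
  le r hr := by
    have h3 := rho_lt h0 (r := r) (by linarith)
    unfold be
    rw [div_le_iff₀ (mul_pos kap_pos (by linarith))]
    unfold lam kap
    linarith

variable {f ℓ : ℝ → ℝ}

lemma lam_pos : 0 < lam := by norm_num [lam]

lemma tl_of_ge (f : ℝ → ℝ) {r : ℝ} (h : 141 / 100 ≤ r) : tl f r = lam := by
  unfold tl; rw [step_of_ge (by norm_num) h]; ring

lemma tl_of_le (f : ℝ → ℝ) {r : ℝ} (h : r ≤ 12 / 10) : tl f r = 0 := by
  unfold tl
  rw [step_of_le (a := 12 / 10) (by norm_num) h, step_of_le (by norm_num) (by linarith)]; ring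

lemma tl_mid (f : ℝ → ℝ) {r : ℝ} (h : 13 / 10 ≤ r) (h' : r ≤ 1405 / 1000) : tl f r = f r := by
  unfold tl
  rw [step_of_ge (a := 12 / 10) (by norm_num) h, step_of_le (by norm_num) h']; ring

lemma tl_eq (f : ℝ → ℝ) {r : ℝ} (h : 13 / 10 ≤ r) : tl f r =
    f r + step (1405 / 1000) (141 / 100) r * (lam - f r) := by
  unfold tl
  rw [step_of_ge (a := 12 / 10) (by norm_num) h]; ring

lemma Prof.tl_smooth (P : Prof f ℓ) : ContDiffOn ℝ ∞ (tl f) (Ioi 1) :=
  ((contDiffOn_const.sub (step_contDiff _ _).contDiffOn).mul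
    ((step_contDiff _ _).contDiffOn.mul P.smooth)).add
    ((step_contDiff _ _).contDiffOn.mul contDiffOn_const)

lemma Prof.tl_pos (P : Prof f ℓ) {r : ℝ} (h : 139 / 100 < r) : 0 < tl f r := by
  rw [tl_eq f (by linarith)]
  have h1 := P.pos r (by linarith)
  have h2 := mul_nonneg (step_nonneg (1405 / 1000) (141 / 100) r) (sub_nonneg.2 (P.le r h))
  linarith

lemma Prof.tl_le (P : Prof f ℓ) {r : ℝ} (h : 139 / 100 < r) : tl f r ≤ lam := by
  rw [tl_eq f (by linarith)]
  have h2 := mul_le_mul_of_nonneg_right (step_le_one (1405 / 1000) (141 / 100) r)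
    (sub_nonneg.2 (P.le r h))
  linarith

lemma Prof.tl_der (P : Prof f ℓ) {r : ℝ} (h : 139 / 100 < r) :
    ∃ D, HasDerivAt (tl f) D r ∧ 0 ≤ D ∧ (r < 1405 / 1000 → D = f r * ℓ r) := by
  by_cases h2 : 141 / 100 < r
  · refine ⟨0, (hasDerivAt_const r lam).congr_of_eventuallyEq ?_, le_rfl, fun h3 => by linarith⟩
    filter_upwards [lt_mem_nhds h2] with t ht using tl_of_ge f ht.le
  · have h3 := P.der r (by linarith)
    have h4 := h3.add ((step_hasDerivAt (1405 / 1000) (141 / 100) r).mul (h3.const_sub lam))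
    refine ⟨_, h4.congr_of_eventuallyEq ?_, ?_, fun h5 => ?_⟩
    · filter_upwards [lt_mem_nhds h] with t ht using tl_eq f (by linarith)
    · have a1 := mul_nonneg (P.pos r (by linarith)).le (P.nonneg r (by linarith) (by linarith))
      have a2 := mul_nonneg (deriv_step_nonneg (a := 1405 / 1000) (b := 141 / 100) (by norm_num) r)
        (sub_nonneg.2 (P.le r h))
      have a3 := mul_nonneg (sub_nonneg.2 (step_le_one (1405 / 1000) (141 / 100) r)) a1
      nlinarith
    · rw [deriv_step_eq_zero (by norm_num) (Or.inl h5.le), step_of_le (by norm_num) h5.le]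
      ring

end

end Crest.Agent.R83.Des
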