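import Crest.Agent.R83.DesignProf

/-!
Row 83, design of the dipole field: pulling back a potential and a divergence free field.
-/

set_option autoImplicit false

open MeasureTheory Set Filter Topology Metric
open scoped Gradient ContDiff RealInnerProductSpace ENNReal

namespace Crest.Agent.R83.Des

noncomputable section

/-- linear combination of a frame -/
def lin (a p0 p1 p2 : E) : E := a 0 • p0 + a 1 • p1 + a 2 • p2

/-- the same as a continuous linear map -/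
def linL (p0 p1 p2 : E) : E →L[ℝ] E :=
  (EuclideanSpace.proj (0 : Fin 3) : E →L[ℝ] ℝ).smulRight p0 +
    (EuclideanSpace.proj (1 : Fin 3) : E →L[ℝ] ℝ).smulRight p1 +
    (EuclideanSpace.proj (2 : Fin 3) : E →L[ℝ] ℝ).smulRight p2

lemma linL_apply (a p0 p1 p2 : E) : linL p0 p1 p2 a = lin a p0 p1 p2 := rfl

lemma lin_tsum {a : ℕ → E} (ha : Summable a) (p0 p1 p2 : E) :
    ∑' m, lin (a m) p0 p1 p2 = lin (∑' m, a m) p0 p1 p2 :=
  ((linL p0 p1 p2).map_tsum ha).symm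

lemma lin_zero (p0 p1 p2 : E) : lin 0 p0 p1 p2 = 0 := by simp [lin]

lemma lin_apply (a p0 p1 p2 : E) (i : Fin 3) :
    lin a p0 p1 p2 i = a 0 * p0 i + a 1 * p1 i + a 2 * p2 i := rfl

lemma norm_lin_le (a : E) {p0 p1 p2 : E} {B : ℝ} (h0 : ‖p0‖ ≤ B) (h1 : ‖p1‖ ≤ B) (h2 : ‖p2‖ ≤ B) :
    ‖lin a p0 p1 p2‖ ≤ 3 * B * ‖a‖ := by
  have key : ∀ (i : Fin 3) {p : E}, ‖p‖ ≤ B → ‖a i • p‖ ≤ B * ‖a‖ := fun i p hp => by
    rw [norm_smul, mul_comm]
    exact mul_le_mul hp (PiLp.norm_apply_le a i) (norm_nonneg _) ((norm_nonneg _).trans hp)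
  have := norm_add₃_le (a := a 0 • p0) (b := a 1 • p1) (c := a 2 • p2)
  have := key 0 h0
  have := key 1 h1
  have := key 2 h2
  unfold lin
  linarith

lemma crs_zero (a b : E) : crs a b 0 = a 1 * b 2 - a 2 * b 1 := rfl
lemma crs_one (a b : E) : crs a b 1 = a 2 * b 0 - a 0 * b 2 := rfl
lemma crs_two (a b : E) : crs a b 2 = a 0 * b 1 - a 1 * b 0 := rfl

lemma norm_crs_le {a b : E} {B : ℝ} (ha : ‖a‖ ≤ B) (hb : ‖b‖ ≤ B) : ‖crs a b‖ ≤ B ^ 2 := by
  have hB : 0 ≤ B := (norm_nonneg _).trans ha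
  have h1 : ‖crs a b‖ ^ 2 ≤ (‖a‖ * ‖b‖) ^ 2 := by
    rw [mul_pow, norm_sq_eq_three, norm_sq_eq_three, norm_sq_eq_three, crs_zero, crs_one, crs_two]
    nlinarith [sq_nonneg (a 0 * b 0 + a 1 * b 1 + a 2 * b 2)]
  have h2 := abs_le_of_sq_le_sq' h1 (by positivity)
  calc ‖crs a b‖ ≤ ‖a‖ * ‖b‖ := h2.2
    _ ≤ B * B := mul_le_mul ha hb (norm_nonneg _) hB
    _ = _ := by ring

/-- determinant of a frame -/
def det3 (p0 p1 p2 : E) : ℝ := ⟪p0, crs p1 p2⟫

lemma det3_eq (a b c : E) : det3 a b c = a 0 * (b 1 * c 2 - b 2 * c 1) +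
    a 1 * (b 2 * c 0 - b 0 * c 2) + a 2 * (b 0 * c 1 - b 1 * c 0) := by
  rw [det3, inner_eq_three, crs_zero, crs_one, crs_two]

lemma inner_lin_lin (a v p0 p1 p2 : E) :
    ⟪lin a p0 p1 p2, lin v (crs p1 p2) (crs p2 p0) (crs p0 p1)⟫ = det3 p0 p1 p2 * ⟪a, v⟫ := by
  simp only [inner_eq_three, det3_eq, lin_apply, crs_zero, crs_one, crs_two]
  ring

lemma ext3 {a b : E} (h0 : a 0 = b 0) (h1 : a 1 = b 1) (h2 : a 2 = b 2) : a = b := by
  ext i; fin_cases i <;> assumption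

/-- the vector with three given coordinates -/
def vec (a b c : ℝ) : E := !₂[a, b, c]

lemma vec_zero (a b c : ℝ) : vec a b c 0 = a := rfl
lemma vec_one (a b c : ℝ) : vec a b c 1 = b := rfl
lemma vec_two (a b c : ℝ) : vec a b c 2 = c := rfl

lemma vec_eq (a b c : ℝ) : vec a b c = a • EuclideanSpace.single 0 1 +
    b • EuclideanSpace.single 1 1 + c • EuclideanSpace.single 2 1 := by
  refine ext3 ?_ ?_ ?_ <;> simp [vec]

variable {f0 f1 f2 : E → ℝ} {x : E}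

lemma contDiffAt_vec (h0 : ContDiffAt ℝ ∞ f0 x) (h1 : ContDiffAt ℝ ∞ f1 x)
    (h2 : ContDiffAt ℝ ∞ f2 x) : ContDiffAt ℝ ∞ (fun y => vec (f0 y) (f1 y) (f2 y)) x := by
  simp only [vec_eq]
  exact ((h0.smul contDiffAt_const).add (h1.smul contDiffAt_const)).add (h2.smul contDiffAt_const)

lemma dAt {F : Type*} [NormedAddCommGroup F] [NormedSpace ℝ F] {f : E → F}
    (h : ContDiffAt ℝ ∞ f x) : DifferentiableAt ℝ f x := h.differentiableAt (by simp)

lemma grad_pull {w : E → ℝ} (h0 : ContDiffAt ℝ ∞ f0 x) (h1 : ContDiffAt ℝ ∞ f1 x)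
    (h2 : ContDiffAt ℝ ∞ f2 x) (hw : DifferentiableAt ℝ w (vec (f0 x) (f1 x) (f2 x))) :
    ∇ (fun y => w (vec (f0 y) (f1 y) (f2 y))) x =
      lin (∇ w (vec (f0 x) (f1 x) (f2 x))) (∇ f0 x) (∇ f1 x) (∇ f2 x) := by
  have hd : HasFDerivAt (fun y => vec (f0 y) (f1 y) (f2 y))
      ((fderiv ℝ f0 x).smulRight (EuclideanSpace.single 0 1) +
        (fderiv ℝ f1 x).smulRight (EuclideanSpace.single 1 1) +
        (fderiv ℝ f2 x).smulRight (EuclideanSpace.single 2 1)) x := by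
    simp only [vec_eq]
    exact (((dAt h0).hasFDerivAt.smul_const _).add ((dAt h1).hasFDerivAt.smul_const _)).add
      ((dAt h2).hasFDerivAt.smul_const _)
  have h := (hw.hasFDerivAt.comp x hd).fderiv
  ext i
  rw [grad_apply, lin_apply]
  simp only [grad_apply]
  change fderiv ℝ (w ∘ fun y => vec (f0 y) (f1 y) (f2 y)) x _ = _
  rw [h]
  simp only [ContinuousLinearMap.comp_apply, add_apply,
    ContinuousLinearMap.smulRight_apply, map_add, map_smul, smul_eq_mul]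
  ring

lemma contDiffAt_coord {v : E → E} (hv : ContDiffAt ℝ ∞ v x) (i : Fin 3) :
    ContDiffAt ℝ ∞ (fun y => v y i) x :=
  ((EuclideanSpace.proj i : E →L[ℝ] ℝ).contDiff.contDiffAt).comp x hv

lemma contDiffAt_lin {a p0 p1 p2 : E → E} (ha : ContDiffAt ℝ ∞ a x) (h0 : ContDiffAt ℝ ∞ p0 x)
    (h1 : ContDiffAt ℝ ∞ p1 x) (h2 : ContDiffAt ℝ ∞ p2 x) :
    ContDiffAt ℝ ∞ (fun y => lin (a y) (p0 y) (p1 y) (p2 y)) x :=
  (((contDiffAt_coord ha 0).smul h0).add ((contDiffAt_coord ha 1).smul h1)).add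
    ((contDiffAt_coord ha 2).smul h2)

lemma dvg_pull {v : E → E} (h0 : ContDiffAt ℝ ∞ f0 x) (h1 : ContDiffAt ℝ ∞ f1 x)
    (h2 : ContDiffAt ℝ ∞ f2 x) (hv : ContDiffAt ℝ ∞ v (vec (f0 x) (f1 x) (f2 x)))
    (hd : dvg v (vec (f0 x) (f1 x) (f2 x)) = 0) :
    dvg (fun y => lin (v (vec (f0 y) (f1 y) (f2 y))) (crs (∇ f1 y) (∇ f2 y))
      (crs (∇ f2 y) (∇ f0 y)) (crs (∇ f0 y) (∇ f1 y))) x = 0 := by
  have hV := hv.comp x (contDiffAt_vec h0 h1 h2)
  have c0 := dAt (contDiffAt_crs (contDiffAt_grad h1) (contDiffAt_grad h2))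
  have c1 := dAt (contDiffAt_crs (contDiffAt_grad h2) (contDiffAt_grad h0))
  have c2 := dAt (contDiffAt_crs (contDiffAt_grad h0) (contDiffAt_grad h1))
  have a : ∀ i, DifferentiableAt ℝ (fun y => v (vec (f0 y) (f1 y) (f2 y)) i) x :=
    fun i => dAt (contDiffAt_coord hV i)
  have g : ∀ i, ∇ (fun y => v (vec (f0 y) (f1 y) (f2 y)) i) x = _ := fun i =>
    grad_pull (w := fun p => v p i) h0 h1 h2 (dAt (contDiffAt_coord hv i))
  unfold lin
  rw [dvg_add (((a 0).fun_smul c0).fun_add ((a 1).fun_smul c1)) ((a 2).fun_smul c2),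
    dvg_add ((a 0).fun_smul c0) ((a 1).fun_smul c1), dvg_smul (a 0) c0, dvg_smul (a 1) c1,
    dvg_smul (a 2) c2, dvg_crs_grad h1 h2, dvg_crs_grad h2 h0, dvg_crs_grad h0 h1, g, g, g]
  rw [dvg_eq_sum_grad (dAt hv), Fin.sum_univ_three] at hd
  simp only [inner_eq_three, lin_apply, crs_zero, crs_one, crs_two]
  linear_combination (∇ f0 x 0 * (∇ f1 x 1 * ∇ f2 x 2 - ∇ f1 x 2 * ∇ f2 x 1) +
    ∇ f0 x 1 * (∇ f1 x 2 * ∇ f2 x 0 - ∇ f1 x 0 * ∇ f2 x 2) +
    ∇ f0 x 2 * (∇ f1 x 0 * ∇ f2 x 1 - ∇ f1 x 1 * ∇ f2 x 0)) * hd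

/-- a smooth local lift of the argument -/
lemma exists_lift {a b : E → ℝ} (ha : ContDiff ℝ ∞ a) (hb : ContDiff ℝ ∞ b)
    (hx : 0 < a x ^ 2 + b x ^ 2) :
    ∃ θ : E → ℝ, ContDiffAt ℝ ∞ θ x ∧ θ x = Complex.arg ⟨a x, b x⟩ ∧
      ∀ᶠ y in 𝓝 x, (∃ k : ℤ, θ y = Complex.arg ⟨a y, b y⟩ + k * (2 * Real.pi)) ∧
        ∇ θ y = (a y ^ 2 + b y ^ 2)⁻¹ • (a y • ∇ b y - b y • ∇ a y) := by
  set ζ : E → ℂ := fun y => (a y : ℂ) + (b y : ℂ) * Complex.I with hζ
  have hζe : ∀ y, (⟨a y, b y⟩ : ℂ) = ζ y := fun y => Complex.mk_eq_add_mul_I _ _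
  have hζs : ContDiff ℝ ∞ ζ :=
    (Complex.ofRealCLM.contDiff.comp ha).add
      ((Complex.ofRealCLM.contDiff.comp hb).mul contDiff_const)
  have h0 : ζ x ≠ 0 := by
    rw [← hζe]
    intro h
    have h1 : a x = 0 := congrArg Complex.re h
    have h2 : b x = 0 := congrArg Complex.im h
    rw [h1, h2] at hx
    norm_num at hx
  have hq : ContDiff ℝ ∞ fun y => ζ y * (ζ x)⁻¹ := hζs.mul contDiff_const
  have hslit : ∀ᶠ y in 𝓝 x, ζ y * (ζ x)⁻¹ ∈ Complex.slitPlane :=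
    hq.continuous.continuousAt.eventually_mem (Complex.isOpen_slitPlane.mem_nhds (by
      rw [mul_inv_cancel₀ h0]; exact Complex.one_mem_slitPlane))
  refine ⟨fun y => Complex.arg (ζ x) + (Complex.log (ζ y * (ζ x)⁻¹)).im, ?_, ?_, ?_⟩
  · have h1 := ((Complex.contDiffAt_log (n := ∞) hslit.self_of_nhds).restrict_scalars ℝ).comp x
      hq.contDiffAt
    exact contDiffAt_const.add (Complex.imCLM.contDiff.contDiffAt.comp x h1)
  · simp only [mul_inv_cancel₀ h0, Complex.log_one, Complex.zero_im, add_zero, hζe]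
  · filter_upwards [hslit] with y hy
    have hne := Complex.slitPlane_ne_zero hy
    have hy0 : ζ y ≠ 0 := left_ne_zero_of_mul hne
    constructor
    · have h1 := Complex.arg_mul_coe_angle h0 hne
      rw [mul_comm (ζ y), ← mul_assoc, mul_inv_cancel₀ h0, one_mul, mul_comm (ζ x)⁻¹,
        ← Real.Angle.coe_add] at h1
      obtain ⟨k, hk⟩ := Real.Angle.angle_eq_iff_two_pi_dvd_sub.1 h1.symm
      refine ⟨k, ?_⟩
      rw [hζe, Complex.log_im]
      linarith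
    · have da := (dAt ha.contDiffAt (x := y)).hasFDerivAt
      have db := (dAt hb.contDiffAt (x := y)).hasFDerivAt
      have d1 := ((Complex.ofRealCLM.hasFDerivAt.comp y da).add
        ((Complex.ofRealCLM.hasFDerivAt.comp y db).mul_const Complex.I)).mul_const (ζ x)⁻¹
      have d2 := (Complex.imCLM.hasFDerivAt.comp y
        ((Complex.hasStrictFDerivAt_log_real hy).hasFDerivAt.comp y d1)).const_add
        (Complex.arg (ζ x))
      ext i
      rw [grad_apply]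
      erw [d2.fderiv]
      have e1 : ∀ z : ℂ, (ζ y * (ζ x)⁻¹)⁻¹ * ((ζ x)⁻¹ * z) = (ζ y)⁻¹ * z := fun z => by
        field_simp
      simp only [ContinuousLinearMap.comp_apply, smul_apply,
        add_apply, one_apply_eq_self, smul_eq_mul,
        Complex.ofRealCLM_apply, Complex.imCLM_apply, ← grad_apply, e1, PiLp.smul_apply,
        PiLp.sub_apply]
      rw [← hζe]
      simp only [Complex.mul_im, Complex.inv_re, Complex.inv_im, Complex.normSq_mk, Complex.add_re,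
        Complex.add_im, Complex.mul_re, Complex.ofReal_re, Complex.ofReal_im, Complex.I_re,
        Complex.I_im]
      rw [sq, sq]
      ring

end

end Crest.Agent.R83.Des
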