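import Crest.Agent.R83.DesignPull

/-!
Row 83, design of the dipole field: toroidal coordinates.
-/

set_option autoImplicit false

open MeasureTheory Set Filter Topology Metric
open scoped Gradient ContDiff RealInnerProductSpace ENNReal

namespace Crest.Agent.R83.Des

noncomputable section

variable (X : Fin 3 → E → ℝ)

/-- square of the radial coordinate -/
def S2 (x : E) : ℝ := X 0 x ^ 2 + eta (X 1 x)

/-- the radial coordinate -/
def ss (x : E) : ℝ := √(S2 X x)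

/-- real part of the angular variable -/
def aa (x : E) : ℝ := uu (X 0 x)

/-- the toroidal coordinates -/
def Th (x : E) : E := vec (ss X x - 1) (Complex.arg ⟨aa X x, X 1 x⟩) (X 2 x)

/-- the angular form -/
def om (x : E) : E := (aa X x ^ 2 + X 1 x ^ 2)⁻¹ • (aa X x • ∇ (X 1) x - X 1 x • ∇ (aa X) x)

/-- squared distance to the core circle -/
def R2 (x : E) : ℝ := (ss X x - 1) ^ 2 + X 2 x ^ 2

/-- the degeneracy function -/
def QQ (x : E) : ℝ := X 1 x ^ 2 / (aa X x ^ 2 + X 1 x ^ 2) + R2 X x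

/-- the Jacobian -/
def De (x : E) : ℝ := det3 (∇ (ss X) x) (om X x) (∇ (X 2) x)

/-- pull-back of a gradient -/
def PG (a x : E) : E := lin a (∇ (ss X) x) (om X x) (∇ (X 2) x)

/-- pull-back of a flux -/
def PV (v x : E) : E := kap • lin v (crs (om X x) (∇ (X 2) x)) (crs (∇ (X 2) x) (∇ (ss X) x))
  (crs (∇ (ss X) x) (om X x))

variable {X} {x : E}

lemma Th_zero : Th X x 0 = ss X x - 1 := rfl
lemma Th_one : Th X x 1 = Complex.arg ⟨aa X x, X 1 x⟩ := rfl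
lemma Th_two : Th X x 2 = X 2 x := rfl

lemma S2_nonneg (x : E) : 0 ≤ S2 X x := add_nonneg (sq_nonneg _) (eta_nonneg _)

lemma ss_sq (x : E) : ss X x ^ 2 = S2 X x := Real.sq_sqrt (S2_nonneg x)

lemma S2_pos_of_R2 (h : R2 X x ≤ 1 / 100) : 0 < S2 X x := by
  rw [← ss_sq]
  have h1 : (ss X x - 1) ^ 2 ≤ 1 / 100 := by unfold R2 at h; nlinarith [sq_nonneg (X 2 x)]
  have h2 : 0 < ss X x := by nlinarith
  positivity

lemma sum_sq_le (h : R2 X x ≤ 1 / 100) : X 0 x ^ 2 + X 1 x ^ 2 + X 2 x ^ 2 ≤ 125 / 100 := by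
  have h1 := ss_sq (X := X) x
  have h2 := sq_le_eta (X 1 x)
  unfold S2 at h1
  unfold R2 at h
  have h3 : ss X x - 1 ≤ 1 / 10 := by nlinarith [sq_nonneg (X 2 x)]
  nlinarith

lemma ab_pos (h : 0 < S2 X x) : 0 < aa X x ^ 2 + X 1 x ^ 2 := by
  by_cases h0 : X 0 x = 0
  · have h1 : X 1 x ≠ 0 := by
      intro h1
      unfold S2 at h
      rw [h0, h1, eta_of_le (by norm_num)] at h
      norm_num at h
    positivity
  · have h1 : aa X x ≠ 0 := by
      intro h1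
      have := mul_uu_pos h0
      unfold aa at h1
      rw [h1, mul_zero] at this
      exact lt_irrefl _ this
    positivity

lemma QQ_eq :
    Real.sin (Th X x 1) ^ 2 + Th X x 0 ^ 2 + Th X x 2 ^ 2 = QQ X x := by
  rw [Th_zero, Th_one, Th_two, Complex.sin_arg, div_pow, Complex.sq_norm, Complex.normSq_mk, QQ, R2]
  ring

lemma QQ_pos (h : 0 < S2 X x) (hne : ¬ (X 0 x ^ 2 = 1 ∧ X 1 x = 0 ∧ X 2 x = 0)) : 0 < QQ X x := by
  have hab := ab_pos h
  have h0 : 0 ≤ X 1 x ^ 2 / (aa X x ^ 2 + X 1 x ^ 2) := by positivity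
  by_contra hcon
  unfold QQ R2 at hcon
  have h1 : X 1 x ^ 2 / (aa X x ^ 2 + X 1 x ^ 2) = 0 := by
    nlinarith [sq_nonneg (ss X x - 1), sq_nonneg (X 2 x)]
  have h2 : (ss X x - 1) ^ 2 = 0 := by nlinarith [sq_nonneg (ss X x - 1), sq_nonneg (X 2 x)]
  have h3 : X 2 x ^ 2 = 0 := by nlinarith [sq_nonneg (ss X x - 1), sq_nonneg (X 2 x)]
  have h4 : X 1 x = 0 := by
    rcases div_eq_zero_iff.1 h1 with h | h
    · exact pow_eq_zero_iff two_ne_zero |>.1 h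
    · exact absurd h hab.ne'
  have h5 : ss X x = 1 := sub_eq_zero.1 (pow_eq_zero_iff two_ne_zero |>.1 h2)
  have h6 := ss_sq (X := X) x
  unfold S2 at h6
  rw [h5, h4, eta_of_le (by norm_num)] at h6
  exact hne ⟨by linarith, h4, pow_eq_zero_iff two_ne_zero |>.1 h3⟩

section smooth
variable (hX : ∀ k, ContDiff ℝ ∞ (X k))
include hX

lemma S2_contDiff : ContDiff ℝ ∞ (S2 X) := ((hX 0).pow 2).add (eta_contDiff.comp (hX 1))

lemma ss_continuous : Continuous (ss X) := (S2_contDiff hX).continuous.sqrt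

lemma R2_continuous : Continuous (R2 X) :=
  (((ss_continuous hX).sub continuous_const).pow 2).add ((hX 2).continuous.pow 2)

lemma ss_contDiffAt (h : 0 < S2 X x) : ContDiffAt ℝ ∞ (ss X) x :=
  (S2_contDiff hX).contDiffAt.sqrt h.ne'

lemma aa_contDiff : ContDiff ℝ ∞ (aa X) := uu_contDiff.comp (hX 0)

lemma om_contDiffAt (h : 0 < S2 X x) : ContDiffAt ℝ ∞ (om X) x :=
  ((((aa_contDiff hX).pow 2).add ((hX 1).pow 2)).contDiffAt.inv (ab_pos h).ne').smul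
    (((aa_contDiff hX).smul (contDiff_grad (hX 1))).sub
      ((hX 1).smul (contDiff_grad (aa_contDiff hX)))).contDiffAt

lemma QQ_continuousAt (h : 0 < S2 X x) : ContinuousAt (QQ X) x :=
  (((hX 1).continuous.pow 2).continuousAt.div
    (((aa_contDiff hX).continuous.pow 2).add ((hX 1).continuous.pow 2)).continuousAt
    (ab_pos h).ne').add (R2_continuous hX).continuousAt

lemma De_continuousAt (h : 0 < S2 X x) : ContinuousAt (De X) x :=
  (contDiffAt_grad (ss_contDiffAt hX h)).continuousAt.inner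
    (contDiffAt_crs (om_contDiffAt hX h) (contDiff_grad (hX 2)).contDiffAt).continuousAt

lemma De_pos (h : 0 < S2 X x) (hd : 0 < det3 (∇ (X 0) x) (∇ (X 1) x) (∇ (X 2) x)) :
    0 < De X x := by
  obtain ⟨u', hu, hu0, hu1⟩ := uu_deriv (X 0 x)
  obtain ⟨η', hη, hη0⟩ := eta_deriv (X 1 x)
  have d0 := dAt (hX 0).contDiffAt (x := x)
  have d1 := dAt (hX 1).contDiffAt (x := x)
  have hs : 0 < ss X x := Real.sqrt_pos.2 h
  have hab := ab_pos h
  have g1 : ∇ (aa X) x = u' • ∇ (X 0) x := grad_comp hu d0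
  have g2 : ∇ (S2 X) x = (2 * X 0 x) • ∇ (X 0) x + η' • ∇ (X 1) x := by
    have e1 : HasDerivAt (fun t : ℝ => t ^ 2) (2 * X 0 x) (X 0 x) := by
      simpa using hasDerivAt_pow 2 (X 0 x)
    rw [← grad_comp e1 d0, ← grad_comp hη d1]
    exact grad_add (d0.pow 2) (hη.differentiableAt.comp x d1)
  have g3 : ∇ (ss X) x = (1 / (2 * ss X x)) • ∇ (S2 X) x :=
    grad_comp (Real.hasDerivAt_sqrt h.ne') (dAt (S2_contDiff hX).contDiffAt)
  have e : De X x = (1 / (2 * ss X x)) * (aa X x ^ 2 + X 1 x ^ 2)⁻¹ *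
      (2 * (X 0 x * aa X x) + η' * X 1 x * u') * det3 (∇ (X 0) x) (∇ (X 1) x) (∇ (X 2) x) := by
    rw [De, om, g1, g3, g2]
    simp only [det3_eq, PiLp.smul_apply, PiLp.add_apply, PiLp.sub_apply, smul_eq_mul]
    ring
  rw [e]
  refine mul_pos (mul_pos (by positivity) ?_) hd
  have he := eta_nonneg (X 1 x)
  by_cases h0 : X 0 x = 0
  · have h2 : 0 < eta (X 1 x) := by
      unfold S2 at h; rw [h0] at h; linarith
    rw [h0, zero_mul, mul_zero, zero_add]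
    exact mul_pos (by linarith) (hu1 h0)
  · have h2 : 0 < X 0 x * aa X x := mul_uu_pos h0
    have h3 : 0 ≤ η' * X 1 x * u' := mul_nonneg (by linarith) hu0
    linarith

/-- the conclusion of the pull-back lemmas -/
lemma pull_in {w : E → ℝ} {v : E → E}
    (hp : ∀ p, w (p + EuclideanSpace.single 1 (2 * Real.pi)) = w p ∧
      v (p + EuclideanSpace.single 1 (2 * Real.pi)) = v p)
    (h : 0 < S2 X x) (hw : ContDiffAt ℝ ∞ w (Th X x)) (hv : ContDiffAt ℝ ∞ v (Th X x))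
    (hd : dvg v (Th X x) = 0) :
    ContDiffAt ℝ ∞ (fun y => w (Th X y)) x ∧ ∇ (fun y => w (Th X y)) x = PG X (∇ w (Th X x)) x ∧
      ContDiffAt ℝ ∞ (fun y => PV X (v (Th X y)) y) x ∧
      dvg (fun y => PV X (v (Th X y)) y) x = 0 := by
  obtain ⟨θ, hθ, hθ0, hθ1⟩ := exists_lift (aa_contDiff hX) (hX 1) (ab_pos h)
  have pw : Function.Periodic w (EuclideanSpace.single 1 (2 * Real.pi)) := fun p => (hp p).1
  have pv : Function.Periodic v (EuclideanSpace.single 1 (2 * Real.pi)) := fun p => (hp p).2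
  have c0 : ContDiffAt ℝ ∞ (fun y => ss X y - 1) x := (ss_contDiffAt hX h).sub contDiffAt_const
  have c2 : ContDiffAt ℝ ∞ (X 2) x := (hX 2).contDiffAt
  have g0 : ∀ y, ∇ (fun y => ss X y - 1) y = ∇ (ss X) y := fun y => by
    simp only [sub_eq_add_neg]; exact grad_add_const _ _ _
  have e0 : vec (ss X x - 1) (θ x) (X 2 x) = Th X x := by rw [hθ0]; rfl
  have e1 : ∀ᶠ y in 𝓝 x, w (Th X y) = w (vec (ss X y - 1) (θ y) (X 2 y)) ∧
      v (Th X y) = v (vec (ss X y - 1) (θ y) (X 2 y)) := by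
    filter_upwards [hθ1] with y ⟨⟨k, hk⟩, _⟩
    have : vec (ss X y - 1) (θ y) (X 2 y) =
        Th X y + k • EuclideanSpace.single 1 (2 * Real.pi) := by
      refine ext3 ?_ ?_ ?_ <;> simp [vec_zero, vec_one, vec_two, Th_zero, Th_one, Th_two, hk]
    rw [this, pw.zsmul k, pv.zsmul k]
    exact ⟨rfl, rfl⟩
  have e2 : (fun y => w (Th X y)) =ᶠ[𝓝 x] fun y => w (vec (ss X y - 1) (θ y) (X 2 y)) :=
    e1.mono fun y hy => hy.1
  have e3 : (fun y => PV X (v (Th X y)) y) =ᶠ[𝓝 x] fun y =>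
      kap • lin (v (vec (ss X y - 1) (θ y) (X 2 y))) (crs (∇ θ y) (∇ (X 2) y))
        (crs (∇ (X 2) y) (∇ (fun y => ss X y - 1) y))
        (crs (∇ (fun y => ss X y - 1) y) (∇ θ y)) := by
    filter_upwards [e1, hθ1] with y hy hy'
    rw [PV, hy.2, g0, hy'.2]
    rfl
  rw [← e0] at hw hv hd
  have cV := contDiffAt_vec c0 hθ c2
  have cL := contDiffAt_lin (a := fun y => v (vec (ss X y - 1) (θ y) (X 2 y))) (hv.comp x cV)
    (contDiffAt_crs (contDiffAt_grad hθ) (contDiffAt_grad c2))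
    (contDiffAt_crs (contDiffAt_grad c2) (contDiffAt_grad c0))
    (contDiffAt_crs (contDiffAt_grad c0) (contDiffAt_grad hθ))
  refine ⟨(hw.comp x cV).congr_of_eventuallyEq e2, ?_,
    (cL.const_smul kap).congr_of_eventuallyEq e3, ?_⟩
  · rw [e2.gradient_eq, grad_pull c0 hθ c2 (dAt hw), e0, g0, hθ1.self_of_nhds.2]
    rfl
  · rw [dvg_congr e3, dvg_smul (f := fun _ => kap) (differentiableAt_const _) (dAt cL),
      dvg_pull c0 hθ c2 hv hd, gradient_fun_const]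
    simp

lemma pull_out {w : E → ℝ} {v : E → E}
    (h0 : ∀ p : E, 1 / 100 ≤ p 0 ^ 2 + p 2 ^ 2 → w p = 0 ∧ v p = 0) (h : 1 / 100 < R2 X x) :
    ∇ w (Th X x) = 0 ∧ ContDiffAt ℝ ∞ (fun y => w (Th X y)) x ∧
      ∇ (fun y => w (Th X y)) x = PG X (∇ w (Th X x)) x ∧
      ContDiffAt ℝ ∞ (fun y => PV X (v (Th X y)) y) x ∧
      dvg (fun y => PV X (v (Th X y)) y) x = 0 := by
  have e1 : ∀ᶠ y in 𝓝 x, 1 / 100 < R2 X y :=
    (R2_continuous hX).continuousAt.eventually (lt_mem_nhds h)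
  have e2 : (fun y => w (Th X y)) =ᶠ[𝓝 x] fun _ => 0 := e1.mono fun y hy => (h0 (Th X y) hy.le).1
  have e3 : (fun y => PV X (v (Th X y)) y) =ᶠ[𝓝 x] fun _ => 0 := e1.mono fun y hy => by
    show PV X (v (Th X y)) y = 0
    rw [(h0 (Th X y) hy.le).2, PV, lin_zero, smul_zero]
  have e4 : ∇ w (Th X x) = 0 := by
    have hc : Continuous fun p : E => p 0 ^ 2 + p 2 ^ 2 := by fun_prop
    refine grad_eq_zero_of_eventually_const (c := 0) ?_
    filter_upwards [hc.continuousAt.eventually (lt_mem_nhds (show 1 / 100 <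
      Th X x 0 ^ 2 + Th X x 2 ^ 2 from h))] with p hp using (h0 p hp.le).1
  refine ⟨e4, contDiffAt_const.congr_of_eventuallyEq e2, ?_,
    contDiffAt_const.congr_of_eventuallyEq e3, ?_⟩
  · rw [grad_eq_zero_of_eventually_const e2, e4, PG, lin_zero]
  · rw [dvg_congr e3, dvg_const]

/-- the toroidal coordinates near a pole -/
lemma pole {σ : ℝ} (hσ : σ = 1 ∨ σ = -1) (h0 : 1 / 2 < σ * X 0 x) (h1 : X 1 x ^ 2 < 1 / 100) :
    Th X x 0 = σ * (X 0 x - σ) ∧ 0 < σ * Real.cos (Th X x 1) ∧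
      Real.tan (Th X x 1) = σ * X 1 x ∧ Real.cos (Th X x 1) ^ 2 = (1 + X 1 x ^ 2)⁻¹ ∧
      ∇ (ss X) x = σ • ∇ (X 0) x ∧ om X x = ((1 + X 1 x ^ 2)⁻¹ * σ) • ∇ (X 1) x := by
  have hσ2 : σ * σ = 1 := by rcases hσ with rfl | rfl <;> norm_num
  have e0 : ∀ᶠ y in 𝓝 x, 1 / 2 < σ * X 0 y :=
    (continuous_const.mul (hX 0).continuous).continuousAt.eventually (lt_mem_nhds h0)
  have e1 : ∀ᶠ y in 𝓝 x, X 1 y ^ 2 < 1 / 100 :=
    ((hX 1).continuous.pow 2).continuousAt.eventually (gt_mem_nhds h1)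
  have e2 : ∀ᶠ y in 𝓝 x, aa X y = σ := e0.mono fun y hy => uu_of_half hσ hy.le
  have e3 : ss X =ᶠ[𝓝 x] fun y => σ * X 0 y := by
    filter_upwards [e0, e1] with y hy hy'
    have : S2 X y = (σ * X 0 y) ^ 2 := by
      unfold S2; rw [eta_of_le hy'.le, mul_pow, sq σ, hσ2]; ring
    unfold ss
    rw [this, Real.sqrt_sq (by linarith)]
  have ha : aa X x = σ := e2.self_of_nhds
  have hne : (⟨σ, X 1 x⟩ : ℂ) ≠ 0 := fun h => by
    have : σ = 0 := congrArg Complex.re h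
    rw [this] at hσ2; norm_num at hσ2
  have hn : ‖(⟨σ, X 1 x⟩ : ℂ)‖ ^ 2 = 1 + X 1 x ^ 2 := by
    rw [Complex.sq_norm, Complex.normSq_mk, hσ2]; ring
  refine ⟨?_, ?_, ?_, ?_, ?_, ?_⟩
  · rw [Th_zero, e3.self_of_nhds, mul_sub, hσ2]
  · rw [Th_one, ha, Complex.cos_arg hne, ← mul_div_assoc]
    exact div_pos (by rw [hσ2]; norm_num) (norm_pos_iff.2 hne)
  · rw [Th_one, ha, Complex.tan_arg]
    rcases hσ with rfl | rfl <;> simp [div_neg]
  · rw [Th_one, ha, Complex.cos_arg hne, div_pow, hn, sq, hσ2, one_div]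
  · rw [e3.gradient_eq, grad_const_mul]
  · rw [om, grad_eq_zero_of_eventually_const e2, smul_zero, sub_zero, ha, smul_smul, sq σ, hσ2]

lemma pole_flux {σ : ℝ} (hσ : σ = 1 ∨ σ = -1) (h0 : 1 / 2 < σ * X 0 x) (h1 : X 1 x ^ 2 < 1 / 100)
    (c : ℝ) :
    Th X x 0 ^ 2 + Real.tan (Th X x 1) ^ 2 + Th X x 2 ^ 2 =
      (X 0 x - σ) ^ 2 + X 1 x ^ 2 + X 2 x ^ 2 ∧
    PV X (c • !₂[Th X x 0 / Real.cos (Th X x 1) ^ 2, Real.tan (Th X x 1),
        Th X x 2 / Real.cos (Th X x 1) ^ 2]) x =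
      (kap * c) • lin (vec (X 0 x - σ) (X 1 x) (X 2 x)) (crs (∇ (X 1) x) (∇ (X 2) x))
        (crs (∇ (X 2) x) (∇ (X 0) x)) (crs (∇ (X 0) x) (∇ (X 1) x)) := by
  obtain ⟨a0, -, a2, a3, a4, a5⟩ := pole hX hσ h0 h1
  have hp : 1 + X 1 x ^ 2 ≠ 0 := by positivity
  rw [PV, a0, a2, a3, a4, a5, Th_two]
  constructor
  · rcases hσ with rfl | rfl <;> ring
  · refine ext3 ?_ ?_ ?_ <;>
    · simp only [PiLp.smul_apply, lin_apply, crs_zero, crs_one, crs_two, smul_eq_mul, vec_zero,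
        vec_one, vec_two, Matrix.cons_val_zero, Matrix.cons_val_one, Matrix.cons_val]
      rcases hσ with rfl | rfl
      · field_simp
      · field_simp
        ring

end smooth

lemma inner_PG_PV (a v : E) : ⟪PG X a x, PV X v x⟫ = kap * De X x * ⟪a, v⟫ := by
  rw [PG, PV, inner_smul_right, inner_lin_lin, De]
  ring

lemma norm_PG_le {B : ℝ} (h0 : ‖∇ (ss X) x‖ ≤ B) (h1 : ‖om X x‖ ≤ B) (h2 : ‖∇ (X 2) x‖ ≤ B)
    (a : E) : ‖PG X a x‖ ≤ 3 * B * ‖a‖ := norm_lin_le a h0 h1 h2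

lemma norm_PV_le {B : ℝ} (h0 : ‖∇ (ss X) x‖ ≤ B) (h1 : ‖om X x‖ ≤ B) (h2 : ‖∇ (X 2) x‖ ≤ B)
    (v : E) : ‖PV X v x‖ ≤ 3 * B ^ 2 * ‖v‖ := by
  rw [PV, norm_smul, Real.norm_eq_abs, abs_of_pos kap_pos]
  refine (mul_le_of_le_one_left (norm_nonneg _) (by norm_num [kap])).trans ?_
  exact norm_lin_le v (norm_crs_le h1 h2) (norm_crs_le h2 h0) (norm_crs_le h0 h1)

lemma PG_tsum {a : ℕ → E} (ha : Summable a) : ∑' m, PG X (a m) x = PG X (∑' m, a m) x :=
  lin_tsum ha _ _ _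

lemma PV_tsum {a : ℕ → E} (ha : Summable a) : ∑' m, PV X (a m) x = PV X (∑' m, a m) x := by
  unfold PV
  rw [tsum_const_smul'' kap, lin_tsum ha]

lemma PG_zero : PG X 0 x = 0 := lin_zero _ _ _

lemma PV_zero : PV X 0 x = 0 := by rw [PV, lin_zero, smul_zero]

end

end Crest.Agent.R83.Des
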