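import Crest.Agent.R83.FlatTail

/-!
Row 83: the dipole field in the flat solid torus, `flat : CascadeStmt → FlatStmt`.
-/

set_option autoImplicit false

open MeasureTheory Set Filter Topology Metric
open scoped Gradient ContDiff RealInnerProductSpace ENNReal

namespace Crest.Agent.R83

namespace Flat

noncomputable section

lemma rad_of {T : ℝ} {a r : ℝ → ℝ} (hT : 0 < T) (ha : ContDiff ℝ ∞ a) (hr : ContDiff ℝ ∞ r)
    (h : ∀ t, -2 ≤ t → t ≤ 0 → a t = Real.exp (-2 * t) ∧ r t = -2 * Real.exp (-2 * t))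
    {α μ : ℝ} (hα : α = (T + 2) * (400 / 3)) (hμ : μ = Real.exp (-4) / 4) :
    Rad (fun q => step (-2) (-1) (tt α q)) (fun q => μ * a (tt α q)) (fun q => μ * r (tt α q))
      (1 / 400 + α⁻¹) := by
  have hα0 : 0 < α := by rw [hα]; positivity
  have hμ0 : 0 < μ := by rw [hμ]; positivity
  have hαα : α * α⁻¹ = 1 := mul_inv_cancel₀ hα0.ne'
  have h21 : (-2 : ℝ) < -1 := by norm_num
  refine ⟨(step_contDiff _ _).comp (contDiff_tt α), contDiff_const.mul (ha.comp (contDiff_tt α)),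
    contDiff_const.mul (hr.comp (contDiff_tt α)), fun q => step_nonneg _ _ _,
    fun q => step_le_one _ _ _, fun q => ?_, fun q hq => step_of_le h21 ?_,
    fun q hq => step_of_ge h21 ?_, ?_, fun q h1 h2 => ?_⟩
  · rw [(hasDerivAt_comp_tt (step_contDiff _ _) α q).deriv]
    exact mul_nonneg (deriv_step_nonneg h21 _) hα0.le
  · unfold tt; nlinarith
  · unfold tt; nlinarith
  · have : α⁻¹ ≤ 3 / 400 := by
      rw [inv_le_comm₀ hα0 (by norm_num), hα]; norm_num; linarith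
    linarith
  · have t1 : -2 < tt α q := by unfold tt; nlinarith
    have t2 : tt α q ≤ -1 := by unfold tt; nlinarith
    have hev : ∀ᶠ t in 𝓝 (tt α q), a t = Real.exp (-2 * t) ∧ r t = -2 * Real.exp (-2 * t) := by
      filter_upwards [Ioo_mem_nhds t1 (by linarith : tt α q < 0)] with t ht
      exact h t ht.1.le ht.2.le
    have hexp : HasDerivAt (fun t => Real.exp (-2 * t)) (Real.exp (-2 * tt α q) * -2) (tt α q) :=
      (((hasDerivAt_id' (tt α q)).const_mul (-2)).exp).congr_deriv (by ring)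
    have da : deriv a (tt α q) = Real.exp (-2 * tt α q) * -2 :=
      (hexp.congr_of_eventuallyEq (hev.mono fun t ht => ht.1)).deriv
    have dr : deriv r (tt α q) = -2 * (Real.exp (-2 * tt α q) * -2) :=
      ((hexp.const_mul (-2)).congr_of_eventuallyEq (hev.mono fun t ht => ht.2)).deriv
    rw [((hasDerivAt_comp_tt ha α q).const_mul μ).deriv,
      ((hasDerivAt_comp_tt hr α q).const_mul μ).deriv, da, dr]
    simp only [(h _ t1.le (by linarith)).1, (h _ t1.le (by linarith)).2]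
    have e0 : 0 < Real.exp (-2 * tt α q) := Real.exp_pos _
    have e1 : μ * Real.exp (-2 * tt α q) ≤ 1 / 4 := by
      rw [hμ, div_mul_eq_mul_div, ← Real.exp_add]
      have := Real.exp_le_one_iff.2 (by linarith : -4 + -2 * tt α q ≤ 0)
      linarith
    have e2 := mul_pos hμ0 e0
    have e3 := mul_pos e2 hα0
    refine ⟨e2, by linarith, by nlinarith, by nlinarith, by nlinarith, by nlinarith⟩

lemma abs_mul_le_of {x c B : ℝ} (hc : |c| ≤ 1) (hx : |x| ≤ B) : |x * c| ≤ B := by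
  rw [abs_mul]
  exact (mul_le_of_le_one_right (abs_nonneg _) hc).trans hx

lemma split_bound {a : ℝ → ℝ} {r : ℝ → ℝ} {k : ℕ} {t B : ℝ} (hk : 0 < k)
    (h : (k : ℝ) * |a t| + |deriv a t| + |r t| + |deriv r t| / k ≤ B) :
    |a t| ≤ B ∧ |k * a t| ≤ B ∧ |deriv a t| ≤ B ∧ |r t| ≤ B ∧ |deriv r t / k| ≤ B := by
  have hk1 : (1 : ℝ) ≤ k := by exact_mod_cast hk
  have h1 := abs_nonneg (a t)
  have h2 := abs_nonneg (deriv a t)
  have h3 := abs_nonneg (r t)
  have h4 : 0 ≤ |deriv r t| / k := by positivity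
  have h5 : |a t| ≤ k * |a t| := le_mul_of_one_le_left h1 hk1
  rw [abs_mul, abs_div, Nat.abs_cast]
  refine ⟨?_, ?_, ?_, ?_, ?_⟩ <;> linarith

lemma hasSum_shift0 {B u : ℕ → ℝ} (hB : Summable B) (h0 : u 0 = 0)
    (hs : ∀ m, u (m + 1) = B m) : HasSum u (∑' m, B m) := by
  have := hasSum_shift (A := fun _ => 0) (u := u) summable_zero hB h0 (by simpa using hs)
  simpa using this

end

end Flat

open Flat in
theorem flat (hC : CascadeStmt) : FlatStmt := by
  obtain ⟨T, Λ, K, a, r, b, s, k, l, hT, hk0, hkl, hsm, hTz, h0, hz, hbd, hell⟩ := hC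
  obtain ⟨mi, P1, P2, M, hA⟩ := exists_ang
  obtain ⟨α, hα⟩ : ∃ α, α = (T + 2) * (400 / 3) := ⟨_, rfl⟩
  obtain ⟨μ, hμ⟩ : ∃ μ, μ = Real.exp (-4) / 4 := ⟨_, rfl⟩
  have hR := rad_of hT (hsm 0).1 (hsm 0).2.1 h0 hα hμ
  have hα0 : 0 < α := by rw [hα]; positivity
  have hμ0 : 0 < μ := by rw [hμ]; positivity
  have hαα : α * α⁻¹ = 1 := mul_inv_cancel₀ hα0.ne'
  have hαi : 0 < α⁻¹ := inv_pos.2 hα0
  set qb := 1 / 400 + α⁻¹ with hqb
  set χ : ℝ → ℝ := fun q => step (-2) (-1) (tt α q)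
  set A : ℝ → ℝ := fun q => μ * a 0 (tt α q) with hAdef
  set R : ℝ → ℝ := fun q => μ * r 0 (tt α q) with hRdef
  let w : ℕ → E → ℝ := fun m => Nat.casesOn m (w0 mi χ A (1 + M ^ 2 / 4))
    fun m => wm μ α (a (m + 1)) (b m) (k (m + 1)) (l m)
  let v : ℕ → E → E := fun m => Nat.casesOn m (v0 mi P1 χ R)
    fun m => vm μ α (r (m + 1)) (s m) (k (m + 1)) (l m)
  have w_0 : w 0 = w0 mi χ A (1 + M ^ 2 / 4) := rfl
  have v_0 : v 0 = v0 mi P1 χ R := rfl
  have w_s : ∀ m, w (m + 1) = wm μ α (a (m + 1)) (b m) (k (m + 1)) (l m) := fun _ => rfl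
  have v_s : ∀ m, v (m + 1) = vm μ α (r (m + 1)) (s m) (k (m + 1)) (l m) := fun _ => rfl
  clear_value w v
  have hdiff : ∀ {f : ℝ → ℝ}, ContDiff ℝ ∞ f → Differentiable ℝ f := fun h =>
    h.differentiable (by simp)
  have za : ∀ m t, t ≤ 0 → a (m + 1) t = 0 := fun m t ht => (hz m t ht).1
  have zr : ∀ m t, t ≤ 0 → r (m + 1) t = 0 := fun m t ht => (hz m t ht).2.1
  have zb : ∀ m t, t ≤ 0 → b m t = 0 := fun m t ht => (hz m t ht).2.2.1
  have zs : ∀ m t, t ≤ 0 → s m t = 0 := fun m t ht => (hz m t ht).2.2.2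
  have hTz' : ∀ m t, T ≤ t →
      deriv (a m) t = 0 ∧ deriv (r m) t = 0 ∧ deriv (b m) t = 0 ∧ deriv (s m) t = 0 :=
    fun m t ht => ⟨deriv_eq_zero_of_ge (hdiff (hsm m).1) (fun t ht => (hTz m t ht).1) ht,
      deriv_eq_zero_of_ge (hdiff (hsm m).2.1) (fun t ht => (hTz m t ht).2.1) ht,
      deriv_eq_zero_of_ge (hdiff (hsm m).2.2.1) (fun t ht => (hTz m t ht).2.2.1) ht,
      deriv_eq_zero_of_ge (hdiff (hsm m).2.2.2) (fun t ht => (hTz m t ht).2.2.2) ht⟩
  have dA : ∀ q, deriv A q = μ * (deriv (a 0) (tt α q) * α) := fun q =>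
    ((hasDerivAt_comp_tt (hsm 0).1 α q).const_mul μ).deriv
  have dR : ∀ q, deriv R q = μ * (deriv (r 0) (tt α q) * α) := fun q =>
    ((hasDerivAt_comp_tt (hsm 0).2.1 α q).const_mul μ).deriv
  -- vanishing for large radius
  have far : ∀ m (p : E), 1 / 100 ≤ qq p → w m p = 0 ∧ ∇ (w m) p = 0 ∧ v m p = 0 := by
    intro m p hp
    have ht : T ≤ tt α (qq p) := by unfold tt; rw [hα]; nlinarith
    have hq : 0 < qq p := by linarith
    cases m with
    | zero =>
      obtain ⟨e1, e2, e3⟩ := outer (L := 1 + M ^ 2 / 4) hA hR hq (hR.qb1.trans hp)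
      rw [w_0, v_0, e1, e2, e3, dA, dR]
      simp [hAdef, hRdef, (hTz 0 _ ht).1, (hTz 0 _ ht).2.1, (hTz' 0 _ ht).1, (hTz' 0 _ ht).2.1,
        fr_zero]
    | succ m =>
      rw [w_s, v_s, grad_wm (hsm _).1 (hsm _).2.2.1 hq]
      refine ⟨wm_zero (hTz _ _ ht).1 (hTz _ _ ht).2.2.1, ?_,
        vm_zero (hTz _ _ ht).2.1 (hTz _ _ ht).2.2.2 (hTz' _ _ ht).2.1 (hTz' _ _ ht).2.2.2⟩
      simp [(hTz _ _ ht).1, (hTz _ _ ht).2.2.1, (hTz' _ _ ht).1, (hTz' _ _ ht).2.2.1, fr_zero]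
  have near : ∀ m (p : E), tt α (qq p) ≤ 0 →
      w (m + 1) p = 0 ∧ ∇ (w (m + 1)) p = 0 ∧ v (m + 1) p = 0 := by
    intro m p hp
    rw [w_s, v_s]
    exact ⟨wm_zero (za _ _ hp) (zb _ _ hp),
      grad_wm_of_le hα0 (hsm _).1 (hsm _).2.2.1 (za m) (zb m) hp,
      vm_of_le (hsm _).2.1 (hsm _).2.2.2 (zr m) (zs m) hp⟩
  have hK : 0 ≤ K := by
    have h1 := (abs_nonneg _).trans (split_bound (hkl 0).1 (hbd 0 0).1).1
    simpa using h1
  have hcos : ∀ x, |Real.cos x| ≤ 1 := Real.abs_cos_le_one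
  have hsin : ∀ x, |Real.sin x| ≤ 1 := Real.abs_sin_le_one
  have smooth : ∀ m (p : E), 0 < Real.sin (p 1) ^ 2 + qq p →
      ContDiffAt ℝ ∞ (w m) p ∧ ContDiffAt ℝ ∞ (v m) p ∧ dvg (v m) p = 0 := by
    intro m p hp
    cases m with
    | zero =>
      have := R2_pos hA hp
      rw [w_0, v_0]
      exact ⟨contDiffAt_w0 hA hR this, contDiffAt_v0 hA hR this, dvg_v0 hA hR this⟩
    | succ m =>
      rw [w_s, v_s]
      exact ⟨contDiffAt_wm hα0 (hsm _).1 (hsm _).2.2.1 (za m) (zb m) p,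
        contDiffAt_vm hα0 (hsm _).2.1 (hsm _).2.2.2 (zr m) (zs m) (hkl _).1 (hkl _).2 p⟩
  have inn : ∀ p : E, qq p ≤ qb → ∑' m, ∇ (w m) p = ∇ (w 0) p ∧ ∑' m, v m p = v 0 p := by
    intro p hp
    have ht : tt α (qq p) ≤ 0 := by unfold tt; nlinarith
    constructor <;> refine tsum_eq_single 0 fun m hm => ?_ <;>
      obtain ⟨m, rfl⟩ := Nat.exists_eq_succ_of_ne_zero hm
    exacts [(near m p ht).2.1, (near m p ht).2.2]
  have out : ∀ p : E, qb ≤ qq p → ‖∑' m, ∇ (w m) p‖ ^ 2 + ‖∑' m, v m p‖ ^ 2 ≤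
      ((400 + 4 * α ^ 2) * Λ / (2 * α)) * ⟪∑' m, ∇ (w m) p, ∑' m, v m p⟫ := by
    intro p hp
    rcases le_total (1 / 100) (qq p) with h1 | h1
    · simp [fun m => (far m p h1).2.1, fun m => (far m p h1).2.2]
    have hq : 0 < qq p := by linarith
    obtain ⟨ϑ, hϑ⟩ := exists_angle hq
    obtain ⟨-, e2, e3⟩ := outer (L := 1 + M ^ 2 / 4) hA hR hq hp
    set t := tt α (qq p) with ht
    have B1 := fun m => split_bound (hkl m).1 (hbd m t).1
    have B2 := fun m => split_bound (hkl m).2 (hbd m t).2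
    have S1 : Summable fun m => deriv (a m) t * Real.cos (k m * p 1) :=
      summable_of_le fun m => abs_mul_le_of (hcos _) (B1 m).2.2.1
    have S2 : Summable fun m => deriv (b m) t * Real.cos (l m * ϑ) :=
      summable_of_le fun m => abs_mul_le_of (hcos _) (B2 m).2.2.1
    have S3 : Summable fun m => -(k m * a m t * Real.sin (k m * p 1)) :=
      (summable_of_le fun m => abs_mul_le_of (hsin _) (B1 m).2.1).neg
    have S4 : Summable fun m => -(l m * b m t * Real.sin (l m * ϑ)) :=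
      (summable_of_le fun m => abs_mul_le_of (hsin _) (B2 m).2.1).neg
    have S5 : Summable fun m => r m t * Real.cos (k m * p 1) :=
      summable_of_le fun m => abs_mul_le_of (hcos _) (B1 m).2.2.2.1
    have S6 : Summable fun m => s m t * Real.cos (l m * ϑ) :=
      summable_of_le fun m => abs_mul_le_of (hcos _) (B2 m).2.2.2.1
    have S7 : Summable fun m => -(deriv (r m) t / k m * Real.sin (k m * p 1)) :=
      (summable_of_le fun m => abs_mul_le_of (hsin _) (B1 m).2.2.2.2).neg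
    have S8 : Summable fun m => -(deriv (s m) t / l m * Real.sin (l m * ϑ)) :=
      (summable_of_le fun m => abs_mul_le_of (hsin _) (B2 m).2.2.2.2).neg
    have H1 := hasSum_shift (u := fun m => Nat.casesOn m (deriv (a 0) t * Real.cos (k 0 * p 1))
      fun m => deriv (a (m + 1)) t * Real.cos (k (m + 1) * p 1) +
        deriv (b m) t * Real.cos (l m * ϑ)) S1 S2 rfl fun _ => rfl
    have H2 := hasSum_shift0 (u := fun m => Nat.casesOn m 0
      fun m => -(l m * b m t * Real.sin (l m * ϑ))) S4 rfl fun _ => rfl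
    have H3 := hasSum_shift (u := fun m => Nat.casesOn m (r 0 t * Real.cos (k 0 * p 1))
      fun m => r (m + 1) t * Real.cos (k (m + 1) * p 1) + s m t * Real.cos (l m * ϑ))
      S5 S6 rfl fun _ => rfl
    have H4 := hasSum_shift0 (u := fun m => Nat.casesOn m 0
      fun m => -(deriv (s m) t / l m * Real.sin (l m * ϑ))) S8 rfl fun _ => rfl
    have G1 := hasSum_fr p (S3.hasSum.mul_left μ) (H1.mul_left (2 * α * μ))
      ((H2.mul_left μ).mul_right (qq p)⁻¹)
    have G2 := hasSum_fr p (S7.hasSum.mul_left (2 * α * μ)) ((H3.mul_left μ).mul_right (qq p)⁻¹)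
      (H4.mul_left (2 * α * μ))
    have F1 := (tsum_congr (f := fun m => ∇ (w m) p) (fun m => by
      cases m with
      | zero =>
        rw [w_0, e2, dA]
        simp only [hAdef, hk0, Nat.cast_one, one_mul, ← ht]
        congr 1 <;> simp <;> ring
      | succ m =>
        rw [w_s, grad_wm (hsm _).1 (hsm _).2.2.1 hq, (hϑ _).1, (hϑ _).2])).trans G1.tsum_eq
    have F2 := (tsum_congr (f := fun m => v m p) (fun m => by
      cases m with
      | zero =>
        rw [v_0, e3, dR]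
        simp only [hRdef, hk0, Nat.cast_one, one_mul, ← ht]
        congr 1 <;> simp <;> ring
      | succ m =>
        rw [v_s, vm, (hϑ _).1, (hϑ _).2])).trans G2.tsum_eq
    rw [F1, F2]
    refine ellip_fr hα0 (by linarith) (by linarith) (hell t (p 1) ϑ ?_)
    rw [ht]; unfold tt; nlinarith
  refine ⟨1 + M ^ 2 / 4, 1 / 20, (21 + 2 * (2 * α)) * (μ * (2 * K)), w, v, by norm_num,
    fun m p => ?_, fun m p hp => smooth m p (by unfold qq; linarith),
    fun m p hp => ⟨(far m p hp).1, (far m p hp).2.2⟩, fun m p => ?_, fun m p hp => ?_,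
    fun σ p hσ hc _ h2 => ?_, fun ε hε => ?_⟩
  · cases m with
    | zero => rw [w_0, v_0]; exact ⟨w0_per hA p, v0_per hA p⟩
    | succ m => rw [w_s, v_s]; exact ⟨wm_per p, vm_per p⟩
  · have hC0 : 0 ≤ (21 + 2 * (2 * α)) * (μ * (2 * K)) / 2 ^ m := by positivity
    rcases le_total (qq p) (1 / 400) with h1 | h1
    · obtain ⟨e1, e2, e3⟩ := near m p (tt_neg hα0 h1)
      rw [e1, e2, e3]; simpa using hC0
    rcases le_total (1 / 100) (qq p) with h2 | h2
    · obtain ⟨e1, e2, e3⟩ := far (m + 1) p h2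
      rw [e1, e2, e3]; simpa using hC0
    have hq : 0 < qq p := by linarith
    obtain ⟨ϑ, hϑ⟩ := exists_angle hq
    set t := tt α (qq p) with ht
    have hX : 0 ≤ K / 2 ^ m := by positivity
    have hle : K / 2 ^ (m + 1) ≤ K / 2 ^ m :=
      div_le_div_of_nonneg_left hK (by positivity) (pow_le_pow_right₀ one_le_two (Nat.le_succ m))
    have B1 := split_bound (hkl (m + 1)).1 ((hbd (m + 1) t).1.trans hle)
    have B2 := split_bound (hkl m).2 (hbd m t).2
    have one : ∀ x c : ℝ, |c| ≤ 1 → |x| ≤ K / 2 ^ m → |μ * -(x * c)| ≤ μ * (2 * (K / 2 ^ m)) := by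
      intro x c hc hx
      rw [abs_mul, abs_neg, abs_of_pos hμ0]
      exact mul_le_mul_of_nonneg_left ((abs_mul_le_of hc hx).trans (by linarith)) hμ0.le
    have two : ∀ x c y d : ℝ, |c| ≤ 1 → |x| ≤ K / 2 ^ m → |d| ≤ 1 → |y| ≤ K / 2 ^ m →
        |μ * (x * c + y * d)| ≤ μ * (2 * (K / 2 ^ m)) := by
      intro x c y d hc hx hd hy
      rw [abs_mul, abs_of_pos hμ0]
      refine mul_le_mul_of_nonneg_left ((abs_add_le _ _).trans ?_) hμ0.le
      linarith [abs_mul_le_of hc hx, abs_mul_le_of hd hy]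
    have hY : 0 ≤ μ * (2 * (K / 2 ^ m)) := by positivity
    have eC : (21 + 2 * (2 * α)) * (μ * (2 * K)) / 2 ^ m =
        (21 + 2 * (2 * α)) * (μ * (2 * (K / 2 ^ m))) := by ring
    have hαY := mul_nonneg hα0.le hY
    rw [eC, w_s, v_s, grad_wm (hsm _).1 (hsm _).2.2.1 hq, wm, vm, (hϑ _).1, (hϑ _).2, ← ht]
    simp only [mul_assoc (2 * α) μ]
    refine ⟨(two _ _ _ _ (hcos _) B1.1 (hcos _) B2.1).trans (by nlinarith),
      (norm_fr_le h1 (by linarith) (by positivity) (one _ _ (hsin _) B1.2.1)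
        (two _ _ _ _ (hcos _) B1.2.2.1 (hcos _) B2.2.2.1) (one _ _ (hsin _) B2.2.1)).1.trans
        (by nlinarith),
      (norm_fr_le h1 (by linarith) (by positivity) (one _ _ (hsin _) B1.2.2.2.2)
        (two _ _ _ _ (hcos _) B1.2.2.2.1 (hcos _) B2.2.2.2.1)
        (one _ _ (hsin _) B2.2.2.2.2)).2.trans (by nlinarith)⟩
  · have := near m p (tt_neg hα0 (by unfold qq; linarith))
    exact ⟨this.1, this.2.2⟩
  · rw [w_0, v_0]; exact inner_form hA hR hσ hc h2
  · have hpos : ∀ p : E, 0 < Real.sin (p 1) ^ 2 + qq p → qq p ≤ qb → 0 < ⟪∇ (w 0) p, v 0 p⟫ := by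
      intro p h1 h2
      rw [w_0, v_0]; exact inner_pos hA hR h1 h2
    have pw : ∀ p, ∇ (w 0) (p + per) = ∇ (w 0) p := by
      rw [w_0]; exact grad_add_per (w0_per hA)
    have pv : ∀ p, v 0 (p + per) = v 0 p := by rw [v_0]; exact v0_per hA
    obtain ⟨Λ1, hΛ1⟩ := bound_of_periodic (F := fun p => ‖∇ (w 0) p‖ ^ 2 + ‖v 0 p‖ ^ 2)
      (G := fun p => ⟪∇ (w 0) p, v 0 p⟫) (q1 := qb) (fun p => by simp only [pw, pv])
      (fun p => by simp only [pw, pv]) (fun p hp => by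
        have c1 := (contDiffAt_grad (smooth 0 p hp).1).continuousAt
        have c2 := (smooth 0 p hp).2.1.continuousAt
        exact ⟨(c1.norm.pow 2).add (c2.norm.pow 2), c1.inner c2⟩) hpos hε
    set Λ2 := (400 + 4 * α ^ 2) * Λ / (2 * α)
    have hΛ2 : 0 < Λ2 := by
      have hqb0 : 0 < qb := by positivity
      have e : qq (!₂[√qb, 0, 0] : E) = qb := by simp [qq, Real.sq_sqrt hqb0.le]
      have h1 := out _ e.ge
      rw [(inn _ e.le).1, (inn _ e.le).2] at h1
      have h2 := hpos _ (by rw [e]; positivity) e.le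
      have h3 := real_inner_le_norm (∇ (w 0) !₂[√qb, 0, 0]) (v 0 !₂[√qb, 0, 0])
      by_contra hc
      push Not at hc
      nlinarith [sq_nonneg (‖∇ (w 0) !₂[√qb, 0, 0]‖ - ‖v 0 !₂[√qb, 0, 0]‖)]
    refine ⟨max Λ1 Λ2, le_max_of_le_right hΛ2.le, fun p hp => ?_⟩
    have hp' : ε ≤ Real.sin (p 1) ^ 2 + qq p := by unfold qq; linarith
    rcases le_total (qq p) qb with h | h
    · rw [(inn p h).1, (inn p h).2]
      exact (hΛ1 p hp' h).trans
        (mul_le_mul_of_nonneg_right (le_max_left _ _) (hpos p (hε.trans_le hp') h).le)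
    · have h1 := out p h
      refine h1.trans (mul_le_mul_of_nonneg_right (le_max_right _ _) ?_)
      exact (mul_nonneg_iff_of_pos_left hΛ2).1 (le_trans (by positivity) h1)

end Crest.Agent.R83
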