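import Crest.Agent.R83.FlatFrame

/-!
Row 83, `flat`: the angular profiles.
-/

set_option autoImplicit false

open MeasureTheory Set Filter Topology Metric
open scoped Gradient ContDiff RealInnerProductSpace ENNReal

namespace Crest.Agent.R83.Flat

noncomputable section

lemma exists_kappa : ∃ κ : ℝ → ℝ, ContDiff ℝ ∞ κ ∧ (∀ τ, 0 ≤ κ τ ∧ κ τ ≤ 1) ∧
    (∀ τ, -1 ≤ deriv κ τ ∧ deriv κ τ ≤ 0) ∧ 0 < κ 0 ∧
    (∀ τ, 3 / 4 ≤ τ → κ τ = 0 ∧ deriv κ τ = 0) := by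
  have hab : (0 : ℝ) < 3 / 4 := by norm_num
  obtain ⟨C, hC⟩ := exists_deriv_step_le hab
  have hC0 : 0 ≤ C := (deriv_step_nonneg hab 0).trans (hC 0)
  set e : ℝ := (C + 1)⁻¹ with he
  have he0 : 0 < e := by positivity
  have he1 : e * (C + 1) = 1 := inv_mul_cancel₀ (by positivity)
  have hd : ∀ τ, deriv (fun τ => e * (1 - step 0 (3 / 4) τ)) τ = -(e * deriv (step 0 (3 / 4)) τ) :=
    fun τ => by
      have := ((step_hasDerivAt 0 (3 / 4) τ).const_sub 1).const_mul e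
      rw [this.deriv]; ring
  refine ⟨fun τ => e * (1 - step 0 (3 / 4) τ),
    contDiff_const.mul (contDiff_const.sub (step_contDiff _ _)), fun τ => ?_, fun τ => ?_, ?_,
    fun τ hτ => ?_⟩
  · have h1 := step_nonneg 0 (3 / 4) τ
    have h2 := step_le_one 0 (3 / 4) τ
    constructor <;> nlinarith
  · rw [hd]
    have h1 := deriv_step_nonneg hab τ
    have h2 := hC τ
    constructor <;> nlinarith
  · simp only [step_of_le hab le_rfl]; linarith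
  · rw [hd, deriv_step_eq_zero hab (Or.inr hτ)]
    simp only [step_of_ge hab hτ]
    constructor <;> ring

structure Ang (mi P1 P2 : ℝ → ℝ) (M : ℝ) : Prop where
  smi : ContDiff ℝ ∞ mi
  sP1 : ContDiff ℝ ∞ P1
  pmi : ∀ φ, mi (φ + 2 * Real.pi) = mi φ
  pP1 : ∀ φ, P1 (φ + 2 * Real.pi) = P1 φ
  dσ : ∀ φ, HasDerivAt (fun φ => Real.sin φ * mi φ) (Real.cos φ * P1 φ) φ
  dβ : ∀ φ, HasDerivAt (fun φ => Real.cos φ * mi φ) (-(Real.sin φ * P2 φ)) φ
  lo : ∀ φ, 1 / 2 ≤ mi φ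
  hi : ∀ φ, mi φ ≤ M
  P1pos : ∀ φ, 0 < P1 φ
  P2nn : ∀ φ, 0 ≤ P2 φ
  P2pos : ∀ φ, Real.cos φ = 0 → 0 < P2 φ
  loc : ∀ φ, 3 / 4 ≤ Real.cos φ ^ 2 → mi φ = |Real.cos φ|⁻¹ ∧ P1 φ = |Real.cos φ|⁻¹ ^ 3

lemma exists_ang : ∃ (mi P1 P2 : ℝ → ℝ) (M : ℝ), Ang mi P1 P2 M := by
  obtain ⟨κ, hs, hb, hd, h0, hl⟩ := exists_kappa
  have hdiff : Differentiable ℝ κ := hs.differentiable (by simp)
  have hs' : ContDiff ℝ ∞ (deriv κ) := (contDiff_infty_iff_deriv.1 hs).2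
  have hmono : Monotone (fun τ => τ + κ τ) := by
    refine monotone_of_deriv_nonneg (differentiable_id.add hdiff) fun τ => ?_
    have := ((hasDerivAt_id' τ).fun_add (hdiff τ).hasDerivAt).deriv
    rw [this]; linarith [(hd τ).1]
  set u : ℝ → ℝ := fun φ => Real.cos φ ^ 2 + κ (Real.cos φ ^ 2) with hu
  have hu0 : ∀ φ, κ 0 ≤ u φ := fun φ => by
    have := hmono (sq_nonneg (Real.cos φ))
    simpa using this
  have hupos : ∀ φ, 0 < u φ := fun φ => h0.trans_le (hu0 φ)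
  have hu2 : ∀ φ, u φ ≤ 2 := fun φ => by
    have := Real.cos_sq_le_one φ
    have := (hb (Real.cos φ ^ 2)).2
    simp only [hu]; linarith
  have hc2 : ContDiff ℝ ∞ (fun φ => Real.cos φ ^ 2) := Real.contDiff_cos.pow 2
  have hus : ContDiff ℝ ∞ u := hc2.add (hs.comp hc2)
  set mi : ℝ → ℝ := fun φ => (√(u φ))⁻¹ with hmi
  have hmis : ContDiff ℝ ∞ mi :=
    (hus.sqrt fun φ => (hupos φ).ne').inv fun φ => (Real.sqrt_pos.2 (hupos φ)).ne'
  have hmipos : ∀ φ, 0 < mi φ := fun φ => inv_pos.2 (Real.sqrt_pos.2 (hupos φ))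
  have hmi2 : ∀ φ, mi φ ^ 2 * u φ = 1 := fun φ => by
    simp only [hmi]
    rw [inv_pow, Real.sq_sqrt (hupos φ).le, inv_mul_cancel₀ (hupos φ).ne']
  have hdmi : ∀ φ, HasDerivAt mi
      ((1 + deriv κ (Real.cos φ ^ 2)) * mi φ ^ 3 * Real.cos φ * Real.sin φ) φ := fun φ => by
    have h1 : HasDerivAt (fun φ => Real.cos φ ^ 2) (-(2 * Real.cos φ * Real.sin φ)) φ :=
      ((Real.hasDerivAt_cos φ).fun_pow 2).congr_deriv (by simp)
    have h2 : HasDerivAt u (-(2 * Real.cos φ * Real.sin φ) +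
        deriv κ (Real.cos φ ^ 2) * -(2 * Real.cos φ * Real.sin φ)) φ :=
      h1.fun_add ((hdiff _).hasDerivAt.comp φ h1)
    exact ((hasDerivAt_isq (hupos φ)).comp φ h2).congr_deriv (by simp only [hmi]; ring)
  refine ⟨mi, fun φ => mi φ + Real.sin φ ^ 2 * (1 + deriv κ (Real.cos φ ^ 2)) * mi φ ^ 3,
    fun φ => mi φ - Real.cos φ ^ 2 * (1 + deriv κ (Real.cos φ ^ 2)) * mi φ ^ 3, (√(κ 0))⁻¹,
    hmis, hmis.add (((Real.contDiff_sin.pow 2).mul (contDiff_const.add (hs'.comp hc2))).mul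
      (hmis.pow 3)), fun φ => ?_, fun φ => ?_, fun φ => ?_, fun φ => ?_, fun φ => ?_,
    fun φ => ?_, fun φ => ?_, fun φ => ?_, fun φ hφ => ?_, fun φ hφ => ?_⟩
  · simp only [hmi, hu, Real.cos_add_two_pi]
  · simp only [hmi, hu, Real.cos_add_two_pi, Real.sin_add_two_pi]
  · exact ((Real.hasDerivAt_sin φ).fun_mul (hdmi φ)).congr_deriv (by ring)
  · exact ((Real.hasDerivAt_cos φ).fun_mul (hdmi φ)).congr_deriv (by ring)
  · have h1 := hmi2 φ
    have h2 := hmipos φ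
    have h3 := hu2 φ
    by_contra hc
    push Not at hc
    have : mi φ ^ 2 < 1 / 4 := by nlinarith
    nlinarith [hupos φ]
  · exact inv_anti₀ (Real.sqrt_pos.2 h0) (Real.sqrt_le_sqrt (hu0 φ))
  · have h1 := hmipos φ
    have h2 : 0 ≤ 1 + deriv κ (Real.cos φ ^ 2) := by linarith [(hd (Real.cos φ ^ 2)).1]
    positivity
  · have h1 := hmipos φ
    have h2 := hmi2 φ
    have h3 : mi φ - Real.cos φ ^ 2 * (1 + deriv κ (Real.cos φ ^ 2)) * mi φ ^ 3 =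
        mi φ ^ 3 * (κ (Real.cos φ ^ 2) + Real.cos φ ^ 2 * -deriv κ (Real.cos φ ^ 2)) := by
      simp only [hu] at h2
      linear_combination (-mi φ) * h2
    rw [h3]
    have h4 := (hb (Real.cos φ ^ 2)).1
    have h5 : 0 ≤ -deriv κ (Real.cos φ ^ 2) := by linarith [(hd (Real.cos φ ^ 2)).2]
    positivity
  · simp only [hφ]
    simpa using hmipos φ
  · obtain ⟨h1, h2⟩ := hl _ hφ
    have h3 : mi φ = |Real.cos φ|⁻¹ := by
      simp only [hmi, hu, h1, add_zero, Real.sqrt_sq_eq_abs]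
    refine ⟨h3, ?_⟩
    have h4 := hmi2 φ
    simp only [hu, h1, add_zero] at h4
    rw [← h3, h2]
    linear_combination (-mi φ) * h4 + mi φ ^ 3 * Real.sin_sq_add_cos_sq φ

end

end Crest.Agent.R83.Flat
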