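import Crest.Agent.R83.FlatAng

/-!
Row 83, `flat`: the zeroth mode (dipole near the poles, glued to the first cascade mode).
-/

set_option autoImplicit false

open MeasureTheory Set Filter Topology Metric
open scoped Gradient ContDiff RealInnerProductSpace ENNReal

namespace Crest.Agent.R83.Flat

noncomputable section

structure Rad (χ A R : ℝ → ℝ) (qb : ℝ) : Prop where
  sχ : ContDiff ℝ ∞ χ
  sA : ContDiff ℝ ∞ A
  sR : ContDiff ℝ ∞ R
  nn : ∀ q, 0 ≤ χ q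
  le1 : ∀ q, χ q ≤ 1
  dnn : ∀ q, 0 ≤ deriv χ q
  lo : ∀ q, q ≤ 1 / 400 → χ q = 0
  hi : ∀ q, qb ≤ q → χ q = 1
  qb1 : qb ≤ 1 / 100
  sgn : ∀ q, 1 / 400 < q → q ≤ qb → 0 < A q ∧ A q ≤ 1 / 2 ∧ deriv A q < 0 ∧ R q < 0 ∧
    -(1 / 2) ≤ R q ∧ 0 < deriv R q

def R2 (mi : ℝ → ℝ) (p : E) : ℝ := (Real.sin (p 1) * mi (p 1)) ^ 2 + qq p
def rho (mi : ℝ → ℝ) (p : E) : ℝ := (√(R2 mi p))⁻¹
def ell (mi : ℝ → ℝ) (L : ℝ) (p : E) : ℝ := L - Real.log (R2 mi p) / 4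

def w0 (mi χ A : ℝ → ℝ) (L : ℝ) (p : E) : ℝ :=
  (1 - χ (qq p)) * (Real.cos (p 1) * mi (p 1) * ell mi L p) + χ (qq p) * (A (qq p) * Real.cos (p 1))

def B0 (mi χ R : ℝ → ℝ) (p : E) : ℝ :=
  2 * (-(deriv χ (qq p) * (Real.sin (p 1) * mi (p 1) * rho mi p)) -
    (1 - χ (qq p)) * (Real.sin (p 1) * mi (p 1) * rho mi p ^ 3) * (1 / 2) -
    (deriv χ (qq p) * R (qq p) + χ (qq p) * deriv R (qq p)) * Real.sin (p 1))

def H0 (mi P1 χ R : ℝ → ℝ) (p : E) : ℝ :=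
  -((1 - χ (qq p)) * (Real.cos (p 1) * P1 (p 1) * rho mi p ^ 3)) +
    χ (qq p) / qq p * R (qq p) * Real.cos (p 1)

def v0 (mi P1 χ R : ℝ → ℝ) (p : E) : E := fr p (B0 mi χ R p) (H0 mi P1 χ R p) 0

variable {mi P1 P2 χ A R : ℝ → ℝ} {M qb L : ℝ} {p : E}

lemma w0_per (h : Ang mi P1 P2 M) (p : E) : w0 mi χ A L (p + per) = w0 mi χ A L p := by
  simp only [w0, ell, R2, qq_add_per, add_per_one, h.pmi, Real.cos_add_two_pi, Real.sin_add_two_pi]

lemma v0_per (h : Ang mi P1 P2 M) (p : E) : v0 mi P1 χ R (p + per) = v0 mi P1 χ R p := by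
  simp only [v0, B0, H0, rho, R2, qq_add_per, add_per_one, h.pmi, h.pP1, Real.cos_add_two_pi,
    Real.sin_add_two_pi, fr_add_per]

lemma R2_pos (h : Ang mi P1 P2 M) (hp : 0 < Real.sin (p 1) ^ 2 + qq p) : 0 < R2 mi p := by
  have h1 := h.lo (p 1)
  have h2 := qq_nonneg p
  have h3 : 1 / 4 ≤ mi (p 1) ^ 2 := by nlinarith
  unfold R2
  rw [mul_pow]
  nlinarith [sq_nonneg (Real.sin (p 1))]

lemma rho_pos (hp : 0 < R2 mi p) : 0 < rho mi p := inv_pos.2 (Real.sqrt_pos.2 hp)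

lemma rho_sq (hp : 0 < R2 mi p) : rho mi p ^ 2 * R2 mi p = 1 := by
  unfold rho
  rw [inv_pow, Real.sq_sqrt hp.le, inv_mul_cancel₀ hp.ne']

lemma contDiff_phi {f : ℝ → ℝ} (hf : ContDiff ℝ ∞ f) : ContDiff ℝ ∞ (fun x : E => f (x 1)) :=
  hf.comp (contDiff_coord 1)

lemma contDiff_rad {f : ℝ → ℝ} (hf : ContDiff ℝ ∞ f) : ContDiff ℝ ∞ (fun x : E => f (qq x)) :=
  hf.comp contDiff_qq

lemma contDiff_deriv {f : ℝ → ℝ} (hf : ContDiff ℝ ∞ f) : ContDiff ℝ ∞ (deriv f) :=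
  (contDiff_infty_iff_deriv.1 hf).2

lemma hda {f : ℝ → ℝ} (hf : ContDiff ℝ ∞ f) (t : ℝ) : HasDerivAt f (deriv f t) t :=
  (hf.differentiable (by simp) t).hasDerivAt

lemma contDiff_R2 (h : Ang mi P1 P2 M) : ContDiff ℝ ∞ (R2 mi) :=
  (((contDiff_phi Real.contDiff_sin).mul (contDiff_phi h.smi)).pow 2).add contDiff_qq

lemma contDiffAt_rho (h : Ang mi P1 P2 M) (hp : 0 < R2 mi p) : ContDiffAt ℝ ∞ (rho mi) p :=
  ((contDiff_R2 h).contDiffAt.sqrt hp.ne').inv (Real.sqrt_pos.2 hp).ne'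

lemma contDiffAt_ell (h : Ang mi P1 P2 M) (hp : 0 < R2 mi p) : ContDiffAt ℝ ∞ (ell mi L) p :=
  contDiffAt_const.sub (((contDiff_R2 h).contDiffAt.log hp.ne').div_const 4)

lemma Rad.sg (r : Rad χ A R qb) : ContDiff ℝ ∞ (fun q => χ q / q) := by
  rw [contDiff_iff_contDiffAt]
  intro q
  rcases lt_or_ge q (1 / 400) with h | h
  · refine (contDiffAt_const (c := 0)).congr_of_eventuallyEq ?_
    filter_upwards [Iio_mem_nhds h] with t ht
    rw [r.lo t (le_of_lt ht), zero_div]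
  · exact r.sχ.contDiffAt.div contDiffAt_id (by linarith : (0 : ℝ) < q).ne'

lemma Rad.mul_g (r : Rad χ A R qb) (q : ℝ) : q * (χ q / q) = χ q := by
  rcases eq_or_ne q 0 with rfl | h
  · rw [r.lo 0 (by norm_num)]; simp
  · field_simp

lemma Rad.deriv_g (r : Rad χ A R qb) (q : ℝ) :
    χ q / q + q * deriv (fun q => χ q / q) q = deriv χ q := by
  have h := ((hasDerivAt_id' q).fun_mul (hda r.sg q)).deriv
  simp only [r.mul_g] at h
  rw [h]; ring

lemma Rad.dlo (r : Rad χ A R qb) {q : ℝ} (h : q ≤ 1 / 400) : deriv χ q = 0 :=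
  deriv_eq_zero_of_le (r.sχ.differentiable (by simp)) r.lo h

lemma Rad.dhi (r : Rad χ A R qb) {q : ℝ} (h : qb ≤ q) : deriv χ q = 0 :=
  deriv_eq_zero_of_ge (r.sχ.differentiable (by simp)) r.hi h

lemma contDiffAt_w0 (h : Ang mi P1 P2 M) (r : Rad χ A R qb) (hp : 0 < R2 mi p) :
    ContDiffAt ℝ ∞ (w0 mi χ A L) p :=
  ((contDiffAt_const.sub (contDiff_rad r.sχ).contDiffAt).mul
    (((contDiff_phi Real.contDiff_cos).mul (contDiff_phi h.smi)).contDiffAt.mul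
      (contDiffAt_ell h hp))).add
    ((contDiff_rad r.sχ).mul ((contDiff_rad r.sA).mul (contDiff_phi Real.contDiff_cos))).contDiffAt

lemma contDiffAt_v0 (h : Ang mi P1 P2 M) (r : Rad χ A R qb) (hp : 0 < R2 mi p) :
    ContDiffAt ℝ ∞ (v0 mi P1 χ R) p := by
  have hρ := contDiffAt_rho h hp
  have hσ := ((contDiff_phi Real.contDiff_sin).mul (contDiff_phi h.smi)).contDiffAt (x := p)
  have hχ := (contDiff_rad r.sχ).contDiffAt (x := p)
  have hχ' := (contDiff_rad (contDiff_deriv r.sχ)).contDiffAt (x := p)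
  have hR := (contDiff_rad r.sR).contDiffAt (x := p)
  have hR' := (contDiff_rad (contDiff_deriv r.sR)).contDiffAt (x := p)
  have hS := (contDiff_phi Real.contDiff_sin).contDiffAt (x := p)
  have hC := (contDiff_phi Real.contDiff_cos).contDiffAt (x := p)
  refine contDiffAt_fr ?_ ?_ contDiffAt_const
  · exact contDiffAt_const.mul (((hχ'.mul (hσ.mul hρ)).neg.sub
      (((contDiffAt_const.sub hχ).mul (hσ.mul (hρ.pow 3))).mul contDiffAt_const)).sub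
      (((hχ'.mul hR).add (hχ.mul hR')).mul hS))
  · exact ((contDiffAt_const.sub hχ).mul
      ((hC.mul (contDiff_phi h.sP1).contDiffAt).mul (hρ.pow 3))).neg.add
      (((contDiff_rad r.sg).contDiffAt.mul hR).mul hC)

lemma hg_R2 (h : Ang mi P1 P2 M) (p : E) : HG (R2 mi) p
    (2 * (Real.sin (p 1) * mi (p 1)) * (Real.cos (p 1) * P1 (p 1))) 2 0 :=
  ((HG.comp (hasDerivAt_pow 2 _) (HG.phi (h.dσ (p 1)))).add (HG.qq' p)).congr
    (by simp) (by simp) (by simp)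

lemma hg_rho (h : Ang mi P1 P2 M) (hp : 0 < R2 mi p) : HG (rho mi) p
    (-(rho mi p ^ 3 * (Real.sin (p 1) * mi (p 1)) * (Real.cos (p 1) * P1 (p 1))))
    (-rho mi p ^ 3) 0 :=
  (HG.comp (hasDerivAt_isq hp) (hg_R2 h p)).congr (by unfold rho; ring) (by unfold rho; ring)
    (by ring)

lemma hg_rho3 (h : Ang mi P1 P2 M) (hp : 0 < R2 mi p) : HG (fun x => rho mi x ^ 3) p
    (-(3 * rho mi p ^ 5 * (Real.sin (p 1) * mi (p 1)) * (Real.cos (p 1) * P1 (p 1))))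
    (-(3 * rho mi p ^ 5)) 0 :=
  (HG.comp (hasDerivAt_pow 3 _) (hg_rho h hp)).congr (by push_cast; ring) (by push_cast; ring)
    (by ring)

lemma hg_ell (h : Ang mi P1 P2 M) (hp : 0 < R2 mi p) : HG (ell mi L) p
    (-(rho mi p ^ 2 * (Real.sin (p 1) * mi (p 1)) * (Real.cos (p 1) * P1 (p 1)) / 2))
    (-(rho mi p ^ 2 / 2)) 0 := by
  have h1 : (R2 mi p)⁻¹ = rho mi p ^ 2 := (eq_inv_of_mul_eq_one_left (rho_sq hp)).symm
  have h2 : HasDerivAt (fun t => L - Real.log t / 4) (-(rho mi p ^ 2 / 4)) (R2 mi p) := by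
    rw [← h1]
    exact ((Real.hasDerivAt_log hp.ne').div_const 4).const_sub L
  exact (HG.comp h2 (hg_R2 h p)).congr (by ring) (by ring) (by ring)

lemma dvg_v0 (h : Ang mi P1 P2 M) (r : Rad χ A R qb) (hp : 0 < R2 mi p) :
    dvg (v0 mi P1 χ R) p = 0 := by
  have hρ := hg_rho h hp
  have hρ3 := hg_rho3 h hp
  have hσ := HG.phi (h.dσ (p 1))
  have hχ := HG.rad (hda r.sχ (qq p))
  have hχ' := HG.rad (hda (contDiff_deriv r.sχ) (qq p))
  have hR := HG.rad (hda r.sR (qq p))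
  have hR' := HG.rad (hda (contDiff_deriv r.sR) (qq p))
  have hS := HG.phi (Real.hasDerivAt_sin (p 1))
  have hC := HG.phi (Real.hasDerivAt_cos (p 1))
  have hP := HG.phi (hda h.sP1 (p 1))
  have hg := HG.rad (hda r.sg (qq p))
  have hB : HG (B0 mi χ R) p _ _ _ := (((hχ'.mul (hσ.mul hρ)).neg.sub
      ((((HG.const 1 p).sub hχ).mul (hσ.mul hρ3)).mul (HG.const (1 / 2) p))).sub
      (((hχ'.mul hR).add (hχ.mul hR')).mul hS)).const_mul 2
  have hH : HG (H0 mi P1 χ R) p _ _ _ := (((HG.const 1 p).sub hχ).mul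
      ((hC.mul hP).mul hρ3)).neg.add ((hg.mul hR).mul hC)
  have := dvg_fr hB hH (HG.const 0 p)
  unfold v0
  rw [this]
  have e1 := rho_sq hp
  have e2 := r.mul_g (qq p)
  have e3 := r.deriv_g (qq p)
  unfold R2 at e1
  unfold H0
  linear_combination
    (3 * (1 - χ (qq p)) * (Real.cos (p 1) * P1 (p 1)) * rho mi p ^ 3) * e1 +
    (2 * deriv χ (qq p) * (Real.cos (p 1) * P1 (p 1)) * rho mi p) * e1 +
    (2 * deriv R (qq p) * Real.cos (p 1)) * e2 + (2 * R (qq p) * Real.cos (p 1)) * e3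

lemma grad_w0 (h : Ang mi P1 P2 M) (r : Rad χ A R qb) (hp : 0 < R2 mi p) :
    ∇ (w0 mi χ A L) p = fr p
      (Real.sin (p 1) * ((1 - χ (qq p)) * -(P2 (p 1) * ell mi L p +
        Real.cos (p 1) ^ 2 * mi (p 1) ^ 2 * P1 (p 1) * rho mi p ^ 2 / 2) + χ (qq p) * -A (qq p)))
      (2 * Real.cos (p 1) * ((1 - χ (qq p)) * -(mi (p 1) * rho mi p ^ 2 / 4) +
        χ (qq p) * deriv A (qq p) + deriv χ (qq p) * (A (qq p) - mi (p 1) * ell mi L p))) 0 := by
  have hχ := HG.rad (hda r.sχ (qq p))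
  have hA := HG.rad (hda r.sA (qq p))
  have hC := HG.phi (Real.hasDerivAt_cos (p 1))
  have hβ := HG.phi (h.dβ (p 1))
  have hw : HG (w0 mi χ A L) p _ _ _ := (((HG.const 1 p).sub hχ).mul (hβ.mul (hg_ell h hp))).add
    (hχ.mul (hA.mul hC))
  exact (hw.congr (by ring) (by ring) (by ring)).grad

lemma v0_eq (p : E) : v0 mi P1 χ R p = fr p
    (2 * Real.sin (p 1) * ((1 - χ (qq p)) * -(mi (p 1) * rho mi p ^ 3 / 2) +
      χ (qq p) * -deriv R (qq p) + deriv χ (qq p) * (-R (qq p) - mi (p 1) * rho mi p)))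
    (Real.cos (p 1) * -((1 - χ (qq p)) * (P1 (p 1) * rho mi p ^ 3) +
      χ (qq p) / qq p * -R (qq p))) 0 := by
  unfold v0 B0 H0
  congr 1 <;> ring

lemma conv_neg {c a b : ℝ} (h0 : 0 ≤ c) (h1 : c ≤ 1) (ha : a < 0) (hb : b < 0) :
    (1 - c) * a + c * b < 0 := by
  rcases le_total a b with h | h <;> nlinarith

lemma inner_pos (h : Ang mi P1 P2 M) (r : Rad χ A R qb) (hp : 0 < Real.sin (p 1) ^ 2 + qq p)
    (hq : qq p ≤ qb) : 0 < ⟪∇ (w0 mi χ A (1 + M ^ 2 / 4)) p, v0 mi P1 χ R p⟫ := by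
  have hR := R2_pos h hp
  rw [grad_w0 h r hR, v0_eq, inner_fr]
  have hρ := rho_pos hR
  have hρ2 := rho_sq hR
  have hm := h.lo (p 1)
  have hM := h.hi (p 1)
  have hP1 := h.P1pos (p 1)
  have hP2 := h.P2nn (p 1)
  have hq0 := qq_nonneg p
  have hq1 : qq p ≤ 1 / 100 := hq.trans r.qb1
  have hsc := Real.sin_sq_add_cos_sq (p 1)
  have hS1 := Real.sin_sq_le_one (p 1)
  have hm2 : 1 / 4 ≤ mi (p 1) ^ 2 := by nlinarith
  have hR4 : R2 mi p ≤ mi (p 1) ^ 2 + qq p := by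
    unfold R2; rw [mul_pow]; nlinarith
  have hl : 1 ≤ ell mi (1 + M ^ 2 / 4) p := by
    have h1 := Real.log_le_sub_one_of_pos hR
    have h2 : mi (p 1) ^ 2 ≤ M ^ 2 := pow_le_pow_left₀ (by linarith) hM 2
    unfold ell; linarith
  have hmρ : 1 / 2 ≤ mi (p 1) * rho mi p := by
    have h1 : rho mi p ^ 2 * R2 mi p ≤ rho mi p ^ 2 * (4 * mi (p 1) ^ 2) :=
      mul_le_mul_of_nonneg_left (by linarith) (sq_nonneg _)
    have h2 : 0 < mi (p 1) * rho mi p := by positivity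
    by_contra hc
    push Not at hc
    nlinarith
  generalize ell mi (1 + M ^ 2 / 4) p = l at hl
  have hm0 : 0 < mi (p 1) := by linarith
  have hU1 : -(P2 (p 1) * l + Real.cos (p 1) ^ 2 * mi (p 1) ^ 2 * P1 (p 1) * rho mi p ^ 2 / 2)
      < 0 := by
    rw [neg_lt_zero]
    rcases eq_or_ne (Real.cos (p 1)) 0 with hc | hc
    · have := h.P2pos _ hc
      positivity
    · positivity
  have hX1 : -(mi (p 1) * rho mi p ^ 2 / 4) < 0 := by rw [neg_lt_zero]; positivity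
  have hV1 : -(mi (p 1) * rho mi p ^ 3 / 2) < 0 := by rw [neg_lt_zero]; positivity
  have hY1 : 0 < P1 (p 1) * rho mi p ^ 3 := by positivity
  have key : ∀ U X V Y : ℝ, U < 0 → X < 0 → V < 0 → 0 < Y →
      0 < Real.sin (p 1) * U * (2 * Real.sin (p 1) * V) +
        (2 * Real.cos (p 1) * X * (Real.cos (p 1) * -Y) + 0 * 0) * qq p := by
    intro U X V Y hU hX hV hY
    have h1 : 0 < U * V := mul_pos_of_neg_of_neg hU hV
    have h2 : 0 < -X * Y := mul_pos (by linarith) hY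
    have e : Real.sin (p 1) * U * (2 * Real.sin (p 1) * V) +
        (2 * Real.cos (p 1) * X * (Real.cos (p 1) * -Y) + 0 * 0) * qq p =
        2 * (Real.sin (p 1) ^ 2 * (U * V) + Real.cos (p 1) ^ 2 * qq p * (-X * Y)) := by ring
    rw [e]
    rcases eq_or_ne (Real.sin (p 1)) 0 with hs | hs
    · have h3 : Real.cos (p 1) ^ 2 = 1 := by rw [hs] at hsc; linarith
      have h4 : 0 < qq p := by rw [hs] at hp; linarith
      rw [h3]; positivity
    · positivity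
  rcases le_or_gt (qq p) (1 / 400) with hlo | hlo
  · rw [r.lo _ hlo, r.dlo hlo, zero_div]
    apply key <;> linarith
  · obtain ⟨s1, s2, s3, s4, s5, s6⟩ := r.sgn _ hlo hq
    have c0 := r.nn (qq p)
    have c1 := r.le1 (qq p)
    have cd := r.dnn (qq p)
    apply key
    · exact conv_neg c0 c1 hU1 (by linarith)
    · have h1 := conv_neg c0 c1 hX1 s3
      have h2 : A (qq p) - mi (p 1) * l ≤ 0 := by nlinarith
      nlinarith [mul_nonneg cd (neg_nonneg.2 h2)]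
    · have h1 := conv_neg c0 c1 hV1 (by linarith : -deriv R (qq p) < 0)
      have h2 : -R (qq p) - mi (p 1) * rho mi p ≤ 0 := by linarith
      nlinarith [mul_nonneg cd (neg_nonneg.2 h2)]
    · have h0 : 0 < qq p := by linarith
      have h2 : -(-R (qq p) / qq p) < 0 := by
        rw [neg_lt_zero]; exact div_pos (by linarith) h0
      have h1 := conv_neg c0 c1 (neg_lt_zero.2 hY1) h2
      have e : χ (qq p) / qq p * -R (qq p) = χ (qq p) * (-R (qq p) / qq p) := by ring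
      rw [e]; linarith

lemma outer (h : Ang mi P1 P2 M) (r : Rad χ A R qb) (hq0 : 0 < qq p) (hq : qb ≤ qq p) :
    w0 mi χ A L p = A (qq p) * Real.cos (p 1) ∧
    ∇ (w0 mi χ A L) p =
      fr p (-(A (qq p) * Real.sin (p 1))) (2 * deriv A (qq p) * Real.cos (p 1)) 0 ∧
    v0 mi P1 χ R p =
      fr p (-(2 * deriv R (qq p) * Real.sin (p 1))) (R (qq p) * Real.cos (p 1) / qq p) 0 := by
  have hR : 0 < R2 mi p := R2_pos h (by positivity)
  refine ⟨?_, ?_, ?_⟩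
  · unfold w0; rw [r.hi _ hq]; ring
  · rw [grad_w0 h r hR, r.hi _ hq, r.dhi hq]; congr 1 <;> ring
  · rw [v0_eq, r.hi _ hq, r.dhi hq]; congr 1 <;> ring

lemma inner_form (h : Ang mi P1 P2 M) (r : Rad χ A R qb) {σ : ℝ} (hσ : σ = 1 ∨ σ = -1)
    (hc : 0 < σ * Real.cos (p 1))
    (h2 : p 0 ^ 2 + Real.tan (p 1) ^ 2 + p 2 ^ 2 < (1 / 20) ^ 2) :
    w0 mi χ A L p = σ * (L - Real.log (p 0 ^ 2 + Real.tan (p 1) ^ 2 + p 2 ^ 2) / 4) ∧
    v0 mi P1 χ R p = -(σ / √(p 0 ^ 2 + Real.tan (p 1) ^ 2 + p 2 ^ 2) ^ 3) •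
      !₂[p 0 / Real.cos (p 1) ^ 2, Real.tan (p 1), p 2 / Real.cos (p 1) ^ 2] := by
  have hC : Real.cos (p 1) ≠ 0 := by
    intro h0; rw [h0] at hc; simp at hc
  have hσ2 : σ * σ = 1 := by rcases hσ with rfl | rfl <;> norm_num
  have hq : qq p ≤ 1 / 400 := by unfold qq; nlinarith [sq_nonneg (Real.tan (p 1))]
  have ht : Real.tan (p 1) ^ 2 ≤ 1 / 400 := by nlinarith [sq_nonneg (p 0), sq_nonneg (p 2)]
  have h34 : 3 / 4 ≤ Real.cos (p 1) ^ 2 := by
    have h1 := Real.tan_mul_cos hC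
    have h3 := Real.sin_sq_add_cos_sq (p 1)
    rw [← h1, mul_pow] at h3
    nlinarith [Real.cos_sq_le_one (p 1), sq_nonneg (Real.tan (p 1)), sq_nonneg (Real.cos (p 1))]
  have habs : |Real.cos (p 1)|⁻¹ = σ * (Real.cos (p 1))⁻¹ := by
    rcases hσ with rfl | rfl
    · rw [abs_of_pos (by linarith), one_mul]
    · rw [abs_of_neg (by linarith), inv_neg, neg_one_mul]
  obtain ⟨e1, e2⟩ := h.loc _ h34
  rw [habs] at e1 e2
  have eR : R2 mi p = p 0 ^ 2 + Real.tan (p 1) ^ 2 + p 2 ^ 2 := by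
    unfold R2 qq
    rw [e1, Real.tan_eq_sin_div_cos]
    field_simp
    linear_combination Real.sin (p 1) ^ 2 * hσ2
  constructor
  · unfold w0 ell
    rw [r.lo _ hq, eR, e1]
    field_simp
    ring
  · rw [v0_eq, r.lo _ hq, r.dlo hq]
    unfold rho
    rw [eR, e1, e2, Real.tan_eq_sin_div_cos]
    generalize √(p 0 ^ 2 + (Real.sin (p 1) / Real.cos (p 1)) ^ 2 + p 2 ^ 2) = s
    have hσ3 : σ ^ 3 = σ := by linear_combination σ * hσ2
    apply E_ext <;> simp [mul_pow, hσ3] <;> field_simp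

end

end Crest.Agent.R83.Flat
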