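import Crest.Agent.R83.Basic

/-!
Row 83, `flat`: calculus in the cylindrical frame `e₁ = (0,1,0)`, `N = (y,0,z)`, `Ω = (-z,0,y)`.
-/

set_option autoImplicit false

open MeasureTheory Set Filter Topology Metric
open scoped Gradient ContDiff RealInnerProductSpace ENNReal

namespace Crest.Agent.R83.Flat

noncomputable section

def qq (p : E) : ℝ := p 0 ^ 2 + p 2 ^ 2

/-- `a e₁ + b N + c Ω` -/
def fr (p : E) (a b c : ℝ) : E := !₂[b * p 0 - c * p 2, a, b * p 2 + c * p 0]

@[simp] lemma fr_zero' (p : E) (a b c : ℝ) : fr p a b c 0 = b * p 0 - c * p 2 := rfl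
@[simp] lemma fr_one' (p : E) (a b c : ℝ) : fr p a b c 1 = a := rfl
@[simp] lemma fr_two' (p : E) (a b c : ℝ) : fr p a b c 2 = b * p 2 + c * p 0 := rfl

lemma qq_nonneg (p : E) : 0 ≤ qq p := by unfold qq; positivity

lemma E_ext {x y : E} (h0 : x 0 = y 0) (h1 : x 1 = y 1) (h2 : x 2 = y 2) : x = y := by
  ext i; fin_cases i
  exacts [h0, h1, h2]

lemma fr_zero (p : E) : fr p 0 0 0 = 0 := by
  apply E_ext <;> simp

lemma fr_eq (p : E) (a b c : ℝ) :
    fr p a b c = a • fr p 1 0 0 + b • fr p 0 1 0 + c • fr p 0 0 1 := by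
  apply E_ext <;> simp
  ring

lemma inner_fr (p : E) (a b c a' b' c' : ℝ) :
    ⟪fr p a b c, fr p a' b' c'⟫ = a * a' + (b * b' + c * c') * qq p := by
  rw [inner_eq_three]; simp only [fr_zero', fr_one', fr_two', qq]; ring

lemma norm_sq_fr (p : E) (a b c : ℝ) :
    ‖fr p a b c‖ ^ 2 = a ^ 2 + (b ^ 2 + c ^ 2) * qq p := by
  rw [norm_sq_eq_three]; simp only [fr_zero', fr_one', fr_two', qq]; ring

lemma hasSum_fr (p : E) {a b c : ℕ → ℝ} {A B C : ℝ} (ha : HasSum a A) (hb : HasSum b B)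
    (hc : HasSum c C) : HasSum (fun m => fr p (a m) (b m) (c m)) (fr p A B C) := by
  have := ((ha.smul_const (fr p 1 0 0)).add (hb.smul_const (fr p 0 1 0))).add
    (hc.smul_const (fr p 0 0 1))
  simpa only [← fr_eq] using this

lemma contDiff_coord (i : Fin 3) : ContDiff ℝ ∞ (fun p : E => p i) :=
  (EuclideanSpace.proj (𝕜 := ℝ) i : E →L[ℝ] ℝ).contDiff

lemma contDiff_qq : ContDiff ℝ ∞ qq :=
  ((contDiff_coord 0).pow 2).add ((contDiff_coord 2).pow 2)

lemma contDiffAt_fr {a b c : E → ℝ} {p : E} (ha : ContDiffAt ℝ ∞ a p) (hb : ContDiffAt ℝ ∞ b p)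
    (hc : ContDiffAt ℝ ∞ c p) : ContDiffAt ℝ ∞ (fun x => fr x (a x) (b x) (c x)) p := by
  rw [contDiffAt_euclidean]
  intro i
  fin_cases i
  · exact (hb.mul (contDiff_coord 0).contDiffAt).sub (hc.mul (contDiff_coord 2).contDiffAt)
  · exact ha
  · exact (hb.mul (contDiff_coord 2).contDiffAt).add (hc.mul (contDiff_coord 0).contDiffAt)

/-- `f` has gradient `a e₁ + b N + c Ω` at `p` -/
structure HG (f : E → ℝ) (p : E) (a b c : ℝ) : Prop where
  diff : DifferentiableAt ℝ f p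
  grad : ∇ f p = fr p a b c

namespace HG

variable {f g : E → ℝ} {p : E} {a b c a' b' c' : ℝ}

lemma const (k : ℝ) (p : E) : HG (fun _ => k) p 0 0 0 :=
  ⟨differentiableAt_const k, by rw [fr_zero]; simp⟩

lemma add (h : HG f p a b c) (h' : HG g p a' b' c') :
    HG (fun x => f x + g x) p (a + a') (b + b') (c + c') :=
  ⟨h.diff.add h'.diff, by
    rw [grad_add h.diff h'.diff, h.grad, h'.grad]
    apply E_ext <;> simp <;> ring⟩

lemma sub (h : HG f p a b c) (h' : HG g p a' b' c') :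
    HG (fun x => f x - g x) p (a - a') (b - b') (c - c') :=
  ⟨h.diff.sub h'.diff, by
    rw [grad_sub h.diff h'.diff, h.grad, h'.grad]
    apply E_ext <;> simp <;> ring⟩

lemma mul (h : HG f p a b c) (h' : HG g p a' b' c') :
    HG (fun x => f x * g x) p (f p * a' + g p * a) (f p * b' + g p * b) (f p * c' + g p * c) :=
  ⟨h.diff.mul h'.diff, by
    rw [grad_mul h.diff h'.diff, h.grad, h'.grad]
    apply E_ext <;> simp <;> ring⟩

lemma const_mul (k : ℝ) (h : HG f p a b c) :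
    HG (fun x => k * f x) p (k * a) (k * b) (k * c) :=
  ⟨h.diff.const_mul k, by
    rw [grad_const_mul, h.grad]
    apply E_ext <;> simp <;> ring⟩

lemma neg (h : HG f p a b c) : HG (fun x => -f x) p (-a) (-b) (-c) :=
  ⟨h.diff.neg, by
    rw [grad_neg, h.grad]
    apply E_ext <;> simp <;> ring⟩

lemma comp {β : ℝ → ℝ} {β' : ℝ} (hβ : HasDerivAt β β' (f p)) (h : HG f p a b c) :
    HG (fun x => β (f x)) p (β' * a) (β' * b) (β' * c) :=
  ⟨hβ.differentiableAt.comp p h.diff, by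
    rw [grad_comp hβ h.diff, h.grad]
    apply E_ext <;> simp <;> ring⟩

lemma congr (h : HG f p a b c) (ha : a = a') (hb : b = b') (hc : c = c') : HG f p a' b' c' := by
  subst ha hb hc; exact h

lemma coord1 (p : E) : HG (fun x => x 1) p 1 0 0 :=
  ⟨(contDiff_coord 1).differentiable (by simp) p, by
    rw [grad_coord]
    apply E_ext <;> simp⟩

lemma qq' (p : E) : HG qq p 0 2 0 := by
  have h0 := (contDiff_coord 0).differentiable (by simp) p
  have h2 := (contDiff_coord 2).differentiable (by simp) p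
  refine ⟨contDiff_qq.differentiable (by simp) p, ?_⟩
  have : qq = fun x : E => x 0 * x 0 + x 2 * x 2 := by funext x; simp [qq, sq]
  rw [this, grad_add (h0.fun_mul h0) (h2.fun_mul h2), grad_mul h0 h0, grad_mul h2 h2, grad_coord,
    grad_coord]
  apply E_ext <;> simp <;> ring

lemma phi {β : ℝ → ℝ} {β' : ℝ} (hβ : HasDerivAt β β' (p 1)) :
    HG (fun x => β (x 1)) p β' 0 0 :=
  (comp (f := fun x => x 1) hβ (coord1 p)).congr (by ring) (by ring) (by ring)

lemma rad {β : ℝ → ℝ} {β' : ℝ} (hβ : HasDerivAt β β' (qq p)) :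
    HG (fun x => β (qq x)) p 0 (2 * β') 0 :=
  (comp (f := qq) hβ (qq' p)).congr (by ring) (by ring) (by ring)

end HG

lemma dvg_fr {A B D : E → ℝ} {p : E} {a1 b1 c1 a2 b2 c2 a3 b3 c3 : ℝ} (hA : HG A p a1 b1 c1)
    (hB : HG B p a2 b2 c2) (hD : HG D p a3 b3 c3) :
    dvg (fun x => fr x (A x) (B x) (D x)) p = a1 + 2 * B p + (b2 + c3) * qq p := by
  have h0 := (contDiff_coord 0).differentiable (by simp) p
  have h2 := (contDiff_coord 2).differentiable (by simp) p
  have hd : DifferentiableAt ℝ (fun x => fr x (A x) (B x) (D x)) p := by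
    rw [differentiableAt_euclidean]
    intro i
    fin_cases i
    · exact (hB.diff.mul h0).sub (hD.diff.mul h2)
    · exact hA.diff
    · exact (hB.diff.mul h2).add (hD.diff.mul h0)
  rw [dvg_eq_sum_grad hd, Fin.sum_univ_three]
  simp only [fr_zero', fr_one', fr_two']
  rw [grad_sub (hB.diff.fun_mul h0) (hD.diff.fun_mul h2),
    grad_add (hB.diff.fun_mul h2) (hD.diff.fun_mul h0),
    grad_mul hB.diff h0, grad_mul hD.diff h2, grad_mul hB.diff h2, grad_mul hD.diff h0,
    grad_coord, grad_coord, show ∇ (fun y => A y) p = _ from hA.grad, hB.grad, hD.grad]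
  simp [qq]
  ring

/-! ### the angular harmonics -/

def cs : ℕ → E → ℝ × ℝ
  | 0, _ => (1, 0)
  | l + 1, p => ((cs l p).1 * (p 0 * (√(qq p))⁻¹) - (cs l p).2 * (p 2 * (√(qq p))⁻¹),
      (cs l p).2 * (p 0 * (√(qq p))⁻¹) + (cs l p).1 * (p 2 * (√(qq p))⁻¹))

def cl (l : ℕ) (p : E) : ℝ := (cs l p).1
def sl (l : ℕ) (p : E) : ℝ := (cs l p).2

lemma cl_succ (l : ℕ) : cl (l + 1) =
    fun p => cl l p * (p 0 * (√(qq p))⁻¹) - sl l p * (p 2 * (√(qq p))⁻¹) := rfl

lemma sl_succ (l : ℕ) : sl (l + 1) =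
    fun p => sl l p * (p 0 * (√(qq p))⁻¹) + cl l p * (p 2 * (√(qq p))⁻¹) := rfl

lemma contDiffAt_isq {p : E} (hp : 0 < qq p) : ContDiffAt ℝ ∞ (fun x => (√(qq x))⁻¹) p :=
  (contDiff_qq.contDiffAt.sqrt hp.ne').inv (Real.sqrt_pos.2 hp).ne'

lemma contDiffAt_cs {p : E} (hp : 0 < qq p) (l : ℕ) :
    ContDiffAt ℝ ∞ (cl l) p ∧ ContDiffAt ℝ ∞ (sl l) p := by
  have h0 := (contDiff_coord 0).contDiffAt.mul (contDiffAt_isq hp)
  have h2 := (contDiff_coord 2).contDiffAt.mul (contDiffAt_isq hp)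
  induction l with
  | zero => exact ⟨contDiffAt_const (c := 1), contDiffAt_const (c := 0)⟩
  | succ l ih =>
    rw [cl_succ, sl_succ]
    exact ⟨(ih.1.mul h0).sub (ih.2.mul h2), (ih.2.mul h0).add (ih.1.mul h2)⟩

lemma hasDerivAt_isq {u : ℝ} (hu : 0 < u) :
    HasDerivAt (fun t => (√t)⁻¹) (-((√u)⁻¹) ^ 3 / 2) u := by
  have hs : 0 < √u := Real.sqrt_pos.2 hu
  have := (Real.hasDerivAt_sqrt hu.ne').fun_inv hs.ne'
  refine this.congr_deriv ?_
  field_simp

lemma hg_c1 {p : E} (hp : 0 < qq p) :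
    HG (fun x => x 0 * (√(qq x))⁻¹) p 0 0 (-(p 2 * (√(qq p))⁻¹) / qq p) ∧
    HG (fun x => x 2 * (√(qq x))⁻¹) p 0 0 ((p 0 * (√(qq p))⁻¹) / qq p) := by
  have h := HG.rad (hasDerivAt_isq hp)
  have h0 := (contDiff_coord 0).differentiable (by simp) p
  have h2 := (contDiff_coord 2).differentiable (by simp) p
  have hs : 0 < √(qq p) := Real.sqrt_pos.2 hp
  have hq : √(qq p) ^ 2 = p 0 ^ 2 + p 2 ^ 2 := Real.sq_sqrt hp.le
  have hq' : qq p = √(qq p) ^ 2 := (Real.sq_sqrt hp.le).symm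
  generalize hr : √(qq p) = r at hs hq hq' h
  constructor
  · refine ⟨h0.mul h.diff, ?_⟩
    rw [grad_mul h0 h.diff, h.grad, grad_coord, hr, hq']
    apply E_ext <;> simp <;> field_simp
    linear_combination hq
  · refine ⟨h2.mul h.diff, ?_⟩
    rw [grad_mul h2 h.diff, h.grad, grad_coord, hr, hq']
    apply E_ext <;> simp <;> field_simp
    linear_combination hq

lemma hg_cs {p : E} (hp : 0 < qq p) (l : ℕ) :
    HG (cl l) p 0 0 (-(l * sl l p) / qq p) ∧ HG (sl l) p 0 0 (l * cl l p / qq p) := by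
  obtain ⟨h0, h2⟩ := hg_c1 hp
  induction l with
  | zero =>
    exact ⟨(HG.const 1 p).congr rfl rfl (by simp), (HG.const 0 p).congr rfl rfl (by simp)⟩
  | succ l ih =>
    rw [cl_succ, sl_succ]
    refine ⟨((ih.1.mul h0).sub (ih.2.mul h2)).congr (by ring) (by ring) ?_,
      ((ih.2.mul h0).add (ih.1.mul h2)).congr (by ring) (by ring) ?_⟩ <;>
    · push_cast; ring

lemma exists_angle {p : E} (hp : 0 < qq p) :
    ∃ ϑ : ℝ, ∀ l : ℕ, cl l p = Real.cos (l * ϑ) ∧ sl l p = Real.sin (l * ϑ) := by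
  set z : ℂ := ⟨p 0, p 2⟩ with hz
  have hn : ‖z‖ = √(qq p) := by
    rw [Complex.norm_eq_sqrt_sq_add_sq]; rfl
  have hz0 : z ≠ 0 := by
    intro h
    rw [h, norm_zero] at hn
    exact (Real.sqrt_pos.2 hp).ne hn
  have hc : Real.cos (Complex.arg z) = p 0 * (√(qq p))⁻¹ := by
    rw [Complex.cos_arg hz0, hn, div_eq_mul_inv]
  have hs : Real.sin (Complex.arg z) = p 2 * (√(qq p))⁻¹ := by
    rw [Complex.sin_arg, hn, div_eq_mul_inv]
  refine ⟨Complex.arg z, fun l => ?_⟩
  induction l with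
  | zero => simp [cl, sl, cs]
  | succ l ih =>
    rw [cl_succ, sl_succ]
    simp only [ih.1, ih.2, ← hc, ← hs]
    push_cast
    rw [add_mul, one_mul, Real.cos_add, Real.sin_add]
    exact ⟨rfl, rfl⟩

/-! ### periodicity -/

def per : E := EuclideanSpace.single 1 (2 * Real.pi)

@[simp] lemma add_per_zero (p : E) : (p + per) 0 = p 0 := by simp [per]
@[simp] lemma add_per_one (p : E) : (p + per) 1 = p 1 + 2 * Real.pi := by simp [per]
@[simp] lemma add_per_two (p : E) : (p + per) 2 = p 2 := by simp [per]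
@[simp] lemma qq_add_per (p : E) : qq (p + per) = qq p := by
  simp only [qq, add_per_zero, add_per_two]

@[simp] lemma fr_add_per (p : E) (a b c : ℝ) : fr (p + per) a b c = fr p a b c := by
  apply E_ext <;> simp only [fr_zero', fr_one', fr_two', add_per_zero, add_per_two]

lemma cs_add_per (l : ℕ) (p : E) : cs l (p + per) = cs l p := by
  induction l with
  | zero => rfl
  | succ l ih => simp only [cs, ih, add_per_zero, add_per_two, qq_add_per]

@[simp] lemma cl_add_per (l : ℕ) (p : E) : cl l (p + per) = cl l p := by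
  simp only [cl, cs_add_per]

@[simp] lemma sl_add_per (l : ℕ) (p : E) : sl l (p + per) = sl l p := by
  simp only [sl, cs_add_per]

lemma grad_add_per {w : E → ℝ} (h : ∀ p, w (p + per) = w p) (p : E) :
    ∇ w (p + per) = ∇ w p := by
  have : (fun x => w (x + per)) = w := funext h
  unfold gradient
  rw [← fderiv_comp_add_right, this]

lemma bound_of_periodic {F G : E → ℝ} {q1 : ℝ} (hF : ∀ p, F (p + per) = F p)
    (hG : ∀ p, G (p + per) = G p)
    (hc : ∀ p : E, 0 < Real.sin (p 1) ^ 2 + qq p → ContinuousAt F p ∧ ContinuousAt G p)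
    (hpos : ∀ p : E, 0 < Real.sin (p 1) ^ 2 + qq p → qq p ≤ q1 → 0 < G p) {ε : ℝ} (hε : 0 < ε) :
    ∃ Λ : ℝ, ∀ p : E, ε ≤ Real.sin (p 1) ^ 2 + qq p → qq p ≤ q1 → F p ≤ Λ * G p := by
  set K : Set E := {p | 0 ≤ p 1 ∧ p 1 ≤ 2 * Real.pi ∧ qq p ≤ q1 ∧
    ε ≤ Real.sin (p 1) ^ 2 + qq p} with hK
  have c1 := (contDiff_coord 1).continuous
  have cq := contDiff_qq.continuous
  have hcl : IsClosed K :=
    (isClosed_le continuous_const c1).inter <| (isClosed_le c1 continuous_const).inter <|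
      (isClosed_le cq continuous_const).inter <|
        isClosed_le continuous_const (((Real.continuous_sin.comp c1).pow 2).add cq)
  have hbd : Bornology.IsBounded K := by
    refine (isBounded_closedBall (x := (0 : E)) (r := √(q1 + (2 * Real.pi) ^ 2))).subset ?_
    rintro p ⟨h1, h2, h3, -⟩
    rw [mem_closedBall, dist_zero_right]
    apply Real.le_sqrt_of_sq_le
    rw [norm_sq_eq_three]
    unfold qq at h3
    nlinarith [pow_le_pow_left₀ h1 h2 2]
  have hcp : IsCompact K := isCompact_of_isClosed_isBounded hcl hbd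
  have hcont : ContinuousOn (fun p => F p / G p) K := fun p hp =>
    (((hc p (hε.trans_le hp.2.2.2)).1.div (hc p (hε.trans_le hp.2.2.2)).2
      (hpos p (hε.trans_le hp.2.2.2) hp.2.2.1).ne')).continuousWithinAt
  obtain ⟨Λ, hΛ⟩ := (hcp.image_of_continuousOn hcont).bddAbove
  refine ⟨Λ, fun p h1 h2 => ?_⟩
  have hπ : 0 < 2 * Real.pi := by positivity
  set n : ℤ := ⌊p 1 / (2 * Real.pi)⌋ with hn
  set p' : E := p - n • per with hp'
  have e0 : p' 0 = p 0 := by simp [hp', per]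
  have e1 : p' 1 = p 1 - n * (2 * Real.pi) := by simp [hp', per]
  have e2 : p' 2 = p 2 := by simp [hp', per]
  have eq : qq p' = qq p := by simp [qq, e0, e2]
  have es : Real.sin (p' 1) = Real.sin (p 1) := by rw [e1, Real.sin_sub_int_mul_two_pi]
  have hmem : p' ∈ K := by
    refine ⟨?_, ?_, by rwa [eq], by rwa [eq, es]⟩
    · have := Int.floor_le (p 1 / (2 * Real.pi))
      rw [le_div_iff₀ hπ] at this
      rw [e1]; linarith
    · have := Int.lt_floor_add_one (p 1 / (2 * Real.pi))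
      rw [div_lt_iff₀ hπ] at this
      rw [e1]; linarith
  have hF' : F p' = F p := (show Function.Periodic F per from hF).sub_zsmul_eq n
  have hG' : G p' = G p := (show Function.Periodic G per from hG).sub_zsmul_eq n
  have := hΛ (mem_image_of_mem _ hmem)
  rw [hF', hG', div_le_iff₀ (hpos p (hε.trans_le h1) h2)] at this
  exact this

/-! ### one-variable helpers -/

lemma deriv_eq_zero_of_ge {f : ℝ → ℝ} {T c t : ℝ} (hf : Differentiable ℝ f)
    (h : ∀ s, T ≤ s → f s = c) (ht : T ≤ t) : deriv f t = 0 := by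
  have h1 : HasDerivWithinAt f (deriv f t) (Ici t) t := (hf t).hasDerivAt.hasDerivWithinAt
  have h2 : HasDerivWithinAt f 0 (Ici t) t :=
    (hasDerivWithinAt_const t (Ici t) c).congr (fun s hs => h s (ht.trans hs)) (h t ht)
  exact (uniqueDiffWithinAt_Ici t).eq_deriv _ h1 h2

lemma deriv_eq_zero_of_le {f : ℝ → ℝ} {T c t : ℝ} (hf : Differentiable ℝ f)
    (h : ∀ s, s ≤ T → f s = c) (ht : t ≤ T) : deriv f t = 0 := by
  have h1 : HasDerivWithinAt f (deriv f t) (Iic t) t := (hf t).hasDerivAt.hasDerivWithinAt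
  have h2 : HasDerivWithinAt f 0 (Iic t) t :=
    (hasDerivWithinAt_const t (Iic t) c).congr (fun s hs => h s (le_trans hs ht)) (h t ht)
  exact (uniqueDiffWithinAt_Iic t).eq_deriv _ h1 h2

lemma hasSum_shift {A B u : ℕ → ℝ} (hA : Summable A) (hB : Summable B) (h0 : u 0 = A 0)
    (hs : ∀ m, u (m + 1) = A (m + 1) + B m) : HasSum u (∑' m, (A m + B m)) := by
  rw [hA.tsum_add hB, ← hasSum_nat_add_iff' 1]
  have h1 := (hasSum_nat_add_iff' 1).2 hA.hasSum
  have h2 := h1.add hB.hasSum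
  simp only [hs, Finset.range_one, Finset.sum_singleton, h0] at h2 ⊢
  convert h2 using 1
  ring

lemma summable_of_le {u : ℕ → ℝ} {C : ℝ} (h : ∀ m, |u m| ≤ C / 2 ^ m) : Summable u := by
  refine Summable.of_norm_bounded (g := fun m => C * (1 / 2) ^ m)
    (summable_geometric_two.mul_left C) fun m => ?_
  rw [Real.norm_eq_abs, one_div, inv_pow, ← div_eq_mul_inv]
  exact h m

end

end Crest.Agent.R83.Flat
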