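import Crest.Agent.R83.FlatCore

/-!
Row 83, `flat`: the cascade modes transplanted to the solid torus.
-/

set_option autoImplicit false

open MeasureTheory Set Filter Topology Metric
open scoped Gradient ContDiff RealInnerProductSpace ENNReal

namespace Crest.Agent.R83.Flat

noncomputable section

def tt (α q : ℝ) : ℝ := α * (q - 1 / 400) - 2

def wm (μ α : ℝ) (a b : ℝ → ℝ) (k l : ℕ) (p : E) : ℝ :=
  μ * (a (tt α (qq p)) * Real.cos (k * p 1) + b (tt α (qq p)) * cl l p)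

def vm (μ α : ℝ) (r s : ℝ → ℝ) (k l : ℕ) (p : E) : E :=
  fr p (2 * α * μ * -(deriv r (tt α (qq p)) / k * Real.sin (k * p 1)))
    (μ * (r (tt α (qq p)) * Real.cos (k * p 1) + s (tt α (qq p)) * cl l p) * (qq p)⁻¹)
    (2 * α * μ * -(deriv s (tt α (qq p)) / l * sl l p))

variable {μ α : ℝ} {a b r s : ℝ → ℝ} {k l : ℕ} {p : E}

lemma contDiff_tt (α : ℝ) : ContDiff ℝ ∞ (tt α) :=
  (contDiff_const.mul (contDiff_id.sub contDiff_const)).sub contDiff_const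

lemma hasDerivAt_tt (α q : ℝ) : HasDerivAt (tt α) α q :=
  ((((hasDerivAt_id' q).sub_const (1 / 400)).const_mul α).sub_const 2).congr_deriv (mul_one α)

lemma hasDerivAt_comp_tt {f : ℝ → ℝ} (hf : ContDiff ℝ ∞ f) (α q : ℝ) :
    HasDerivAt (fun q => f (tt α q)) (deriv f (tt α q) * α) q :=
  (hda hf _).comp q (hasDerivAt_tt α q)

lemma contDiff_ttq {f : ℝ → ℝ} (hf : ContDiff ℝ ∞ f) (α : ℝ) :
    ContDiff ℝ ∞ (fun x : E => f (tt α (qq x))) :=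
  hf.comp ((contDiff_tt α).comp contDiff_qq)

lemma hg_ttq {f : ℝ → ℝ} (hf : ContDiff ℝ ∞ f) (α : ℝ) (p : E) :
    HG (fun x : E => f (tt α (qq x))) p 0 (2 * (deriv f (tt α (qq p)) * α)) 0 :=
  HG.rad (β := fun q => f (tt α q)) (hasDerivAt_comp_tt hf α _)

lemma hg_cos (k : ℕ) (p : E) :
    HG (fun x : E => Real.cos (k * x 1)) p (-(k * Real.sin (k * p 1))) 0 0 :=
  HG.phi (β := fun t => Real.cos (k * t))
    ((((hasDerivAt_id' (p 1)).const_mul (k : ℝ)).cos).congr_deriv (by ring))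

lemma hg_sin (k : ℕ) (p : E) :
    HG (fun x : E => Real.sin (k * x 1)) p (k * Real.cos (k * p 1)) 0 0 :=
  HG.phi (β := fun t => Real.sin (k * t))
    ((((hasDerivAt_id' (p 1)).const_mul (k : ℝ)).sin).congr_deriv (by ring))

lemma contDiff_cosk (k : ℕ) : ContDiff ℝ ∞ (fun x : E => Real.cos (k * x 1)) :=
  Real.contDiff_cos.comp (contDiff_const.mul (contDiff_coord 1))

lemma contDiff_sink (k : ℕ) : ContDiff ℝ ∞ (fun x : E => Real.sin (k * x 1)) :=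
  Real.contDiff_sin.comp (contDiff_const.mul (contDiff_coord 1))

lemma wm_per (p : E) : wm μ α a b k l (p + per) = wm μ α a b k l p := by
  simp only [wm, qq_add_per, add_per_one, cl_add_per, mul_add (k : ℝ),
    Real.cos_add_nat_mul_two_pi]

lemma vm_per (p : E) : vm μ α r s k l (p + per) = vm μ α r s k l p := by
  simp only [vm, qq_add_per, add_per_one, cl_add_per, sl_add_per, mul_add (k : ℝ),
    Real.cos_add_nat_mul_two_pi, Real.sin_add_nat_mul_two_pi, fr_add_per]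

lemma grad_wm (ha : ContDiff ℝ ∞ a) (hb : ContDiff ℝ ∞ b) (hp : 0 < qq p) :
    ∇ (wm μ α a b k l) p = fr p (μ * -(k * a (tt α (qq p)) * Real.sin (k * p 1)))
      (2 * α * μ * (deriv a (tt α (qq p)) * Real.cos (k * p 1) + deriv b (tt α (qq p)) * cl l p))
      (μ * -(l * b (tt α (qq p)) * sl l p) * (qq p)⁻¹) := by
  have h : HG (wm μ α a b k l) p _ _ _ := (((hg_ttq ha α p).mul (hg_cos k p)).add
    ((hg_ttq hb α p).mul (hg_cs hp l).1)).const_mul μ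
  exact (h.congr (by ring) (by ring) (by ring)).grad

lemma wm_zero (ha : a (tt α (qq p)) = 0) (hb : b (tt α (qq p)) = 0) : wm μ α a b k l p = 0 := by
  simp [wm, ha, hb]

lemma vm_zero (hr : r (tt α (qq p)) = 0) (hs : s (tt α (qq p)) = 0)
    (hr' : deriv r (tt α (qq p)) = 0) (hs' : deriv s (tt α (qq p)) = 0) :
    vm μ α r s k l p = 0 := by
  simp [vm, hr, hs, hr', hs', fr_zero]

lemma tt_neg (hα : 0 < α) {q : ℝ} (hq : q ≤ 1 / 400) : tt α q ≤ 0 := by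
  unfold tt; nlinarith

lemma eventually_small (hq : qq p < 1 / 400) : ∀ᶠ x in 𝓝 p, qq x ≤ 1 / 400 :=
  (contDiff_qq.continuous.continuousAt.eventually (Iio_mem_nhds hq)).mono fun _ h => le_of_lt h

lemma wm_eventually (hα : 0 < α) (ha : ∀ t, t ≤ 0 → a t = 0) (hb : ∀ t, t ≤ 0 → b t = 0)
    (hq : qq p < 1 / 400) : ∀ᶠ x in 𝓝 p, wm μ α a b k l x = 0 :=
  (eventually_small hq).mono fun _ h => wm_zero (ha _ (tt_neg hα h)) (hb _ (tt_neg hα h))

lemma vm_of_le (hr : ContDiff ℝ ∞ r) (hs : ContDiff ℝ ∞ s) (h1 : ∀ t, t ≤ 0 → r t = 0)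
    (h2 : ∀ t, t ≤ 0 → s t = 0) (hq : tt α (qq p) ≤ 0) : vm μ α r s k l p = 0 :=
  vm_zero (h1 _ hq) (h2 _ hq) (deriv_eq_zero_of_le (hr.differentiable (by simp)) h1 hq)
    (deriv_eq_zero_of_le (hs.differentiable (by simp)) h2 hq)

lemma grad_wm_of_le (hα : 0 < α) (ha : ContDiff ℝ ∞ a) (hb : ContDiff ℝ ∞ b)
    (h1 : ∀ t, t ≤ 0 → a t = 0) (h2 : ∀ t, t ≤ 0 → b t = 0) (hq : tt α (qq p) ≤ 0) :
    ∇ (wm μ α a b k l) p = 0 := by
  rcases lt_or_ge (qq p) (1 / 400) with h | h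
  · exact grad_eq_zero_of_eventually_const (wm_eventually hα h1 h2 h)
  · rw [grad_wm ha hb (by linarith), h1 _ hq, h2 _ hq,
      deriv_eq_zero_of_le (ha.differentiable (by simp)) h1 hq,
      deriv_eq_zero_of_le (hb.differentiable (by simp)) h2 hq]
    simp [fr_zero]

lemma contDiffAt_wm (hα : 0 < α) (ha : ContDiff ℝ ∞ a) (hb : ContDiff ℝ ∞ b)
    (h1 : ∀ t, t ≤ 0 → a t = 0) (h2 : ∀ t, t ≤ 0 → b t = 0) (p : E) :
    ContDiffAt ℝ ∞ (wm μ α a b k l) p := by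
  rcases lt_or_ge (qq p) (1 / 400) with h | h
  · exact (contDiffAt_const (c := 0)).congr_of_eventuallyEq (wm_eventually hα h1 h2 h)
  · exact contDiffAt_const.mul ((((contDiff_ttq ha α).mul (contDiff_cosk k)).contDiffAt).add
      ((contDiff_ttq hb α).contDiffAt.mul (contDiffAt_cs (by linarith) l).1))

lemma contDiffAt_vm (hα : 0 < α) (hr : ContDiff ℝ ∞ r) (hs : ContDiff ℝ ∞ s)
    (h1 : ∀ t, t ≤ 0 → r t = 0) (h2 : ∀ t, t ≤ 0 → s t = 0) (hk : 0 < k) (hl : 0 < l) (p : E) :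
    ContDiffAt ℝ ∞ (vm μ α r s k l) p ∧ dvg (vm μ α r s k l) p = 0 := by
  rcases lt_or_ge (qq p) (1 / 400) with h | h
  · have : vm μ α r s k l =ᶠ[𝓝 p] fun _ => 0 :=
      (eventually_small h).mono fun _ h => vm_of_le hr hs h1 h2 (tt_neg hα h)
    exact ⟨(contDiffAt_const (c := 0)).congr_of_eventuallyEq this, by
      rw [dvg_congr this, dvg_const]⟩
  · have hq : 0 < qq p := by linarith
    constructor
    · refine contDiffAt_fr ?_ ?_ ?_
      · exact (contDiff_const.mul ((((contDiff_ttq (contDiff_deriv hr) α).div_const _).mul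
          (contDiff_sink k)).neg)).contDiffAt
      · exact (contDiffAt_const.mul ((((contDiff_ttq hr α).mul (contDiff_cosk k)).contDiffAt).add
          ((contDiff_ttq hs α).contDiffAt.mul (contDiffAt_cs hq l).1))).mul
          (contDiff_qq.contDiffAt.inv hq.ne')
      · exact contDiffAt_const.mul (((contDiff_ttq (contDiff_deriv hs) α).div_const
          _).contDiffAt.mul (contDiffAt_cs hq l).2).neg
    · have hA := (((hg_ttq (f := fun t => deriv r t / k) ((contDiff_deriv hr).div_const _)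
        α p).mul (hg_sin k p)).neg).const_mul (2 * α * μ)
      have hB := ((((hg_ttq hr α p).mul (hg_cos k p)).add
        ((hg_ttq hs α p).mul (hg_cs hq l).1)).const_mul μ).mul
        (HG.rad (β := fun t => t⁻¹) (hasDerivAt_inv hq.ne'))
      have hD := (((hg_ttq (f := fun t => deriv s t / l) ((contDiff_deriv hs).div_const _)
        α p).mul (hg_cs hq l).2).neg).const_mul (2 * α * μ)
      have := dvg_fr hA hB hD
      unfold vm
      rw [this]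
      have hk' : (k : ℝ) ≠ 0 := by positivity
      have hl' : (l : ℝ) ≠ 0 := by positivity
      field_simp
      ring

lemma norm_fr_le {x y z X : ℝ} {c : ℝ} (hq1 : 1 / 400 ≤ qq p) (hq2 : qq p ≤ 1) (hc : 0 ≤ c)
    (hx : |x| ≤ X) (hy : |y| ≤ X) (hz : |z| ≤ X) :
    ‖fr p x (c * y) (z * (qq p)⁻¹)‖ ≤ (21 + c) * X ∧
    ‖fr p (c * x) (y * (qq p)⁻¹) (c * z)‖ ≤ (20 + 2 * c) * X := by
  have hX : 0 ≤ X := (abs_nonneg _).trans hx
  have hx2 : x ^ 2 ≤ X ^ 2 := by rw [← sq_abs]; exact pow_le_pow_left₀ (abs_nonneg _) hx 2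
  have hy2 : y ^ 2 ≤ X ^ 2 := by rw [← sq_abs]; exact pow_le_pow_left₀ (abs_nonneg _) hy 2
  have hz2 : z ^ 2 ≤ X ^ 2 := by rw [← sq_abs]; exact pow_le_pow_left₀ (abs_nonneg _) hz 2
  have hq : 0 < qq p := by linarith
  have hi : (qq p)⁻¹ ≤ 400 := by
    rw [inv_le_comm₀ hq (by norm_num)]; linarith
  have hi0 : 0 < (qq p)⁻¹ := inv_pos.2 hq
  have key : ∀ u : ℝ, u ^ 2 ≤ X ^ 2 → (u * (qq p)⁻¹) ^ 2 * qq p ≤ 400 * X ^ 2 ∧
      (c * u) ^ 2 * qq p ≤ c ^ 2 * X ^ 2 ∧ (c * u) ^ 2 ≤ c ^ 2 * X ^ 2 := by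
    intro u hu
    have e : (u * (qq p)⁻¹) ^ 2 * qq p = u ^ 2 * (qq p)⁻¹ := by field_simp
    have h3 : (c * u) ^ 2 ≤ c ^ 2 * X ^ 2 := by
      rw [mul_pow]; exact mul_le_mul_of_nonneg_left hu (sq_nonneg _)
    refine ⟨?_, ?_, h3⟩
    · rw [e, mul_comm 400]; exact mul_le_mul hu hi hi0.le (sq_nonneg _)
    · nlinarith [sq_nonneg (c * u)]
  constructor
  · refine (pow_le_pow_iff_left₀ (norm_nonneg _) (by positivity) two_ne_zero).1 ?_
    rw [norm_sq_fr]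
    nlinarith [key y hy2, key z hz2, mul_nonneg hc (sq_nonneg X), sq_nonneg X]
  · refine (pow_le_pow_iff_left₀ (norm_nonneg _) (by positivity) two_ne_zero).1 ?_
    rw [norm_sq_fr]
    nlinarith [key x hx2, key y hy2, key z hz2, mul_nonneg hc (sq_nonneg X), sq_nonneg (c * X)]

lemma ellip_fr {α μ Λ et eφ eϑ jt jφ jϑ : ℝ} (hα : 0 < α) (hq1 : 1 / 400 ≤ qq p)
    (hq2 : qq p ≤ 1)
    (h : et ^ 2 + eφ ^ 2 + eϑ ^ 2 + jt ^ 2 + jφ ^ 2 + jϑ ^ 2 ≤
      Λ * (et * jt + eφ * jφ + eϑ * jϑ)) :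
    ‖fr p (μ * eφ) (2 * α * μ * et) (μ * eϑ * (qq p)⁻¹)‖ ^ 2 +
      ‖fr p (2 * α * μ * jφ) (μ * jt * (qq p)⁻¹) (2 * α * μ * jϑ)‖ ^ 2 ≤
    ((400 + 4 * α ^ 2) * Λ / (2 * α)) * ⟪fr p (μ * eφ) (2 * α * μ * et) (μ * eϑ * (qq p)⁻¹),
      fr p (2 * α * μ * jφ) (μ * jt * (qq p)⁻¹) (2 * α * μ * jϑ)⟫ := by
  have hq : 0 < qq p := by linarith
  have hi : (qq p)⁻¹ ≤ 400 := by
    rw [inv_le_comm₀ hq (by norm_num)]; linarith
  rw [norm_sq_fr, norm_sq_fr, inner_fr]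
  have e1 : (400 + 4 * α ^ 2) * Λ / (2 * α) * (μ * eφ * (2 * α * μ * jφ) +
      (2 * α * μ * et * (μ * jt * (qq p)⁻¹) + μ * eϑ * (qq p)⁻¹ * (2 * α * μ * jϑ)) * qq p) =
      μ ^ 2 * ((400 + 4 * α ^ 2) * (Λ * (et * jt + eφ * jφ + eϑ * jϑ))) := by
    field_simp
    ring
  have e2 : (μ * eφ) ^ 2 + ((2 * α * μ * et) ^ 2 + (μ * eϑ * (qq p)⁻¹) ^ 2) * qq p +
      ((2 * α * μ * jφ) ^ 2 + ((μ * jt * (qq p)⁻¹) ^ 2 + (2 * α * μ * jϑ) ^ 2) * qq p) =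
      μ ^ 2 * (eφ ^ 2 + 4 * α ^ 2 * jφ ^ 2 + 4 * α ^ 2 * (et ^ 2 + jϑ ^ 2) * qq p +
        (eϑ ^ 2 + jt ^ 2) * (qq p)⁻¹) := by
    field_simp
    ring
  rw [e1, e2]
  refine mul_le_mul_of_nonneg_left ?_ (sq_nonneg _)
  refine le_trans ?_ (mul_le_mul_of_nonneg_left h (by positivity))
  have h1 : 4 * α ^ 2 * (et ^ 2 + jϑ ^ 2) * qq p ≤ 4 * α ^ 2 * (et ^ 2 + jϑ ^ 2) :=
    mul_le_of_le_one_right (by positivity) hq2
  have h2 : (eϑ ^ 2 + jt ^ 2) * (qq p)⁻¹ ≤ (eϑ ^ 2 + jt ^ 2) * 400 :=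
    mul_le_mul_of_nonneg_left hi (by positivity)
  nlinarith [sq_nonneg et, sq_nonneg eφ, sq_nonneg jφ, sq_nonneg jϑ, sq_nonneg (α * eφ),
    sq_nonneg (α * eϑ), sq_nonneg (α * jt)]

end

end Crest.Agent.R83.Flat
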