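import Crest.Agent.R83.Gauge2

/-!
Row 83, gauge step, part 3: the gauge transformation `γ ↦ (1 + ε d)² γ`.
-/

set_option autoImplicit false

open MeasureTheory Set Filter Topology Metric
open scoped Gradient ContDiff RealInnerProductSpace ENNReal
open Crest.AnalysisR.PDE.Calderon

namespace Crest.Agent.R83

noncomputable section

namespace Gauge

/-- a `C¹` extension with bounded derivative of `t ↦ ε t / (1 + ε t)` -/
lemma exists_beta {N : ℝ} (hN : 0 < N) : ∃ (β : ℝ → ℝ) (L : ℝ), ContDiff ℝ 1 β ∧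
    (∀ t, |deriv β t| ≤ L) ∧ ∀ t, |t| < N → β t = 1 - (1 + (4 * N)⁻¹ * t)⁻¹ ∧
      deriv β t = (4 * N)⁻¹ * ((1 + (4 * N)⁻¹ * t)⁻¹) ^ 2 := by
  let ρ : ContDiffBump (0 : ℝ) := ⟨N, 2 * N, hN, by linarith⟩
  set ε : ℝ := (4 * N)⁻¹ with hε
  have hε0 : 0 < ε := by positivity
  have hεN : ε * N = 1 / 4 := by
    rw [hε]
    field_simp
  have hσ : ∀ t, |ρ t * t| ≤ 2 * N := fun t => by
    rcases le_or_gt (2 * N) |t| with h | h
    · rw [ρ.zero_of_le_dist (by simpa [Real.dist_eq] using h)]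
      simp only [zero_mul, abs_zero]
      positivity
    · rw [abs_mul, abs_of_nonneg (ρ.nonneg)]
      calc ρ t * |t| ≤ 1 * |t| := by gcongr; exact ρ.le_one
        _ ≤ 2 * N := by linarith
  have hpos : ∀ t, 0 < 1 + ε * (ρ t * t) := fun t => by
    have := (abs_le.1 (hσ t)).1
    nlinarith
  let β : ℝ → ℝ := fun t => 1 - (1 + ε * (ρ t * t))⁻¹
  have hβ : ContDiff ℝ 1 β := by
    refine contDiff_const.sub (ContDiff.inv ?_ fun t => (hpos t).ne')
    exact contDiff_const.add (contDiff_const.mul (ρ.contDiff.mul contDiff_id))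
  have hβc : HasCompactSupport β := by
    refine HasCompactSupport.intro (isCompact_closedBall (0 : ℝ) (2 * N)) fun t ht => ?_
    have : ρ t = 0 := ρ.zero_of_le_dist (by
      simp only [mem_closedBall, not_le] at ht
      exact ht.le)
    simp [β, this]
  obtain ⟨L, hL⟩ := (hβ.continuous_deriv le_rfl).bounded_above_of_compact_support hβc.deriv
  refine ⟨β, L, hβ, fun t => by simpa using hL t, fun t ht => ?_⟩
  have hev : β =ᶠ[𝓝 t] fun s => 1 - (1 + ε * s)⁻¹ := by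
    have : ∀ᶠ s in 𝓝 t, |s| < N := continuous_abs.continuousAt.eventually_lt continuousAt_const ht
    filter_upwards [this] with s hs
    have : ρ s = 1 := ρ.one_of_mem_closedBall (by
      simpa [Real.dist_eq] using hs.le)
    simp [β, this]
  refine ⟨hev.eq_of_nhds, ?_⟩
  rw [hev.deriv_eq]
  have hp : 0 < 1 + ε * t := by
    have := (abs_lt.1 ht).1
    nlinarith
  have hd : HasDerivAt (fun s => 1 - (1 + ε * s)⁻¹) (-(-ε / (1 + ε * t) ^ 2)) t := by
    have h1 : HasDerivAt (fun s => 1 + ε * s) ε t := by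
      simpa using ((hasDerivAt_id t).const_mul ε).const_add 1
    exact (h1.inv hp.ne').const_sub 1
  rw [hd.deriv]
  field_simp

/-- the solution of the Dirichlet problem, bounded by the maximum principle -/
lemma exists_sol (h1 : C1Stmt) (hL : LaxStmt) (hM : MaxStmt) {γ φ : E → ℝ} {a b : ℝ}
    (hγ : Cond γ a b) (hφ : ContDiff ℝ 1 φ) :
    ∃ (u : E → ℝ) (h : E → E) (B : ℝ), IsH univ u h ∧ Sol γ φ h ∧ ∀ᵐ x, |u x| ≤ B := by
  obtain ⟨χ, hχ, hχ1⟩ := exists_cutoff (r := 4) (R := 5) (by norm_num) (by norm_num)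
  set ψ : E → ℝ := fun x => χ x * φ x with hψ
  have hψ1 : ContDiff ℝ 1 ψ := hχ.contDiff_one.mul hφ
  have hψc : HasCompactSupport ψ := hχ.cpt.mul_right
  have Hψ : IsH univ ψ (∇ ψ) := h1 _ _ isOpen_univ hψ1 hψc (subset_univ _)
  obtain ⟨B, hB⟩ := hψ1.continuous.bounded_above_of_compact_support hψc
  obtain ⟨w, k, H, hk⟩ := hL (ball 0 3) γ a b (fun x => -(γ x • ∇ ψ x)) isBounded_ball hγ.meas
    hγ.pos hγ.bd (hγ.memLp_smul Hψ.memg).neg
  have heq : ∀ η q, IsH (ball 0 3) η q → ∫ x, γ x * ⟪∇ ψ x + k x, q x⟫ = 0 := by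
    intro η q Hq
    have e := hk η q Hq
    simp only [inner_neg_left, real_inner_smul_left, integral_neg] at e
    simp_rw [inner_add_left, mul_add]
    rw [integral_add (hγ.integrable_inner Hψ.memg Hq.memg) (hγ.integrable_inner H.memg Hq.memg), e]
    ring
  refine ⟨fun x => ψ x + w x, fun x => ∇ ψ x + k x, B, Hψ.add H.univ,
    ⟨(Hψ.add H.univ).memg, ⟨w, k, H, ae_of_all _ fun x hx => ?_⟩, fun η hη => heq η _ hη.isH⟩, ?_⟩
  · have hx4 : x ∈ ball (0 : E) 4 := ball_subset_ball (by norm_num) hx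
    rw [hψ, grad_mul (hχ.differentiable x) (hφ.differentiable (by simp) x), (hχ1 x hx4).1,
      (hχ1 x hx4).2]
    simp
  · refine hM (ball 0 3) γ ψ w (fun _ => 0) a b B k (fun _ => 0) isOpen_ball isBounded_ball
      hγ.meas hγ.pos hγ.bd hψ1 hψc (fun x => by simpa using hB x) H (fun η q Hq => ?_) ?_
    · rw [heq η q Hq]
      simp [pr]
    · simp

/-- the correction `p = (u - c) β(d)` -/
lemma isH_corr (hc : ChainStmt) (hp : ProdStmt) {u d : E → ℝ} {h g : E → E} {B N c : ℝ}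
    (hN : 0 < N) (Hu : IsH univ u h) (hB : ∀ᵐ x, |u x| ≤ B) (Hd : IsH (ball 0 2) d g)
    (hd : ∀ x, |d x| < N) :
    ∃ p : E → ℝ, IsH (ball 0 3) p (fun x => (1 - (1 + (4 * N)⁻¹ * d x)⁻¹) • h x +
      ((u x - c) * ((4 * N)⁻¹ * ((1 + (4 * N)⁻¹ * d x)⁻¹) ^ 2)) • g x) := by
  obtain ⟨β, L, hβ, hL, hβN⟩ := exists_beta hN
  set ε : ℝ := (4 * N)⁻¹ with hε
  have hε0 : 0 < ε := by positivity
  have hεN : ε * N = 1 / 4 := by
    rw [hε]
    field_simp
  have hβ0 : β 0 = 0 := by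
    rw [(hβN 0 (by simpa using hN)).1]
    simp
  have H1 := hc (ball 0 2) d g (fun _ => 0) β L isOpen_ball Hd contDiff_const
    (HasCompactSupport.intro isCompact_empty fun _ _ => rfl) hβ hL
  have H2 : IsH (ball 0 2) (fun x => β (d x)) (fun x => deriv β (d x) • g x) :=
    H1.congr (ae_of_all _ fun x => by simp [hβ0]) (ae_of_all _ fun x => by simp)
  have hβb : ∀ x, |β (d x)| ≤ 1 := fun x => by
    rw [(hβN _ (hd x)).1]
    have h1 := abs_lt.1 (hd x)
    have h2 : 3 / 4 ≤ 1 + ε * d x := by nlinarith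
    have h3 : 0 < (1 + ε * d x)⁻¹ := by positivity
    have h4 : (1 + ε * d x)⁻¹ ≤ (3 / 4)⁻¹ := by gcongr
    rw [abs_le]
    constructor <;> norm_num at h4 ⊢ <;> linarith
  have H3 := hp u (fun x => β (d x)) h (fun x => deriv β (d x) • g x) (max B 1) Hu H2.univ
    (hB.mono fun x hx => hx.trans (le_max_left _ _))
    (ae_of_all _ fun x => (hβb x).trans (le_max_right _ _))
  have H4 := H3.sub (H2.univ.const_mul c)
  obtain ⟨χ, hχ, hχ1⟩ := exists_cutoff (r := 2) (R := 3) (by norm_num) (by norm_num)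
  refine ⟨_, (H4.localize hχ).congr (ae_of_all _ fun _ => rfl) ?_⟩
  filter_upwards [Hd.ae_zero] with x hx
  by_cases hxb : x ∈ ball (0 : E) 2
  · rw [(hχ1 x hxb).1, (hχ1 x hxb).2, ← (hβN _ (hd x)).1, ← (hβN _ (hd x)).2]
    module
  · simp [(hx hxb).1, (hx hxb).2, hβ0]

/-- the transformed solution -/
lemma sol_gauge (hc : ChainStmt) (hp : ProdStmt) {γ φ u d : E → ℝ} {h g : E → E} {a b B N c : ℝ}
    (hγ : Cond γ a b) (hN : 0 < N) (Hu : IsH univ u h) (hs : Sol γ φ h) (hB : ∀ᵐ x, |u x| ≤ B)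
    (Hd : IsH (ball 0 2) d g) (hd : ∀ x, |d x| < N)
    (hH : ∀ η, Test univ η → ∫ x, γ x * ⟪g x, η x • h x + (u x - c) • ∇ η x⟫ = 0) :
    ∃ h', Sol (fun x => (1 + (4 * N)⁻¹ * d x) ^ 2 * γ x) φ h' ∧ ∀ᵐ x, 2 < ‖x‖ → h x = h' x := by
  obtain ⟨p, Hp⟩ := isH_corr (c := c) hc hp hN Hu hB Hd hd
  set ε : ℝ := (4 * N)⁻¹ with hε
  have hε0 : 0 < ε := by positivity
  have hεN : ε * N = 1 / 4 := by
    rw [hε]
    field_simp
  have hψ : ∀ x, 0 < 1 + ε * d x := fun x => by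
    have h1 := abs_lt.1 (hd x)
    nlinarith
  set G : E → E := fun x => (1 - (1 + ε * d x)⁻¹) • h x +
      ((u x - c) * (ε * ((1 + ε * d x)⁻¹) ^ 2)) • g x with hG
  refine ⟨fun x => h x - G x, ⟨hs.mem.sub Hp.memg, ?_, fun η hη => ?_⟩, ?_⟩
  · obtain ⟨w, k, H, hk⟩ := hs.datum
    refine ⟨_, _, H.sub Hp, ?_⟩
    filter_upwards [hk] with x hx hxb
    rw [hx hxb]
    abel
  · have H1 := hη.isH.add ((Hd.localize hη).const_mul ε)
    have e1 := eqn_isH hγ hs.mem hs.eqn H1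
    have e2 := hH η hη.univ
    obtain ⟨Bη, -, hBη⟩ := hη.exists_bound
    have m1 : MemLp (fun x => η x • h x + (u x - c) • ∇ η x) 2 volume := by
      refine MemLp.add (memLp_smul_of_bdd hη.continuous.aestronglyMeasurable
        (ae_of_all _ fun x => (hBη x).1) hs.mem) ?_
      refine memLp_smul_of_bdd (B := B + |c|) (Hu.memu.1.sub aestronglyMeasurable_const) ?_
        hη.memLp_grad
      filter_upwards [hB] with x hx
      exact (abs_sub _ _).trans (by linarith)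
    have e : ∀ x, (1 + ε * d x) ^ 2 * γ x * ⟪h x - G x, ∇ η x⟫ =
        γ x * ⟪h x, ∇ η x + ε • (η x • g x + d x • ∇ η x)⟫ -
          ε * (γ x * ⟪g x, η x • h x + (u x - c) • ∇ η x⟫) := fun x => by
      have := (hψ x).ne'
      simp only [hG, inner_sub_left, inner_add_left, inner_add_right, real_inner_smul_left,
        real_inner_smul_right, real_inner_comm (h x) (g x)]
      field_simp
      ring
    simp_rw [e]
    rw [integral_sub (hγ.integrable_inner hs.mem H1.memg)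
      ((hγ.integrable_inner Hd.memg m1).const_mul ε), integral_const_mul, e1, e2]
    ring
  · filter_upwards [Hd.ae_zero] with x hx h2
    have hxb : x ∉ ball (0 : E) 2 := by
      rw [mem_ball_zero_iff, not_lt]
      exact h2.le
    simp [hG, (hx hxb).1, (hx hxb).2]

/-- a good representative -/
lemma exists_rep {d : E → ℝ} {g : E → E} {M : ℝ} (Hd : IsH (ball 0 2) d g)
    (hM : ∀ᵐ x, |d x| ≤ M) : ∃ d' : E → ℝ, Measurable d' ∧ IsH (ball 0 2) d' g ∧
      (∀ x, |d' x| < |M| + 1) ∧ ∀ x, 2 < ‖x‖ → d' x = 0 := by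
  have hm := Hd.memu.1
  set e : E → ℝ := hm.mk d with he
  have hem : Measurable e := hm.stronglyMeasurable_mk.measurable
  have hS : MeasurableSet {x : E | ‖x‖ ≤ 2 ∧ |e x| ≤ M} :=
    (measurableSet_le measurable_norm measurable_const).inter
      (measurableSet_le hem.abs measurable_const)
  refine ⟨{x : E | ‖x‖ ≤ 2 ∧ |e x| ≤ M}.indicator e, hem.indicator hS,
    Hd.congr ?_ (ae_of_all _ fun _ => rfl), fun x => ?_, fun x hx => ?_⟩
  · filter_upwards [hm.ae_eq_mk, hM, Hd.ae_zero] with x h1 h2 h3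
    rw [← he] at h1
    by_cases hx : x ∈ {x : E | ‖x‖ ≤ 2 ∧ |e x| ≤ M}
    · rw [indicator_of_mem hx, h1]
    · rw [indicator_of_notMem hx]
      refine (h3 fun hb => hx ⟨(mem_ball_zero_iff.1 hb).le, ?_⟩).1.symm
      rwa [← h1]
  · by_cases hx : x ∈ {x : E | ‖x‖ ≤ 2 ∧ |e x| ≤ M}
    · rw [indicator_of_mem hx]
      linarith [hx.2, le_abs_self M]
    · rw [indicator_of_notMem hx, abs_zero]
      positivity
  · exact indicator_of_notMem (fun hx' => absurd hx'.1 (not_le.2 hx)) _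

end Gauge

set_option linter.unusedVariables false in
open Gauge in
theorem gauge (h1 : C1Stmt) (hc : ChainStmt) (hp : ProdStmt) (hP : PoincareStmt) (hL : LaxStmt)
    (hM : MaxStmt) (H : GaugeHyp) : Result := by
  obtain ⟨γ, d₀, g, a, b, M, ha, hγm, hγb, hγ1, Hd₀, hM₀, hg, H⟩ := H
  obtain ⟨d, hdm, Hd, hdN, hd0⟩ := exists_rep Hd₀ hM₀
  set N : ℝ := |M| + 1 with hN
  have hN0 : 0 < N := by positivity
  set ε : ℝ := (4 * N)⁻¹ with hε
  have hε0 : 0 < ε := by positivity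
  have hεN : ε * N = 1 / 4 := by
    rw [hε]
    field_simp
  have hψ : ∀ x, 1 / 2 ≤ 1 + ε * d x ∧ 1 + ε * d x ≤ 3 / 2 := fun x => by
    have h1 := abs_lt.1 (hdN x)
    constructor <;> nlinarith
  have hγ : Cond γ a b := ⟨hγm, ha, hγb⟩
  have hb : 0 < b := ha.trans_le ((hγb 0).1.trans (hγb 0).2)
  have hγ' : Cond (fun x => (1 + ε * d x) ^ 2 * γ x) (a / 4) (4 * b) := by
    refine ⟨by fun_prop, by positivity, fun x => ?_⟩
    obtain ⟨p1, p2⟩ := hψ x
    obtain ⟨q1, q2⟩ := hγb x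
    have r1 : 1 / 4 ≤ (1 + ε * d x) ^ 2 := by nlinarith
    have r2 : (1 + ε * d x) ^ 2 ≤ 4 := by nlinarith
    constructor
    · calc a / 4 = 1 / 4 * a := by ring
        _ ≤ (1 + ε * d x) ^ 2 * γ x := by gcongr
    · gcongr
      linarith
  refine ⟨γ, fun x => (1 + ε * d x) ^ 2 * γ x, a / 4, 4 * b, by positivity, hγm, hγ'.meas,
    fun x => ⟨by linarith [(hγb x).1], by linarith [(hγb x).2], (hγ'.bd x).1, (hγ'.bd x).2⟩,
    ⟨2, by norm_num, fun x hx => ⟨hγ1 x hx, by simp [hγ1 x hx, hd0 x hx]⟩⟩, ?_, ?_⟩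
  · rw [pos_iff_ne_zero]
    intro h0
    apply hg
    apply Hd.grad_ae_zero
    have h0' : ∀ᵐ x, γ x = (1 + ε * d x) ^ 2 * γ x := by
      rw [ae_iff]
      exact h0
    filter_upwards [h0'] with x hx
    have hγx : 0 < γ x := ha.trans_le (hγb x).1
    have h2 : (ε * d x) * ((2 + ε * d x) * γ x) = 0 := by linear_combination -hx
    have h3 : 0 < (2 + ε * d x) * γ x := mul_pos (by linarith [(hψ x).1]) hγx
    exact (mul_eq_zero.1 ((mul_eq_zero.1 h2).resolve_right h3.ne')).resolve_left hε0.ne'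
  · refine same_of_sol h1 hγ hγ' (fun x hx => by simp [hd0 x hx]) fun φ hφ => ?_
    obtain ⟨u, h, B, Hu, hs, hB⟩ := exists_sol h1 hL hM hγ hφ
    obtain ⟨c, hcH⟩ := H u h Hu hs.eqn
    obtain ⟨h', hs', hhh⟩ := sol_gauge hc hp hγ hN0 Hu hs hB Hd hdN hcH
    exact ⟨h, h', hs, hs', hhh⟩

end

end Crest.Agent.R83
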