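import Crest.Agent.R83.Basic

/-!
Row 83, gauge step, part 1: cutoffs and functions vanishing on the sphere of radius `3`.
-/

set_option autoImplicit false

open MeasureTheory Set Filter Topology Metric
open scoped Gradient ContDiff RealInnerProductSpace ENNReal

namespace Crest.Agent.R83

noncomputable section

namespace Gauge

/-- a cutoff equal to `1` on `ball 0 r`, supported in `ball 0 R` -/
lemma exists_cutoff {r R : ℝ} (hr : 0 < r) (hrR : r < R) :
    ∃ χ : E → ℝ, Test (ball 0 R) χ ∧ ∀ x ∈ ball (0 : E) r, χ x = 1 ∧ ∇ χ x = 0 := by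
  let f : ContDiffBump (0 : E) := ⟨r, (r + R) / 2, hr, by linarith⟩
  refine ⟨f, ⟨f.contDiff, f.hasCompactSupport, ?_⟩, fun x hx => ⟨?_, ?_⟩⟩
  · rw [f.tsupport_eq]
    exact closedBall_subset_ball (by show (r + R) / 2 < R; linarith)
  · exact f.one_of_mem_closedBall (ball_subset_closedBall hx)
  · apply grad_eq_zero_of_eventually_const (c := 1)
    filter_upwards [isOpen_ball.mem_nhds hx] with y hy
    exact f.one_of_mem_closedBall (ball_subset_closedBall hy)

lemma grad_norm_sq (x : E) : ∇ (fun y : E => ‖y‖ ^ 2) x = (2 : ℝ) • x := by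
  apply HasGradientAt.gradient
  rw [hasGradientAt_iff_hasFDerivAt]
  have h := (hasStrictFDerivAt_norm_sq x).hasFDerivAt
  have e : (InnerProductSpace.toDual ℝ E) ((2 : ℝ) • x) = 2 • (innerSL ℝ) x := by
    ext v
    simp
  rw [e]
  exact h

/-- the boundary cutoffs -/
def cut (n : ℕ) (x : E) : ℝ := step 1 2 (((n : ℝ) + 1) * (9 - ‖x‖ ^ 2))

lemma contDiff_arg (n : ℕ) : ContDiff ℝ ∞ (fun x : E => ((n : ℝ) + 1) * (9 - ‖x‖ ^ 2)) :=
  contDiff_const.mul (contDiff_const.sub (contDiff_norm_sq ℝ))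

lemma cut_test (n : ℕ) : Test (ball 0 3) (cut n) := by
  have hn : (0 : ℝ) < (n : ℝ) + 1 := by positivity
  refine Test.of_zero_off (K := {x : E | 1 ≤ ((n : ℝ) + 1) * (9 - ‖x‖ ^ 2)})
    ((step_contDiff 1 2).comp (contDiff_arg n)) ?_ ?_ ?_
  · apply Metric.isCompact_of_isClosed_isBounded
    · exact isClosed_le continuous_const (contDiff_arg n).continuous
    · refine (isBounded_ball (x := (0 : E)) (r := 3)).subset ?_
      intro x hx
      simp only [mem_ofPred_eq] at hx
      rw [mem_ball_zero_iff]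
      by_contra hc
      push Not at hc
      have : 9 - ‖x‖ ^ 2 ≤ 0 := by nlinarith
      nlinarith [mul_nonneg hn.le (neg_nonneg.2 this)]
  · intro x hx
    simp only [mem_ofPred_eq] at hx
    rw [mem_ball_zero_iff]
    by_contra hc
    push Not at hc
    have : 9 - ‖x‖ ^ 2 ≤ 0 := by nlinarith
    nlinarith [mul_nonneg hn.le (neg_nonneg.2 this)]
  · intro x hx
    simp only [mem_ofPred_eq, not_le] at hx
    exact step_of_le (by norm_num) hx.le

lemma grad_cut (n : ℕ) (x : E) : ∇ (cut n) x =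
    (deriv (step 1 2) (((n : ℝ) + 1) * (9 - ‖x‖ ^ 2)) * (-(2 * ((n : ℝ) + 1)))) • x := by
  have h := grad_comp (φ := fun x : E => ((n : ℝ) + 1) * (9 - ‖x‖ ^ 2)) (x := x)
    (step_hasDerivAt 1 2 _) ((contDiff_arg n).differentiable (by simp) x)
  have h2 : ∇ (fun x : E => ((n : ℝ) + 1) * (9 - ‖x‖ ^ 2)) x = (-(2 * ((n : ℝ) + 1))) • x := by
    rw [grad_const_mul, grad_const_sub, grad_norm_sq, smul_neg, smul_smul, ← neg_smul]
    congr 1
    ring
  unfold cut
  rw [h, h2, smul_smul]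

lemma cut_eventually {x : E} (hx : x ∈ ball (0 : E) 3) :
    ∀ᶠ n in atTop, cut n x = 1 ∧ ∇ (cut n) x = 0 := by
  rw [mem_ball_zero_iff] at hx
  have hpos : 0 < 9 - ‖x‖ ^ 2 := by nlinarith [norm_nonneg x]
  have ht : Tendsto (fun n : ℕ => ((n : ℝ) + 1) * (9 - ‖x‖ ^ 2)) atTop atTop :=
    (tendsto_natCast_atTop_atTop.atTop_add tendsto_const_nhds).atTop_mul_const hpos
  filter_upwards [ht.eventually_ge_atTop 2] with n hn
  refine ⟨step_of_ge (by norm_num) hn, ?_⟩
  rw [grad_cut, deriv_step_eq_zero (by norm_num) (Or.inr hn)]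
  simp

/-- a `C¹` function vanishing on the sphere is controlled by the distance to the sphere -/
lemma abs_mul_norm_le {f : E → ℝ} (hf : ContDiff ℝ 1 f) (h0 : ∀ x : E, ‖x‖ = 3 → f x = 0) :
    ∃ L : ℝ, 0 ≤ L ∧ ∀ x ∈ ball (0 : E) 3, |f x| ≤ L ∧ ‖∇ f x‖ ≤ L ∧
      |f x| * ‖x‖ ≤ L * (9 - ‖x‖ ^ 2) := by
  obtain ⟨L₁, hL₁⟩ := (isCompact_closedBall (0 : E) 3).exists_bound_of_continuousOn
    (hf.continuous_fderiv (by simp)).continuousOn
  obtain ⟨L₂, hL₂⟩ := (isCompact_closedBall (0 : E) 3).exists_bound_of_continuousOn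
    hf.continuous.continuousOn
  have hL₁0 : 0 ≤ L₁ := (norm_nonneg _).trans (hL₁ 0 (mem_closedBall_self (by norm_num)))
  have hL₂0 : 0 ≤ L₂ := (norm_nonneg _).trans (hL₂ 0 (mem_closedBall_self (by norm_num)))
  refine ⟨L₁ + L₂, by positivity, fun x hx => ⟨?_, ?_, ?_⟩⟩
  · have := hL₂ x (ball_subset_closedBall hx)
    rw [Real.norm_eq_abs] at this
    linarith
  · have := hL₁ x (ball_subset_closedBall hx)
    rw [norm_grad]
    linarith
  · have hx' := mem_ball_zero_iff.1 hx
    have hpos : 0 ≤ 9 - ‖x‖ ^ 2 := by nlinarith [norm_nonneg x]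
    rcases eq_or_ne x 0 with rfl | hx0
    · simp only [norm_zero, mul_zero]
      positivity
    have hn : 0 < ‖x‖ := norm_pos_iff.2 hx0
    have hy : ‖(3 / ‖x‖) • x‖ = 3 := by
      rw [norm_smul, Real.norm_eq_abs, abs_of_pos (by positivity)]
      field_simp
    have hmv := (convex_closedBall (0 : E) 3).norm_image_sub_le_of_norm_fderiv_le (𝕜 := ℝ)
      (f := f) (fun y _ => hf.differentiable (by simp) y) hL₁
      (x := (3 / ‖x‖) • x) (y := x) (by rw [mem_closedBall_zero_iff, hy])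
      (ball_subset_closedBall hx)
    have hd : ‖x - (3 / ‖x‖) • x‖ = 3 - ‖x‖ := by
      have : x - (3 / ‖x‖) • x = (1 - 3 / ‖x‖) • x := by rw [sub_smul, one_smul]
      rw [this, norm_smul, Real.norm_eq_abs, abs_of_nonpos]
      · field_simp
        ring
      · rw [sub_nonpos, le_div_iff₀ hn]
        linarith
    rw [h0 _ hy, sub_zero, hd, Real.norm_eq_abs] at hmv
    calc |f x| * ‖x‖ ≤ L₁ * (3 - ‖x‖) * ‖x‖ := by gcongr
      _ ≤ L₁ * (9 - ‖x‖ ^ 2) := by
          rw [mul_assoc]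
          apply mul_le_mul_of_nonneg_left _ hL₁0
          nlinarith
      _ ≤ (L₁ + L₂) * (9 - ‖x‖ ^ 2) := by gcongr; linarith

lemma memLp_indicator_of_bdd {F : Type*} [NormedAddCommGroup F] {g : E → F} {L : ℝ}
    (hg : Continuous g) (hL : ∀ x ∈ ball (0 : E) 3, ‖g x‖ ≤ L) :
    MemLp ((ball (0 : E) 3).indicator g) 2 volume := by
  rw [memLp_indicator_iff_restrict measurableSet_ball]
  have : IsFiniteMeasure (volume.restrict (ball (0 : E) 3)) :=
    ⟨by simpa using measure_ball_lt_top (μ := volume) (x := (0 : E)) (r := 3)⟩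
  refine MemLp.of_bound hg.aestronglyMeasurable L ?_
  exact (ae_restrict_iff' measurableSet_ball).2 (ae_of_all _ hL)

lemma tendsto_integral_of_ball {F : ℕ → E → ℝ} {B : ℝ}
    (hm : ∀ n, AEStronglyMeasurable (F n) volume)
    (hB : ∀ n, ∀ x ∈ ball (0 : E) 3, |F n x| ≤ B) (h0 : ∀ n x, x ∉ ball (0 : E) 3 → F n x = 0)
    (hev : ∀ x ∈ ball (0 : E) 3, ∀ᶠ n in atTop, F n x = 0) :
    Tendsto (fun n => ∫ x, F n x) atTop (𝓝 0) := by
  have h := tendsto_integral_of_dominated_convergence (μ := volume) (F := F) (f := fun _ => 0)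
    ((ball (0 : E) 3).indicator fun _ => B) hm ?_ ?_ ?_
  · simpa using h
  · exact (integrable_indicator_iff measurableSet_ball).2
      (integrableOn_const measure_ball_lt_top.ne)
  · intro n
    refine ae_of_all _ fun x => ?_
    by_cases hx : x ∈ ball (0 : E) 3
    · rw [indicator_of_mem hx]
      exact hB n x hx
    · rw [indicator_of_notMem hx, h0 n x hx]
      simp
  · refine ae_of_all _ fun x => ?_
    by_cases hx : x ∈ ball (0 : E) 3
    · exact tendsto_const_nhds.congr' ((hev x hx).mono fun n hn => hn.symm)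
    · simp [h0 _ x hx]

/-- a `C¹` function vanishing on the sphere, cut to the ball, is in `H¹₀` of the ball -/
lemma isH_indicator (h1 : C1Stmt) {f : E → ℝ} (hf : ContDiff ℝ 1 f)
    (h0 : ∀ x : E, ‖x‖ = 3 → f x = 0) :
    IsH (ball 0 3) ((ball (0 : E) 3).indicator f) ((ball (0 : E) 3).indicator (∇ f)) := by
  obtain ⟨L, hL0, hL⟩ := abs_mul_norm_le hf h0
  obtain ⟨C, hC⟩ := exists_deriv_step_le (a := 1) (b := 2) (by norm_num)
  have hC0 : 0 ≤ C := (deriv_step_nonneg (by norm_num) 0).trans (hC 0)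
  have hu : MemLp ((ball (0 : E) 3).indicator f) 2 volume :=
    memLp_indicator_of_bdd hf.continuous (L := L) fun x hx => (hL x hx).1
  have hg : MemLp ((ball (0 : E) 3).indicator (∇ f)) 2 volume :=
    memLp_indicator_of_bdd (continuous_grad hf) (L := L) fun x hx => (hL x hx).2.1
  have hH : ∀ n, IsH (ball 0 3) (fun x => cut n x * f x) (∇ fun x => cut n x * f x) := fun n =>
    h1 _ _ isOpen_ball ((cut_test n).contDiff_one.mul hf) (cut_test n).cpt.mul_right
      ((tsupport_mul_subset_left).trans (cut_test n).sub)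
  have hgrad : ∀ n x, ∇ (fun x => cut n x * f x) x = cut n x • ∇ f x + f x • ∇ (cut n) x :=
    fun n x => grad_mul ((cut_test n).differentiable x) (hf.differentiable (by simp) x)
  have hc01 : ∀ n x, |1 - cut n x| ≤ 1 := fun n x => by
    have h1 := step_nonneg 1 2 (((n : ℝ) + 1) * (9 - ‖x‖ ^ 2))
    have h2 := step_le_one 1 2 (((n : ℝ) + 1) * (9 - ‖x‖ ^ 2))
    unfold cut
    rw [abs_le]
    constructor <;> linarith
  have hkey : ∀ n, ∀ x ∈ ball (0 : E) 3, ‖f x • ∇ (cut n) x‖ ≤ 4 * C * L := fun n x hx => by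
    have hn : (0 : ℝ) < (n : ℝ) + 1 := by positivity
    rcases le_or_gt 2 (((n : ℝ) + 1) * (9 - ‖x‖ ^ 2)) with h2 | h2
    · rw [grad_cut, deriv_step_eq_zero (by norm_num) (Or.inr h2)]
      simp only [zero_mul, zero_smul, smul_zero, norm_zero]
      positivity
    have hd0 := deriv_step_nonneg (a := 1) (b := 2) (by norm_num) (((n : ℝ) + 1) * (9 - ‖x‖ ^ 2))
    have hdC := hC (((n : ℝ) + 1) * (9 - ‖x‖ ^ 2))
    rw [grad_cut, norm_smul, norm_smul, Real.norm_eq_abs, Real.norm_eq_abs, abs_mul, abs_neg,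
      abs_of_nonneg hd0, abs_of_pos (by positivity : (0 : ℝ) < 2 * ((n : ℝ) + 1))]
    have h3 := (hL x hx).2.2
    calc |f x| * (deriv (step 1 2) (((n : ℝ) + 1) * (9 - ‖x‖ ^ 2)) * (2 * ((n : ℝ) + 1)) * ‖x‖)
        = deriv (step 1 2) (((n : ℝ) + 1) * (9 - ‖x‖ ^ 2)) * (2 * ((n : ℝ) + 1)) *
          (|f x| * ‖x‖) := by ring
      _ ≤ C * (2 * ((n : ℝ) + 1)) * (L * (9 - ‖x‖ ^ 2)) := by gcongr
      _ = 2 * C * L * (((n : ℝ) + 1) * (9 - ‖x‖ ^ 2)) := by ring
      _ ≤ 2 * C * L * 2 := by gcongr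
      _ = 4 * C * L := by ring
  refine IsH.of_tendsto hu hg hH ?_ ?_
  · refine tendsto_integral_of_ball (B := L ^ 2) (fun n => ?_) (fun n x hx => ?_)
      (fun n x hx => ?_) (fun x hx => ?_)
    · exact (hu.1.sub (hH n).memu.1).pow 2
    · rw [indicator_of_mem hx, abs_pow]
      have : f x - cut n x * f x = (1 - cut n x) * f x := by ring
      rw [this, abs_mul]
      have h4 : |1 - cut n x| * |f x| ≤ L := by
        calc |1 - cut n x| * |f x| ≤ 1 * L := by
              gcongr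
              · exact hc01 n x
              · exact (hL x hx).1
          _ = L := one_mul L
      gcongr
    · simp [indicator_of_notMem hx, (cut_test n).eq_zero hx]
    · filter_upwards [cut_eventually hx] with n hn
      simp [indicator_of_mem hx, hn.1]
  · refine tendsto_integral_of_ball (B := (L + 4 * C * L) ^ 2) (fun n => ?_) (fun n x hx => ?_)
      (fun n x hx => ?_) (fun x hx => ?_)
    · exact (hg.1.sub (hH n).memg.1).norm.pow 2
    · rw [indicator_of_mem hx, abs_pow, abs_norm, hgrad]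
      have : ∇ f x - (cut n x • ∇ f x + f x • ∇ (cut n) x) =
          (1 - cut n x) • ∇ f x - f x • ∇ (cut n) x := by
        rw [sub_smul, one_smul]
        abel
      rw [this]
      have h4 : ‖(1 - cut n x) • ∇ f x‖ ≤ L := by
        rw [norm_smul, Real.norm_eq_abs]
        calc |1 - cut n x| * ‖∇ f x‖ ≤ 1 * L := by
              gcongr
              · exact hc01 n x
              · exact (hL x hx).2.1
          _ = L := one_mul L
      have h5 := (norm_sub_le _ _).trans (add_le_add h4 (hkey n x hx))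
      gcongr
    · simp [indicator_of_notMem hx, hgrad, (cut_test n).eq_zero hx, (cut_test n).grad_eq_zero hx]
    · filter_upwards [cut_eventually hx] with n hn
      simp [indicator_of_mem hx, hgrad, hn.1, hn.2]

end Gauge

end

end Crest.Agent.R83
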