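import Crest.Agent.R83.Gauge1

/-!
Row 83, gauge step, part 2: the Dirichlet principle on the ball of radius `3`.
-/

set_option autoImplicit false

open MeasureTheory Set Filter Topology Metric
open scoped Gradient ContDiff RealInnerProductSpace ENNReal
open Crest.AnalysisR.PDE.Calderon

namespace Crest.Agent.R83

noncomputable section

namespace Gauge

/-- a conductivity between two positive constants -/
structure Cond (γ : E → ℝ) (a b : ℝ) : Prop where
  meas : Measurable γ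
  pos : 0 < a
  bd : ∀ x, a ≤ γ x ∧ γ x ≤ b

/-- `h` is the gradient of the weak solution with boundary datum `φ` -/
structure Sol (γ φ : E → ℝ) (h : E → E) : Prop where
  mem : MemLp h 2 volume
  datum : ∃ w k, IsH (ball 0 3) w k ∧ ∀ᵐ x, x ∈ ball (0 : E) 3 → h x = ∇ φ x + k x
  eqn : ∀ η, Test (ball 0 3) η → ∫ x, γ x * ⟪h x, ∇ η x⟫ = 0

/-- the energy of a vector field -/
def en (γ : E → ℝ) (h : E → E) : ℝ := ∫ x in ball (0 : E) 3, γ x * ‖h x‖ ^ 2

variable {γ φ : E → ℝ} {a b : ℝ} {h : E → E}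

lemma Cond.nonneg (hγ : Cond γ a b) (x : E) : 0 ≤ γ x := hγ.pos.le.trans (hγ.bd x).1

lemma Cond.abs_le (hγ : Cond γ a b) (x : E) : |γ x| ≤ b := by
  rw [abs_of_nonneg (hγ.nonneg x)]
  exact (hγ.bd x).2

lemma Cond.memLp_smul (hγ : Cond γ a b) (hh : MemLp h 2 volume) :
    MemLp (fun x => γ x • h x) 2 volume :=
  memLp_smul_of_bdd hγ.meas.aestronglyMeasurable (ae_of_all _ hγ.abs_le) hh

lemma Cond.integrable_inner (hγ : Cond γ a b) {k : E → E} (hh : MemLp h 2 volume)
    (hk : MemLp k 2 volume) : Integrable (fun x => γ x * ⟪h x, k x⟫) volume := by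
  have := integrable_inner' (hγ.memLp_smul hh) hk
  simpa only [real_inner_smul_left] using this

lemma Cond.integrable_sq (hγ : Cond γ a b) (hh : MemLp h 2 volume) :
    Integrable (fun x => γ x * ‖h x‖ ^ 2) volume := by
  have := hγ.integrable_inner hh hh
  simpa only [real_inner_self_eq_norm_sq] using this

/-- the equation extends to `H¹₀` -/
lemma eqn_isH (hγ : Cond γ a b) (hh : MemLp h 2 volume)
    (he : ∀ η, Test (ball 0 3) η → ∫ x, γ x * ⟪h x, ∇ η x⟫ = 0) {w : E → ℝ} {k : E → E}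
    (H : IsH (ball 0 3) w k) : ∫ x, γ x * ⟪h x, k x⟫ = 0 := by
  have := H.inner_eq_zero (hγ.memLp_smul hh) (fun η hη => by
    simpa only [real_inner_smul_left] using he η hη)
  simpa only [real_inner_smul_left] using this

lemma Sol.setIntegral_eq_zero (hγ : Cond γ a b) (hs : Sol γ φ h) {w : E → ℝ} {k : E → E}
    (H : IsH (ball 0 3) w k) : ∫ x in ball (0 : E) 3, γ x * ⟪h x, k x⟫ = 0 := by
  rw [setIntegral_eq_integral_of_ae_compl_eq_zero]
  · exact eqn_isH hγ hs.mem hs.eqn H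
  · filter_upwards [H.ae_zero] with x hx hxb
    rw [(hx hxb).2]
    simp

lemma Sol.en_add (hγ : Cond γ a b) (hs : Sol γ φ h) {w : E → ℝ} {q : E → E}
    (H : IsH (ball 0 3) w q) : en γ (fun x => h x + q x) = en γ h + en γ q := by
  have e : ∀ x, γ x * ‖h x + q x‖ ^ 2 =
      (γ x * ‖h x‖ ^ 2 + γ x * ‖q x‖ ^ 2) + 2 * (γ x * ⟪h x, q x⟫) := fun x => by
    rw [norm_add_sq_real]
    ring
  unfold en
  simp_rw [e]
  rw [integral_add, integral_add, integral_const_mul, hs.setIntegral_eq_zero hγ H]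
  · ring
  · exact (hγ.integrable_sq hs.mem).integrableOn
  · exact (hγ.integrable_sq H.memg).integrableOn
  · exact ((hγ.integrable_sq hs.mem).add (hγ.integrable_sq H.memg)).integrableOn
  · exact ((hγ.integrable_inner hs.mem H.memg).const_mul 2).integrableOn

lemma en_nonneg (hγ : Cond γ a b) (q : E → E) : 0 ≤ en γ q :=
  integral_nonneg fun x => mul_nonneg (hγ.nonneg x) (sq_nonneg _)

lemma en_le (hγ : Cond γ a b) {q : E → E} (hq : MemLp q 2 volume) :
    en γ q ≤ b * ∫ x, ‖q x‖ ^ 2 := by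
  calc en γ q ≤ ∫ x, γ x * ‖q x‖ ^ 2 :=
        setIntegral_le_integral (hγ.integrable_sq hq)
          (ae_of_all _ fun x => mul_nonneg (hγ.nonneg x) (sq_nonneg _))
    _ ≤ ∫ x, b * ‖q x‖ ^ 2 :=
        integral_mono (hγ.integrable_sq hq) ((integrable_norm_sq hq).const_mul b) fun x =>
          mul_le_mul_of_nonneg_right (hγ.bd x).2 (sq_nonneg _)
    _ = _ := integral_const_mul _ _

lemma en_congr {p q : E → E} (he : ∀ᵐ x, x ∈ ball (0 : E) 3 → p x = q x) : en γ p = en γ q := by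
  unfold en
  apply setIntegral_congr_ae measurableSet_ball
  filter_upwards [he] with x hx hxb
  rw [hx hxb]

/-- Dirichlet principle, lower bound -/
lemma Sol.le_ballEnergy (h1 : C1Stmt) (hγ : Cond γ a b) (hφ : ContDiff ℝ 1 φ) (hs : Sol γ φ h)
    {W : E → ℝ} (hW : IsCompetitor φ W) : en γ h ≤ ballEnergy γ W := by
  obtain ⟨w, k, H, hk⟩ := hs.datum
  have H1 := isH_indicator h1 (f := fun x => W x - φ x) (hW.1.sub hφ)
    (fun x hx => by rw [hW.2 x hx, sub_self])
  have H2 := H1.sub H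
  have e := hs.en_add hγ H2
  have e2 : ballEnergy γ W = en γ (fun x => h x +
      ((ball (0 : E) 3).indicator (∇ fun x => W x - φ x) x - k x)) := by
    show en γ (∇ W) = _
    apply en_congr
    filter_upwards [hk] with x hx hxb
    rw [hx hxb, indicator_of_mem hxb,
      grad_sub (hW.1.differentiable (by simp) x) (hφ.differentiable (by simp) x)]
    abel
  rw [e2, e]
  linarith [en_nonneg hγ
    (fun x => (ball (0 : E) 3).indicator (∇ fun x => W x - φ x) x - k x)]

/-- Dirichlet principle, approximation by competitors -/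
lemma Sol.exists_competitor (hγ : Cond γ a b) (hφ : ContDiff ℝ 1 φ) (hs : Sol γ φ h) {ε : ℝ}
    (hε : 0 < ε) : ∃ W, IsCompetitor φ W ∧ ballEnergy γ W < en γ h + ε := by
  obtain ⟨w, k, H, hk⟩ := hs.datum
  have hb : 0 < b := hγ.pos.trans_le ((hγ.bd 0).1.trans (hγ.bd 0).2)
  obtain ⟨η, hη, -, hη2⟩ := H.approx (ε / (2 * b)) (by positivity)
  refine ⟨fun x => φ x + η x, ⟨hφ.add hη.contDiff_one, fun x hx => ?_⟩, ?_⟩
  · show φ x + η x = φ x
    rw [hη.eq_zero (x := x) (by simp [hx]), add_zero]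
  have H2 := hη.isH.sub H
  have e := hs.en_add hγ H2
  have e2 : ballEnergy γ (fun x => φ x + η x) = en γ (fun x => h x + (∇ η x - k x)) := by
    show en γ (∇ fun x => φ x + η x) = _
    apply en_congr
    filter_upwards [hk] with x hx hxb
    rw [hx hxb, grad_add (hφ.differentiable (by simp) x) (hη.differentiable x)]
    abel
  have e3 := en_le hγ H2.memg
  have e4 : ∫ x, ‖∇ η x - k x‖ ^ 2 = ∫ x, ‖k x - ∇ η x‖ ^ 2 := by
    simp_rw [norm_sub_rev]
  rw [e4] at e3
  have e5 : b * ∫ x, ‖k x - ∇ η x‖ ^ 2 ≤ ε / 2 := by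
    calc b * ∫ x, ‖k x - ∇ η x‖ ^ 2 ≤ b * (ε / (2 * b)) := by gcongr
      _ = ε / 2 := by field_simp
  rw [e2, e]
  linarith

/-- the energy only depends on the solution near the boundary -/
lemma Sol.en_eq (h1 : C1Stmt) {γ' : E → ℝ} {a' b' : ℝ} {h' : E → E} (hγ : Cond γ a b)
    (hγ' : Cond γ' a' b') (hφ : ContDiff ℝ 1 φ) (hs : Sol γ φ h) (hs' : Sol γ' φ h')
    (hγγ : ∀ x, 2 < ‖x‖ → γ x = γ' x) (hhh : ∀ᵐ x, 2 < ‖x‖ → h x = h' x) :
    en γ h = en γ' h' := by
  obtain ⟨χ, hχ, hχ1⟩ := exists_cutoff (r := 5 / 2) (R := 3) (by norm_num) (by norm_num)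
  have Hζ : IsH (ball 0 3) (fun x => χ x * φ x) (∇ fun x => χ x * φ x) :=
    h1 _ _ isOpen_ball (hχ.contDiff_one.mul hφ) hχ.cpt.mul_right
      ((tsupport_mul_subset_left).trans hχ.sub)
  set Z : E → E := ∇ fun x => χ x * φ x with hZ
  have hZ0 : ∀ x ∈ ball (0 : E) (5 / 2), Z x = ∇ φ x := fun x hx => by
    rw [hZ, grad_mul (hχ.differentiable x) (hφ.differentiable (by simp) x), (hχ1 x hx).1,
      (hχ1 x hx).2]
    simp
  have key : ∀ {γ : E → ℝ} {a b : ℝ} {h : E → E}, Cond γ a b → Sol γ φ h →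
      en γ h = ∫ x in ball (0 : E) 3, γ x * ⟪h x, ∇ φ x - Z x⟫ := by
    intro γ a b h hγ hs
    obtain ⟨w, k, H, hk⟩ := hs.datum
    have H2 := Hζ.add H
    have e0 := hs.setIntegral_eq_zero hγ H2
    have e1 : ∫ x in ball (0 : E) 3, γ x * ⟪h x, ∇ φ x - Z x⟫ =
        ∫ x in ball (0 : E) 3, (γ x * ‖h x‖ ^ 2 - γ x * ⟪h x, Z x + k x⟫) := by
      apply setIntegral_congr_ae measurableSet_ball
      filter_upwards [hk] with x hx hxb
      have : ∇ φ x - Z x = h x - (Z x + k x) := by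
        rw [hx hxb]
        abel
      rw [this, inner_sub_right, real_inner_self_eq_norm_sq]
      ring
    rw [e1, integral_sub (hγ.integrable_sq hs.mem).integrableOn
      (hγ.integrable_inner hs.mem H2.memg).integrableOn, e0, sub_zero]
    rfl
  rw [key hγ hs, key hγ' hs']
  apply setIntegral_congr_ae measurableSet_ball
  filter_upwards [hhh] with x hx _
  rcases lt_or_ge 2 ‖x‖ with h2 | h2
  · rw [hx h2, hγγ x h2]
  · rw [hZ0 x (by rw [mem_ball_zero_iff]; linarith)]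
    simp

/-- equality of the boundary energies from solutions agreeing near the boundary -/
lemma same_of_sol (h1 : C1Stmt) {γ' : E → ℝ} {a' b' : ℝ} (hγ : Cond γ a b) (hγ' : Cond γ' a' b')
    (hγγ : ∀ x, 2 < ‖x‖ → γ x = γ' x)
    (H : ∀ φ : E → ℝ, ContDiff ℝ 1 φ → ∃ h h', Sol γ φ h ∧ Sol γ' φ h' ∧
      ∀ᵐ x, 2 < ‖x‖ → h x = h' x) : SameBoundaryEnergies γ γ' := by
  intro φ hφ
  obtain ⟨h, h', hs, hs', hhh⟩ := H φ hφ
  have e := hs.en_eq h1 hγ hγ' hφ hs' hγγ hhh
  constructor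
  · intro u hu ε hε
    obtain ⟨W, hW, hlt⟩ := hs'.exists_competitor hγ' hφ hε
    exact ⟨W, hW, by linarith [hs.le_ballEnergy h1 hγ hφ hu]⟩
  · intro u hu ε hε
    obtain ⟨W, hW, hlt⟩ := hs.exists_competitor hγ hφ hε
    exact ⟨W, hW, by linarith [hs'.le_ballEnergy h1 hγ' hφ hu]⟩

end Gauge

end

end Crest.Agent.R83
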