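import Crest.Agent.R83.Basic

/-!
Row 83: geometry of the confocal prolate spheroids.
-/

set_option autoImplicit false

open MeasureTheory Set Filter Topology Metric
open scoped Gradient ContDiff RealInnerProductSpace ENNReal

namespace Crest.Agent.R83

noncomputable section

namespace Geom

/-- the second confocal parameter -/
def mu (x : E) : ℝ := (‖x + e0‖ - ‖x - e0‖) / 2

@[simp] lemma e0_zero : e0 0 = 1 := by simp [e0]
@[simp] lemma e0_one : e0 1 = 0 := by simp [e0]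
@[simp] lemma e0_two : e0 2 = 0 := by simp [e0]
lemma norm_e0 : ‖e0‖ = 1 := by simp [e0]

lemma r1_eq (x : E) : ‖x - e0‖ = rr x - mu x := by unfold rr mu; ring
lemma r2_eq (x : E) : ‖x + e0‖ = rr x + mu x := by unfold rr mu; ring

lemma r1_sq (x : E) : ‖x - e0‖ ^ 2 = (x 0 - 1) ^ 2 + x 1 ^ 2 + x 2 ^ 2 := by
  rw [norm_sq_eq_three]; simp

lemma r2_sq (x : E) : ‖x + e0‖ ^ 2 = (x 0 + 1) ^ 2 + x 1 ^ 2 + x 2 ^ 2 := by
  rw [norm_sq_eq_three]; simp

lemma key1 (x : E) : rr x ^ 2 + mu x ^ 2 = x 0 ^ 2 + x 1 ^ 2 + x 2 ^ 2 + 1 := by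
  have h1 := r1_sq x
  have h2 := r2_sq x
  rw [r1_eq] at h1
  rw [r2_eq] at h2
  linarith

lemma key2 (x : E) : rr x * mu x = x 0 := by
  have h1 := r1_sq x
  have h2 := r2_sq x
  rw [r1_eq] at h1
  rw [r2_eq] at h2
  linarith

lemma norm_two : ∀ x : E, ‖(x + e0) - (x - e0)‖ = 2 := fun x => by
  rw [show (x + e0) - (x - e0) = (2 : ℝ) • e0 by rw [two_smul]; abel, norm_smul, norm_e0]
  simp

lemma one_le (x : E) : 1 ≤ rr x := by
  have := norm_sub_le (x + e0) (x - e0)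
  rw [norm_two] at this
  unfold rr
  linarith

lemma mu_sq_le (x : E) : mu x ^ 2 ≤ 1 := by
  have := abs_norm_sub_norm_le (x + e0) (x - e0)
  rw [norm_two, abs_le] at this
  unfold mu
  nlinarith [this.1, this.2]

lemma key3 (x : E) : x 1 ^ 2 + x 2 ^ 2 = (rr x ^ 2 - 1) * (1 - mu x ^ 2) := by
  have h1 := key1 x
  rw [← key2 x] at h1
  linarith

lemma cont : Continuous rr := by unfold rr; fun_prop

lemma lip (x y : E) : |rr x - rr y| ≤ ‖x - y‖ := by
  have h1 := abs_norm_sub_norm_le (x - e0) (y - e0)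
  have h2 := abs_norm_sub_norm_le (x + e0) (y + e0)
  rw [sub_sub_sub_cancel_right, abs_le] at h1
  rw [add_sub_add_right_eq_sub, abs_le] at h2
  unfold rr
  rw [abs_le]
  constructor <;> linarith [h1.1, h1.2, h2.1, h2.2]

lemma norm_le (x : E) : ‖x‖ ≤ rr x := by
  have := norm_add_le (x - e0) (x + e0)
  rw [show (x - e0) + (x + e0) = (2 : ℝ) • x by rw [two_smul]; abel, norm_smul] at this
  simp only [Real.norm_ofNat] at this
  unfold rr
  linarith

lemma sq_le (x : E) : rr x ^ 2 ≤ ‖x‖ ^ 2 + 1 := by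
  rw [norm_sq_eq_three, ← key1]
  nlinarith [sq_nonneg (mu x)]

lemma r1_pos {x : E} (h : 1 < rr x) : 0 < rr x - mu x := by
  nlinarith [mu_sq_le x, sq_nonneg (mu x - 1)]

lemma r2_pos {x : E} (h : 1 < rr x) : 0 < rr x + mu x := by
  nlinarith [mu_sq_le x, sq_nonneg (mu x + 1)]

lemma ne1 {x : E} (h : 1 < rr x) : x - e0 ≠ 0 := by
  rw [← norm_pos_iff, r1_eq]; exact r1_pos h

lemma ne2 {x : E} (h : 1 < rr x) : x + e0 ≠ 0 := by
  rw [← norm_pos_iff, r2_eq]; exact r2_pos h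

lemma smooth (x : E) (h : 1 < rr x) : ContDiffAt ℝ ∞ rr x := by
  have h1 : ContDiffAt ℝ ∞ (fun y : E => ‖y - e0‖) x :=
    (contDiffAt_id.sub contDiffAt_const).norm ℝ (ne1 h)
  have h2 : ContDiffAt ℝ ∞ (fun y : E => ‖y + e0‖) x :=
    (contDiffAt_id.add contDiffAt_const).norm ℝ (ne2 h)
  exact (h1.add h2).div_const 2

lemma diff {x : E} (h : 1 < rr x) : DifferentiableAt ℝ rr x :=
  (smooth x h).differentiableAt (by simp)

lemma one_sub_eq (ρ : ℝ) (x : E) (hρ : 1 < ρ) :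
    1 - (x 0 ^ 2 / ρ ^ 2 + (x 1 ^ 2 + x 2 ^ 2) / (ρ ^ 2 - 1)) =
      (ρ ^ 2 - rr x ^ 2) * ((ρ ^ 2 - mu x ^ 2) / (ρ ^ 2 * (ρ ^ 2 - 1))) := by
  have h1 : ρ ^ 2 - 1 ≠ 0 := by nlinarith
  have h2 : ρ ≠ 0 := by linarith
  rw [key3, ← key2]
  field_simp
  ring

lemma fac_pos (ρ : ℝ) (x : E) (hρ : 1 < ρ) :
    0 < (ρ ^ 2 - mu x ^ 2) / (ρ ^ 2 * (ρ ^ 2 - 1)) := by
  have h1 : 0 < ρ ^ 2 - 1 := by nlinarith
  have h2 : 0 < ρ ^ 2 - mu x ^ 2 := by linarith [mu_sq_le x]
  have h3 : 0 < ρ := by linarith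
  positivity

lemma ellipsoid (x : E) (h : 1 < rr x) :
    x 0 ^ 2 / rr x ^ 2 + (x 1 ^ 2 + x 2 ^ 2) / (rr x ^ 2 - 1) = 1 := by
  have := one_sub_eq (rr x) x h
  rw [sub_self, zero_mul] at this
  linarith

lemma le_iff (ρ : ℝ) (x : E) (hρ : 1 < ρ) :
    rr x ≤ ρ ↔ x 0 ^ 2 / ρ ^ 2 + (x 1 ^ 2 + x 2 ^ 2) / (ρ ^ 2 - 1) ≤ 1 := by
  rw [← sub_nonneg (a := 1), one_sub_eq ρ x hρ, mul_nonneg_iff_of_pos_right (fac_pos ρ x hρ),
    sub_nonneg, sq_le_sq₀ (by linarith [one_le x]) (by linarith)]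

lemma rr_eq_of {ρ : ℝ} {x : E} (hρ : 1 < ρ)
    (h : x 0 ^ 2 / ρ ^ 2 + (x 1 ^ 2 + x 2 ^ 2) / (ρ ^ 2 - 1) = 1) : rr x = ρ := by
  have h1 := one_sub_eq ρ x hρ
  rw [h, sub_self, eq_comm, mul_eq_zero] at h1
  rcases h1 with h1 | h1
  · have := (sq_eq_sq₀ (by linarith) (by linarith [one_le x])).1 (sub_eq_zero.1 h1)
    exact this.symm
  · exact absurd h1 (fac_pos ρ x hρ).ne'

lemma hasGradientAt_norm {x c : E} (h : x - c ≠ 0) :
    HasGradientAt (fun y : E => ‖y - c‖) (‖x - c‖⁻¹ • (x - c)) x := by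
  rw [hasGradientAt_iff_hasFDerivAt]
  have h0 : ‖x - c‖ ≠ 0 := norm_ne_zero_iff.2 h
  have h1 : HasFDerivAt (fun y : E => ‖y - c‖ ^ 2) _ x :=
    ((hasFDerivAt_id x).sub_const c).norm_sq
  have h2 := h1.sqrt (pow_ne_zero 2 h0)
  simp only [Real.sqrt_sq (norm_nonneg _)] at h2
  refine h2.congr_fderiv ?_
  ext v
  simp only [smul_apply, ContinuousLinearMap.comp_apply,
    ContinuousLinearMap.id_apply, innerSL_apply_apply, InnerProductSpace.toDual_apply_apply,
    real_inner_smul_left, id, smul_eq_mul, nsmul_eq_mul, Nat.cast_ofNat]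
  field_simp

/-- explicit formula for the gradient of `rr` -/
def gg (x : E) : E := (1 / 2 : ℝ) • (‖x - e0‖⁻¹ • (x - e0) + ‖x - -e0‖⁻¹ • (x - -e0))

lemma grad_rr {x : E} (h : 1 < rr x) : ∇ rr x = gg x := by
  have h1 := hasGradientAt_norm (ne1 h)
  have h2 := hasGradientAt_norm (x := x) (c := -e0) (by rw [sub_neg_eq_add]; exact ne2 h)
  have e : rr = fun y => (1 / 2 : ℝ) * (‖y - e0‖ + ‖y - -e0‖) := by
    funext y; unfold rr; rw [sub_neg_eq_add]; ring
  rw [e, grad_const_mul, grad_add h1.differentiableAt h2.differentiableAt, h1.gradient,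
    h2.gradient, gg]

lemma gg_zero {x : E} (h : 1 < rr x) :
    gg x 0 = mu x * (rr x ^ 2 - 1) / ((rr x - mu x) * (rr x + mu x)) := by
  have h1 := (r1_pos h).ne'
  have h2 := (r2_pos h).ne'
  simp only [gg, sub_neg_eq_add, r1_eq, r2_eq, PiLp.smul_apply, PiLp.add_apply, PiLp.sub_apply,
    smul_eq_mul, e0_zero, ← key2 x]
  field_simp
  ring

lemma gg_one {x : E} (h : 1 < rr x) :
    gg x 1 = rr x * x 1 / ((rr x - mu x) * (rr x + mu x)) := by
  have h1 := (r1_pos h).ne'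
  have h2 := (r2_pos h).ne'
  simp only [gg, sub_neg_eq_add, r1_eq, r2_eq, PiLp.smul_apply, PiLp.add_apply, PiLp.sub_apply,
    smul_eq_mul, e0_one]
  field_simp
  ring

lemma gg_two {x : E} (h : 1 < rr x) :
    gg x 2 = rr x * x 2 / ((rr x - mu x) * (rr x + mu x)) := by
  have h1 := (r1_pos h).ne'
  have h2 := (r2_pos h).ne'
  simp only [gg, sub_neg_eq_add, r1_eq, r2_eq, PiLp.smul_apply, PiLp.add_apply, PiLp.sub_apply,
    smul_eq_mul, e0_two]
  field_simp
  ring

lemma norm_gg_sq {x : E} (h : 1 < rr x) :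
    ‖gg x‖ ^ 2 = (rr x ^ 2 - 1) / ((rr x - mu x) * (rr x + mu x)) := by
  have h1 := (r1_pos h).ne'
  have h2 := (r2_pos h).ne'
  rw [norm_sq_eq_three, gg_zero h, gg_one h, gg_two h]
  field_simp
  linear_combination (rr x ^ 2) * key3 x

lemma norm_nu_sq {x : E} (h : 1 < rr x) :
    ‖nu x‖ ^ 2 = (rr x - mu x) * (rr x + mu x) / (rr x ^ 2 * (rr x ^ 2 - 1)) := by
  have h1 : rr x ^ 2 - 1 ≠ 0 := by nlinarith
  have h2 : rr x ≠ 0 := by linarith
  rw [norm_sq_eq_three]
  simp only [nu, PiLp.toLp_apply, Matrix.cons_val_zero, Matrix.cons_val_one, Matrix.cons_val,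
    ← key2 x]
  field_simp
  linear_combination (rr x ^ 2) * key3 x

lemma grad (x : E) (h : 1 < rr x) : nu x ≠ 0 ∧ ∇ rr x = (rr x * ‖nu x‖ ^ 2)⁻¹ • nu x := by
  have h1 := r1_pos h
  have h2 := r2_pos h
  have h3 : 0 < rr x ^ 2 - 1 := by nlinarith
  have h4 : 0 < rr x := by linarith
  constructor
  · intro h0
    have := norm_nu_sq h
    rw [h0, norm_zero] at this
    have h5 : 0 < (rr x - mu x) * (rr x + mu x) / (rr x ^ 2 * (rr x ^ 2 - 1)) := by positivity
    rw [← this] at h5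
    simp at h5
  · rw [grad_rr h, norm_nu_sq h]
    ext i
    fin_cases i
    · change gg x 0 = _ * (x 0 / rr x ^ 2)
      rw [gg_zero h, ← key2 x]
      field_simp
    · change gg x 1 = _ * (x 1 / (rr x ^ 2 - 1))
      rw [gg_one h]
      field_simp
    · change gg x 2 = _ * (x 2 / (rr x ^ 2 - 1))
      rw [gg_two h]
      field_simp

lemma compact (β : ℝ) : IsCompact {x | rr x ≤ β} :=
  (isCompact_closedBall (0 : E) β).of_isClosed_subset (isClosed_le cont continuous_const)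
    fun x hx => mem_closedBall_zero_iff.2 ((norm_le x).trans hx)

lemma shell_conn (α β : ℝ) (hα : 1 ≤ α) : IsPreconnected {x | α < rr x ∧ rr x < β} := by
  let Φ : E × ℝ → E := fun p =>
    !₂[p.2 * p.1 0, √(p.2 ^ 2 - 1) * p.1 1, √(p.2 ^ 2 - 1) * p.1 2]
  have hΦ : Continuous Φ := by
    refine (PiLp.continuous_toLp 2 _).comp (continuous_pi fun i => ?_)
    fin_cases i <;> simp <;> fun_prop
  have hs : IsPreconnected (sphere (0 : E) 1 ×ˢ Ioo α β) :=
    (isPreconnected_sphere (by simp [← Module.finrank_eq_rank]) 0 1).prod isPreconnected_Ioo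
  have e : {x | α < rr x ∧ rr x < β} = Φ '' (sphere (0 : E) 1 ×ˢ Ioo α β) := by
    ext x
    constructor
    · rintro ⟨h1, h2⟩
      have h : 1 < rr x := lt_of_le_of_lt hα h1
      have h3 : 0 < rr x ^ 2 - 1 := by nlinarith
      have h4 : rr x ≠ 0 := by linarith
      have h5 : √(rr x ^ 2 - 1) ≠ 0 := (Real.sqrt_pos.2 h3).ne'
      refine ⟨(!₂[x 0 / rr x, x 1 / √(rr x ^ 2 - 1), x 2 / √(rr x ^ 2 - 1)], rr x),
        ⟨?_, h1, h2⟩, ?_⟩
      · rw [mem_sphere_zero_iff_norm, ← sq_eq_sq₀ (norm_nonneg _) zero_le_one, norm_sq_eq_three,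
          one_pow]
        refine Eq.trans ?_ (ellipsoid x h)
        simp only [Matrix.cons_val_zero, Matrix.cons_val_one, Matrix.cons_val,
          div_pow, Real.sq_sqrt h3.le]
        ring
      · ext i
        fin_cases i
        · change rr x * (x 0 / rr x) = x 0
          field_simp
        · change √(rr x ^ 2 - 1) * (x 1 / √(rr x ^ 2 - 1)) = x 1
          field_simp
        · change √(rr x ^ 2 - 1) * (x 2 / √(rr x ^ 2 - 1)) = x 2
          field_simp
    · rintro ⟨⟨w, ρ⟩, ⟨hw, h1, h2⟩, rfl⟩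
      have h : 1 < ρ := lt_of_le_of_lt hα h1
      have h3 : 0 < ρ ^ 2 - 1 := by nlinarith
      have h4 : ρ ≠ 0 := by linarith
      have h5 : w 0 ^ 2 + w 1 ^ 2 + w 2 ^ 2 = 1 := by
        rw [← norm_sq_eq_three, mem_sphere_zero_iff_norm.1 hw, one_pow]
      have : rr (Φ (w, ρ)) = ρ := by
        apply rr_eq_of h
        change (ρ * w 0) ^ 2 / ρ ^ 2 + ((√(ρ ^ 2 - 1) * w 1) ^ 2 + (√(ρ ^ 2 - 1) * w 2) ^ 2) /
          (ρ ^ 2 - 1) = 1
        rw [mul_pow, mul_pow, mul_pow, Real.sq_sqrt h3.le]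
        refine Eq.trans ?_ h5
        field_simp
        ring
      change α < rr _ ∧ rr _ < β
      rw [this]
      exact ⟨h1, h2⟩
  rw [e]
  exact hs.image _ hΦ.continuousOn

lemma ev_lt {x : E} {α : ℝ} (h : rr x < α) : ∀ᶠ y in 𝓝 x, rr y < α :=
  cont.continuousAt.eventually_lt continuousAt_const h

lemma ev_gt {x : E} {α : ℝ} (h : α < rr x) : ∀ᶠ y in 𝓝 x, α < rr y :=
  continuousAt_const.eventually_lt cont.continuousAt h

lemma comp_smooth (h : ℝ → ℝ) (α : ℝ) (hα : 1 < α) (hs : ContDiffOn ℝ ∞ h (Ioi 1))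
    (hc : ∀ t, t ≤ α → h t = h α) : ContDiff ℝ ∞ (fun x => h (rr x)) := by
  rw [contDiff_iff_contDiffAt]
  intro x
  by_cases hx : rr x < α
  · exact (contDiffAt_const (c := h α)).congr_of_eventuallyEq
      ((ev_lt hx).mono fun y hy => hc _ hy.le)
  · have h1 : 1 < rr x := by linarith
    exact (hs.contDiffAt (Ioi_mem_nhds h1)).comp x (smooth x h1)

lemma grad_comp' (h : ℝ → ℝ) (h' : ℝ) (x : E) (hx : 1 < rr x) (hd : HasDerivAt h h' (rr x)) :
    HasGradientAt (fun y => h (rr y)) (h' • ∇ rr x) x := by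
  rw [← grad_comp hd (diff hx)]
  exact (hd.differentiableAt.comp x (diff hx)).hasGradientAt

lemma N_smooth (x : E) (h : 1 < rr x) : ContDiffAt ℝ ∞ NN x := by
  have h1 : rr x - 1 ≠ 0 := by linarith
  have h2 : rr x + 1 ≠ 0 := by linarith
  exact ((((smooth x h).add contDiffAt_const).div ((smooth x h).sub contDiffAt_const) h1).log
    (div_ne_zero h2 h1)).div_const 2

lemma N_grad (x : E) (h : 1 < rr x) : ∇ NN x = -(rr x ^ 2 - 1)⁻¹ • ∇ rr x := by
  have h1 : rr x - 1 ≠ 0 := by linarith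
  have h2 : rr x + 1 ≠ 0 := by linarith
  have h3 : rr x ^ 2 - 1 ≠ 0 := by nlinarith
  have hd : HasDerivAt (fun t : ℝ => Real.log ((t + 1) / (t - 1)) / 2) (-(rr x ^ 2 - 1)⁻¹)
      (rr x) := by
    have := ((((hasDerivAt_id' (rr x)).add_const 1).div ((hasDerivAt_id' (rr x)).sub_const 1)
      h1).log (div_ne_zero h2 h1)).div_const 2
    refine this.congr_deriv ?_
    simp only [Pi.div_apply]
    field_simp
    ring
  exact grad_comp hd (diff h)

lemma dvg_unit {x c : E} (h : x - c ≠ 0) :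
    DifferentiableAt ℝ (fun y : E => ‖y - c‖⁻¹ • (y - c)) x ∧
      dvg (fun y : E => ‖y - c‖⁻¹ • (y - c)) x = 2 / ‖x - c‖ := by
  have h0 : ‖x - c‖ ≠ 0 := norm_ne_zero_iff.2 h
  have h1 := hasGradientAt_norm h
  have h2 : DifferentiableAt ℝ (fun y : E => ‖y - c‖⁻¹) x := h1.differentiableAt.inv h0
  have h3 : DifferentiableAt ℝ (fun y : E => y - c) x := by fun_prop
  refine ⟨h2.smul h3, ?_⟩
  have h4 : dvg (fun y : E => y - c) x = 3 := by
    simp only [sub_eq_add_neg]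
    rw [dvg_add (v := fun y => y) (w := fun _ => -c) (by fun_prop) (by fun_prop), dvg_id,
      dvg_const, add_zero]
  rw [dvg_smul h2 h3, h4, grad_comp (β := fun t => t⁻¹) (φ := fun y : E => ‖y - c‖)
    (hasDerivAt_inv h0) h1.differentiableAt, h1.gradient, real_inner_smul_left,
    real_inner_smul_left, real_inner_self_eq_norm_sq]
  field_simp
  ring

lemma dvg_gg {x : E} (h : 1 < rr x) : DifferentiableAt ℝ gg x ∧
    dvg gg x = 2 * rr x / ((rr x - mu x) * (rr x + mu x)) := by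
  obtain ⟨a1, a2⟩ := dvg_unit (ne1 h)
  obtain ⟨b1, b2⟩ := dvg_unit (x := x) (c := -e0) (by rw [sub_neg_eq_add]; exact ne2 h)
  refine ⟨(a1.add b1).const_smul (1 / 2 : ℝ), ?_⟩
  have h1 := (r1_pos h).ne'
  have h2 := (r2_pos h).ne'
  have := dvg_smul (f := fun _ => (1 / 2 : ℝ)) (differentiableAt_const _) (a1.fun_add b1)
  rw [dvg_add a1 b1, a2, b2, gradient_fun_const, inner_zero_left, sub_neg_eq_add, r1_eq,
    r2_eq] at this
  refine this.trans ?_
  field_simp
  ring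

lemma N_harm (η : E → ℝ) (hη : Test {x | 1 < rr x} η) : ∫ x, ⟪∇ NN x, ∇ η x⟫ = 0 := by
  refine integral_inner_grad_eq_zero (isOpen_lt continuous_const cont) (fun x hx => ?_) hη
  have h : 1 < rr x := hx
  refine ⟨(contDiffAt_grad (N_smooth x h)).of_le (by exact_mod_cast le_top), ?_⟩
  have h1 := (r1_pos h).ne'
  have h2 := (r2_pos h).ne'
  have h3 : rr x ^ 2 - 1 ≠ 0 := by nlinarith
  have e : ∇ NN =ᶠ[𝓝 x] fun y => -(rr y ^ 2 - 1)⁻¹ • gg y :=
    (ev_gt h).mono fun y hy => by rw [N_grad y hy, grad_rr hy]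
  have hd : HasDerivAt (fun t : ℝ => -(t ^ 2 - 1)⁻¹) (2 * rr x / (rr x ^ 2 - 1) ^ 2) (rr x) := by
    have := (((hasDerivAt_pow 2 (rr x)).sub_const 1).inv h3).neg
    refine this.congr_deriv ?_
    simp [neg_div]
  have hg := grad_comp' _ _ x h hd
  rw [dvg_congr e, dvg_smul hg.differentiableAt (dvg_gg h).1, hg.gradient, (dvg_gg h).2,
    grad_rr h, real_inner_smul_left, real_inner_self_eq_norm_sq, norm_gg_sq h]
  field_simp
  ring

lemma SS_zero (i : Fin 2) (x : E) : SS i x 0 = sg i * (53 / 100) + 13 / 25 * x 1 := by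
  simp [SS, cc, kap]

lemma SS_one (i : Fin 2) (x : E) : SS i x 1 = 13 / 25 * x 0 := by
  simp [SS, cc, kap]

lemma SS_two (i : Fin 2) (x : E) : SS i x 2 = 13 / 25 * x 2 := by
  simp [SS, cc, kap]

lemma child (i : Fin 2) (x : E) (h : rr x ≤ 141 / 100) : rr (SS i x) ≤ 134 / 100 := by
  rw [le_iff _ _ (by norm_num)] at h ⊢
  rw [SS_zero, SS_one, SS_two]
  norm_num at h ⊢
  fin_cases i
  · simp only [Fin.zero_eta, sg_zero]
    nlinarith [sq_nonneg (x 1 - 1 / 2), sq_nonneg (x 2)]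
  · simp only [Fin.mk_one, sg_one]
    nlinarith [sq_nonneg (x 1 + 1 / 2), sq_nonneg (x 2)]

lemma child_sign (i : Fin 2) (x : E) (h : rr x ≤ 141 / 100) : 0 < sg i * SS i x 0 := by
  rw [le_iff _ _ (by norm_num)] at h
  rw [SS_zero]
  norm_num at h
  have h1 : x 1 ^ 2 ≤ 1 := by nlinarith [sq_nonneg (x 0), sq_nonneg (x 2)]
  fin_cases i
  · simp only [Fin.zero_eta, sg_zero]
    nlinarith [sq_nonneg (x 1 + 1)]
  · simp only [Fin.mk_one, sg_one]
    nlinarith [sq_nonneg (x 1 - 1)]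

lemma th_smooth : ContDiff ℝ ∞ th :=
  comp_smooth (fun t => 1 - step (1393 / 1000) (1397 / 1000) t) (1393 / 1000) (by norm_num)
    (contDiff_const.sub (step_contDiff _ _)).contDiffOn fun t ht => by
      rw [step_of_le (by norm_num) ht, step_of_le (by norm_num) le_rfl]

lemma th_test : Test {x | rr x < 14 / 10} th :=
  Test.of_zero_off th_smooth (compact (1397 / 1000))
    (fun x hx => lt_of_le_of_lt (b := (1397 / 1000 : ℝ)) hx (by norm_num)) fun x hx => by
      rw [th, step_of_ge (by norm_num) (not_le.1 hx).le, sub_self]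

lemma grad_th_zero {x : E} (h : rr x < 1393 / 1000 ∨ 1397 / 1000 < rr x) : ∇ th x = 0 := by
  rcases h with h | h
  · exact grad_eq_zero_of_eventually_const (c := 1) ((ev_lt h).mono fun y hy => by
      rw [th, step_of_le (by norm_num) hy.le, sub_zero])
  · exact grad_eq_zero_of_eventually_const (c := 0) ((ev_gt h).mono fun y hy => by
      rw [th, step_of_ge (by norm_num) hy.le, sub_self])

lemma f1_V1_zero (x : E) (h : rr x < 1393 / 1000 ∨ 1397 / 1000 < rr x) : f1 x = 0 ∧ V1 x = 0 := by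
  simp [f1, V1, grad_th_zero h]

lemma f1_cont : Continuous f1 := by
  rw [continuous_iff_continuousAt]
  intro x
  by_cases hx : rr x < 1393 / 1000
  · exact (continuousAt_const (y := (0 : ℝ))).congr
      ((ev_lt hx).mono fun y hy => (f1_V1_zero y (Or.inl hy)).1.symm)
  · exact (contDiffAt_grad (N_smooth x (by linarith))).continuousAt.inner
      th_test.continuous_grad.continuousAt

lemma V1_cont : Continuous V1 := by
  rw [continuous_iff_continuousAt]
  intro x
  by_cases hx : rr x < 1393 / 1000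
  · exact (continuousAt_const (y := (0 : E))).congr
      ((ev_lt hx).mono fun y hy => (f1_V1_zero y (Or.inl hy)).2.symm)
  · exact (N_smooth x (by linarith)).continuousAt.neg.smul th_test.continuous_grad.continuousAt

lemma f1_eq {x : E} (h : 1 < rr x) : f1 x = deriv (step (1393 / 1000) (1397 / 1000)) (rr x) /
    ((rr x - mu x) * (rr x + mu x)) := by
  have h1 := (r1_pos h).ne'
  have h2 := (r2_pos h).ne'
  have h3 : rr x ^ 2 - 1 ≠ 0 := by nlinarith
  have hg : ∇ th x = (-deriv (step (1393 / 1000) (1397 / 1000)) (rr x)) • ∇ rr x :=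
    grad_comp (β := fun t => 1 - step (1393 / 1000) (1397 / 1000) t)
      ((step_hasDerivAt _ _ _).const_sub 1) (diff h)
  rw [f1, hg, N_grad x h, grad_rr h, real_inner_smul_left, real_inner_smul_right,
    real_inner_self_eq_norm_sq, norm_gg_sq h]
  field_simp

lemma f1_nonneg (x : E) : 0 ≤ f1 x := by
  by_cases hx : rr x < 1393 / 1000
  · exact (f1_V1_zero x (Or.inl hx)).1.ge
  · have h : 1 < rr x := by linarith
    rw [f1_eq h]
    exact div_nonneg (deriv_step_nonneg (by norm_num) _) (mul_pos (r1_pos h) (r2_pos h)).le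

lemma rr_axis {t s : ℝ} (ht : 1 < t) (hs : s ^ 2 = 1) : rr ((s * t) • e0) = t := by
  apply rr_eq_of ht
  have : t ≠ 0 := by linarith
  simp [mul_pow, hs, this]

lemma f1_pos : 0 < ∫ x, f1 x := by
  obtain ⟨t, ⟨h1, h2⟩, ht⟩ := exists_deriv_eq_slope (step (1393 / 1000) (1397 / 1000))
    (by norm_num : (1393 / 1000 : ℝ) < 1397 / 1000) (step_contDiff _ _).continuous.continuousOn
    ((step_contDiff _ _).differentiable (by simp)).differentiableOn
  rw [step_of_ge (by norm_num) le_rfl, step_of_le (by norm_num) le_rfl] at ht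
  have hr : rr (((1 : ℝ) * t) • e0) = t := rr_axis (by linarith) (by norm_num)
  have h : 1 < rr (((1 : ℝ) * t) • e0) := by rw [hr]; linarith
  refine f1_cont.integral_pos_of_hasCompactSupport_nonneg_nonzero (x := ((1 : ℝ) * t) • e0)
    (HasCompactSupport.intro (compact (1397 / 1000))
      fun x hx => (f1_V1_zero x (Or.inr (not_le.1 hx))).1) f1_nonneg ?_
  rw [f1_eq h]
  refine (div_pos ?_ (mul_pos (r1_pos h) (r2_pos h))).ne'
  rw [hr, ht]
  norm_num

lemma sg_sq (i : Fin 2) : sg i ^ 2 = 1 := by fin_cases i <;> simp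

lemma rr_TT_axis (j : Fin 2) (t : ℝ) :
    rr (TT j (t • e0)) ^ 2 = 1 + ((t - sg j * (53 / 100)) * (25 / 13)) ^ 2 := by
  have h0 : TT j (t • e0) 0 = 0 := by simp [TT, cc]
  have h1 : TT j (t • e0) 1 = (t - sg j * (53 / 100)) * (25 / 13) := by
    simp [TT, cc, kap, mul_comm]
  have h2 : TT j (t • e0) 2 = 0 := by simp [TT, cc]
  have k1 := key1 (TT j (t • e0))
  have k2 := key2 (TT j (t • e0))
  rw [h0, mul_eq_zero] at k2
  have k3 : mu (TT j (t • e0)) = 0 := k2.resolve_left (by linarith [one_le (TT j (t • e0))])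
  rw [h0, h1, h2, k3] at k1
  linarith

lemma conn : ∃ U : Set E, IsOpen U ∧ IsPreconnected U ∧
    (∀ x ∈ U, rr x < 137 / 100 ∧ ∀ i, 139 / 100 < rr (TT i x)) ∧
    (∀ x, 1355 / 1000 ≤ rr x → rr x ≤ 1365 / 1000 → x ∈ U) ∧
    (∀ i x, 1393 / 1000 ≤ rr (TT i x) → rr (TT i x) ≤ 1397 / 1000 → x ∈ U) := by
  let U0 : Set E := {x | rr x < 137 / 100 ∧ ∀ i, 139 / 100 < rr (TT i x)}
  have hU0 : IsOpen U0 := by
    refine (isOpen_lt cont continuous_const).inter ?_
    change IsOpen {x | ∀ i, 139 / 100 < rr (TT i x)}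
    rw [Set.ofPred_forall]
    exact isOpen_iInter_of_finite fun i =>
      isOpen_lt continuous_const (cont.comp (contDiff_TT i).continuous)
  let A : Set E := {x | 135 / 100 < rr x ∧ rr x < 137 / 100}
  let B : Fin 2 → Set E := fun i => SS i '' {x | 139 / 100 < rr x ∧ rr x < 14 / 10}
  let L : Fin 2 → Set E := fun i => (fun t : ℝ => (sg i * t) • e0) '' Icc (10358 / 10000) (136 / 100)
  have hA : IsPreconnected A := shell_conn _ _ (by norm_num)
  have hB : ∀ i, IsPreconnected (B i) := fun i =>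
    (shell_conn _ _ (by norm_num)).image _ (contDiff_SS i).continuous.continuousOn
  have hL : ∀ i, IsPreconnected (L i) := fun i => isPreconnected_Icc.image _ (by fun_prop)
  have hAU : A ⊆ U0 := fun x hx => ⟨hx.2, fun i => by
    by_contra hc
    have := child i (TT i x) (by linarith)
    rw [SS_TT] at this
    linarith [hx.1]⟩
  have hBU : ∀ i, B i ⊆ U0 := by
    rintro i _ ⟨y, ⟨h1, h2⟩, rfl⟩
    refine ⟨by linarith [child i y (by linarith)], fun j => ?_⟩
    by_cases hij : j = i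
    · rw [hij, TT_SS]
      exact h1
    · by_contra hc
      have h3 := child_sign j (TT j (SS i y)) (by linarith)
      have h4 := child_sign i y (by linarith)
      rw [SS_TT] at h3
      have h5 : sg j = -sg i := by
        revert hij
        fin_cases i <;> fin_cases j <;> simp
      rw [h5] at h3
      linarith
  have hLU : ∀ i, L i ⊆ U0 := by
    rintro i _ ⟨t, ⟨h1, h2⟩, rfl⟩
    refine ⟨by rw [rr_axis (by linarith) (sg_sq i)]; linarith, fun j => ?_⟩
    refine lt_of_pow_lt_pow_left₀ 2 (by linarith [one_le (TT j ((sg i * t) • e0))]) ?_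
    rw [rr_TT_axis]
    fin_cases i <;> fin_cases j <;> simp only [Fin.zero_eta, Fin.mk_one, sg_zero, sg_one] <;>
      nlinarith
  have hAL : ∀ i, (sg i * (136 / 100)) • e0 ∈ A := fun i => by
    change _ < rr _ ∧ rr _ < _
    rw [rr_axis (by norm_num) (sg_sq i)]
    norm_num
  have hLB : ∀ i, (sg i * (10358 / 10000)) • e0 ∈ B i := fun i => by
    refine ⟨TT i ((sg i * (10358 / 10000)) • e0), ?_, SS_TT _ _⟩
    have h1 := rr_TT_axis i (sg i * (10358 / 10000))
    have h2 := one_le (TT i ((sg i * (10358 / 10000)) • e0))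
    have h3 := sg_sq i
    constructor
    · refine lt_of_pow_lt_pow_left₀ 2 (by linarith) ?_
      nlinarith
    · refine lt_of_pow_lt_pow_left₀ 2 (by norm_num) ?_
      nlinarith
  have hL1 : ∀ i, (sg i * (136 / 100)) • e0 ∈ L i := fun i => ⟨136 / 100, by norm_num, rfl⟩
  have hL2 : ∀ i, (sg i * (10358 / 10000)) • e0 ∈ L i :=
    fun i => ⟨10358 / 10000, by norm_num, rfl⟩
  have hsub : ∀ i, A ∪ L i ∪ B i ⊆ connectedComponentIn U0 ((sg 0 * (136 / 100)) • e0) := fun i =>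
    (IsPreconnected.union (s := A ∪ L i) (t := B i) ((sg i * (10358 / 10000)) • e0)
      (Or.inr (hL2 i)) (hLB i)
      (IsPreconnected.union (s := A) (t := L i) ((sg i * (136 / 100)) • e0) (hAL i) (hL1 i) hA
        (hL i)) (hB i)).subset_connectedComponentIn
      (Or.inl (Or.inl (hAL 0))) (union_subset (union_subset hAU (hLU i)) (hBU i))
  refine ⟨connectedComponentIn U0 ((sg 0 * (136 / 100)) • e0), hU0.connectedComponentIn,
    isPreconnected_connectedComponentIn, fun x hx => connectedComponentIn_subset U0 _ hx,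
    fun x h1 h2 => hsub 0 (Or.inl (Or.inl ⟨by linarith, by linarith⟩)),
    fun i x h1 h2 => hsub i (Or.inr ⟨TT i x, ⟨by linarith, by linarith⟩, SS_TT _ _⟩)⟩

end Geom

open Geom in
theorem geomFacts : GeomFacts :=
  ⟨cont, lip, one_le, norm_le, sq_le, smooth, ellipsoid, le_iff, grad, compact, shell_conn,
    comp_smooth, grad_comp', N_smooth, N_grad, N_harm, child, child_sign, th_test, f1_cont,
    V1_cont, f1_nonneg, f1_V1_zero, f1_pos, conn⟩

end

end Crest.Agent.R83
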