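import Crest.Agent.R83.KillGlue

/-!
Row 83: proof of `KillStmt` from the geometry, Bogovskii, Weyl and convex integration statements.
-/

set_option autoImplicit false

open MeasureTheory Set Filter Topology Metric
open scoped Gradient ContDiff RealInnerProductSpace ENNReal

namespace Crest.Agent.R83

noncomputable section

namespace Kill

lemma assemble (hG : GeomFacts) {a b C B : ℝ} (ha : a ≤ 1) (hb : 1 ≤ b) (hC : 0 ≤ C) (hB : 0 ≤ B)
    {r : ℕ → ℝ} (hr : Antitone r) (hr0 : r 0 = 1386 / 1000)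
    (hl : Tendsto r atTop (𝓝 (1378 / 1000))) {s : ℕ → E → ℝ} {v : E → ℝ}
    {γ p : ℕ → E → ℝ} {G J : ℕ → E → E} (hv : v ∈ Hs B) (hs : ∀ i, s i ∈ Hs B)
    (hs0 : s 0 = fun _ => 0)
    (hlim : ∀ x, rr x ≤ 2 → Tendsto (fun i => s i x) atTop (𝓝 (v x)) ∧
        Tendsto (fun i => ∇ (s i) x) atTop (𝓝 (∇ v x)))
    (hO : ∀ i, Out a b C (r (i + 1)) (r i) ((1 / 2) ^ i) (s i) (s (i + 1)) (γ i) (p i) (G i)
      (J i)) :
    ∃ (γ' P : E → ℝ) (G' J' : E → E), Measurable γ' ∧ (∀ x, a ≤ γ' x ∧ γ' x ≤ b) ∧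
      (∀ x, rr x ≤ 1378 / 1000 ∨ 1386 / 1000 ≤ rr x → γ' x = 1) ∧
      IsH {x | rr x < 139 / 100} P G' ∧ MemLp J' 2 volume ∧
      (∀ x, rr x ≤ 1378 / 1000 → P x = v x ∧ G' x = ∇ v x ∧ J' x = ∇ v x) ∧
      (∀ x, |P x| ≤ B + 2) ∧
      (∀ᵐ x, 1378 / 1000 < rr x → γ' x • (∇ NN x + G' x) = ∇ NN x + J' x) ∧
      (∀ x, 1386 / 1000 ≤ rr x → P x = 0 ∧ G' x = 0 ∧ J' x = 0) ∧
      (∫ x in {x | 1378 / 1000 < rr x}, ‖G' x‖ ^ 2 ≤
        (2 * B ^ 2 + 2 * C) * (volume {x | rr x ≤ 1386 / 1000}).toReal +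
          (2 * B ^ 2 + 2 * C) * 2) ∧
      (∀ η, Test {x | 1374 / 1000 < rr x} η → ∫ x, ⟪J' x, ∇ η x⟫ = 0) ∧
      ∀ n x, rr x ≤ 1378 / 1000 ∨ r n < rr x →
        γ' x = 1 + ∑ i ∈ Finset.range n, (γ i x - 1) := by
  have hρ : ∀ n, 1378 / 1000 ≤ r n := fun n => hr.le_of_tendsto hl n
  have hg0 : ∀ x, ∇ (s 0) x = 0 := fun x => by rw [hs0, grad_zero']
  obtain ⟨Γ, Γ1, Γ2, Γ3, Γ4, Γ5, Γ6⟩ := lim_exists hr hl rr (fun _ _ => (0 : ℝ))
    (fun i x => γ i x - 1) (fun _ => 0) (fun _ => rfl)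
    (fun i x hx => by rw [(hO i).one x (Or.inr hx), sub_self])
    (fun i x hx => by rw [(hO i).one x (Or.inl hx), sub_self, sub_self])
    (fun _ _ => tendsto_const_nhds)
  obtain ⟨P, P1, P2, P3, P4, P5, P6⟩ := lim_exists hr hl rr s p v (fun x => by rw [hs0])
    (fun i x hx => ((hO i).out x hx).1) (fun i x hx => ((hO i).inn x hx).1)
    (fun x hx => (hlim x (by linarith)).1)
  obtain ⟨G', G1, G2, G3, G4, G5, G6⟩ := lim_exists hr hl rr (fun i => ∇ (s i)) G (∇ v) hg0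
    (fun i x hx => ((hO i).out x hx).2.1) (fun i x hx => ((hO i).inn x hx).2.1)
    (fun x hx => (hlim x (by linarith)).2)
  obtain ⟨J', J1, J2, J3, J4, J5, J6⟩ := lim_exists hr hl rr (fun i => ∇ (s i)) J (∇ v) hg0
    (fun i x hx => ((hO i).out x hx).2.2) (fun i x hx => ((hO i).inn x hx).2.2)
    (fun x hx => (hlim x (by linarith)).2)
  have hHn : ∀ n, IsH {x | rr x < 139 / 100} (fun x => ∑ i ∈ Finset.range n, p i x)
      (fun x => ∑ i ∈ Finset.range n, G i x) := fun n => IsH.sum _ fun i _ => (hO i).isH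
  have hJn : ∀ n, MemLp (fun x => ∑ i ∈ Finset.range n, J i x) 2 volume := fun n =>
    memLp_finsetSum _ fun i _ => (hO i).memJ
  have hsm : ∀ m, AEStronglyMeasurable (∇ (s m)) volume := fun m =>
    (hs m).1.cont_grad.aestronglyMeasurable
  obtain ⟨GM, GI⟩ := glueL2 hG hr hl hC (B := B)
    (aestronglyMeasurable_of_tendsto_ae atTop (fun n => (hHn n).memg.1) (Eventually.of_forall G1))
    (fun x hx => by rw [G2 x hx]; exact (hv.2.1 x).2) G3 G4 hsm (fun m x => ((hs m).2.1 x).2)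
    (fun m => (hO m).isH.memg) (fun m => (hO m).Gbd)
  obtain ⟨JL, -⟩ := glueL2 hG hr hl hC (B := B)
    (aestronglyMeasurable_of_tendsto_ae atTop (fun n => (hJn n).1) (Eventually.of_forall J1))
    (fun x hx => by rw [J2 x hx]; exact (hv.2.1 x).2) J3 J4 hsm (fun m x => ((hs m).2.1 x).2)
    (fun m => (hO m).memJ) (fun m => (hO m).Jbd)
  have Pb : ∀ x, |P x| ≤ B + 2 := fun x => by
    rcases tricho hl (rr x) with h | ⟨m, h1, h2⟩ | h
    · rw [P2 x h]; linarith [(hv.2.1 x).1]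
    · rw [P3 m x h1 h2]
      exact (abs_add_le _ _).trans (add_le_add ((hs m).2.1 x).1 ((hO m).pbd x))
    · rw [P4 x h.le, abs_zero]; linarith
  have PL : MemLp P 2 volume := by
    refine (memLp_ind hG (r 0) (B + 2)).mono'
      (aestronglyMeasurable_of_tendsto_ae atTop (fun n => (hHn n).memu.1)
        (Eventually.of_forall P1)) (Eventually.of_forall fun x => ?_)
    by_cases h : rr x ≤ r 0
    · rw [indicator_of_mem (show x ∈ {x | rr x ≤ r 0} from h)]; exact Pb x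
    · rw [indicator_of_notMem (show x ∉ {x | rr x ≤ r 0} from h), P4 x (not_le.1 h).le, norm_zero]
  have dP := dom hr hB P5 P6 fun n x => ((hs n).2.1 x).1
  have dG := dom hr hB G5 G6 fun n x => ((hs n).2.1 x).2
  have dJ := dom hr hB J5 J6 fun n x => ((hs n).2.1 x).2
  refine ⟨fun x => 1 + Γ x, P, G', J', ?_, fun x => ?_, fun x hx => ?_, ?_, JL,
    fun x hx => ⟨P2 x hx, G2 x hx, J2 x hx⟩, Pb, ?_,
    fun x hx => ⟨P4 x (hr0 ▸ hx), G4 x (hr0 ▸ hx), J4 x (hr0 ▸ hx)⟩, hr0 ▸ GI, fun η hη => ?_,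
    fun n x hx => ?_⟩
  · refine measurable_const.add (measurable_of_tendsto_metrizable
      (f := fun n x => ∑ i ∈ Finset.range n, (γ i x - 1))
      (fun n => Finset.measurable_sum _ fun i _ => (hO i).meas.sub measurable_const) ?_)
    exact tendsto_pi_nhds.2 Γ1
  · rcases tricho hl (rr x) with h | ⟨m, h1, h2⟩ | h
    · simp only [Γ2 x h, add_zero]; exact ⟨ha, hb⟩
    · simp only [Γ3 m x h1 h2, zero_add, add_sub_cancel]; exact (hO m).bd x
    · simp only [Γ4 x h.le, add_zero]; exact ⟨ha, hb⟩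
  · rcases hx with hx | hx
    · simp only [Γ2 x hx, add_zero]
    · simp only [Γ4 x (hr0 ▸ hx), add_zero]
  · refine isH_of_dom hHn (b := fun x => (‖P x‖ + ‖G' x‖) +
      {x | rr x ≤ r 0}.indicator (fun _ => B) x) ((PL.norm.add GM.norm).add (memLp_ind hG _ _))
      (fun n => Eventually.of_forall fun x => ?_) (fun n => Eventually.of_forall fun x => ?_)
      (Eventually.of_forall P1) (Eventually.of_forall G1)
    · have := dP n x
      rw [Real.norm_eq_abs] at this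
      linarith [norm_nonneg (G' x)]
    · linarith [dG n x, norm_nonneg (P x)]
  · filter_upwards [ae_all_iff.2 fun m => (hO m).eqn] with x hx h0
    rcases tricho hl (rr x) with h | ⟨m, h1, h2⟩ | h
    · exact absurd h (not_le.2 h0)
    · rw [Γ3 m x h1 h2, G3 m x h1 h2, J3 m x h1 h2, zero_add, add_sub_cancel]
      exact hx m h1 h2
    · rw [Γ4 x h.le, G4 x h.le, J4 x h.le, add_zero, one_smul]
  · refine inner_zero_of_dom (fun n => (hJn n).1) (JL.norm.add (memLp_ind hG (r 0) B))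
      hη.memLp_grad (fun n => Eventually.of_forall (dJ n)) (Eventually.of_forall J1) fun n => ?_
    simp only [sum_inner]
    rw [integral_finsetSum _ fun i _ => integrable_inner' (hO i).memJ hη.memLp_grad]
    exact Finset.sum_eq_zero fun i _ => (hO i).div η hη
  · rcases hx with hx | hx
    · simp only [Γ2 x hx, Γ5 n x (hx.trans (hρ n))]
    · rw [Γ6 n x hx]

lemma exists_c (hG : GeomFacts) : ∃ c B₀ : ℝ, 0 < c ∧
    ∀ x, 1378 / 1000 ≤ rr x → rr x ≤ 1386 / 1000 → 8 * c ≤ ‖∇ NN x‖ ∧ ‖∇ NN x‖ ≤ B₀ := by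
  have hK : IsCompact {x | 1378 / 1000 ≤ rr x ∧ rr x ≤ 1386 / 1000} :=
    (hG.compact _).inter_left (isClosed_le continuous_const hG.cont)
  have hc : ContinuousOn (∇ NN) {x | 1378 / 1000 ≤ rr x ∧ rr x ≤ 1386 / 1000} := fun x hx =>
    (contDiffAt_grad (hG.N_smooth x (by linarith [hx.1]))).continuousAt.continuousWithinAt
  obtain ⟨B₀, hB₀⟩ := hK.exists_bound_of_continuousOn hc
  have hpos : ∀ x ∈ {x | 1378 / 1000 ≤ rr x ∧ rr x ≤ 1386 / 1000}, 0 < ‖∇ NN x‖ := fun x hx => by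
    have h1 : 1 < rr x := by linarith [hx.1]
    obtain ⟨h2, h3⟩ := hG.grad x h1
    have h4 : 0 < rr x ^ 2 - 1 := by nlinarith
    have h5 : 0 < rr x * ‖nu x‖ ^ 2 := mul_pos (by linarith) (pow_pos (norm_pos_iff.2 h2) 2)
    rw [hG.N_grad x h1, h3, norm_pos_iff]
    exact smul_ne_zero (neg_ne_zero.2 (inv_pos.2 h4).ne') (smul_ne_zero (inv_pos.2 h5).ne' h2)
  obtain ⟨c, hc0, hc1⟩ := hK.exists_forall_le' hc.norm hpos
  exact ⟨c / 8, B₀, by positivity, fun x h1 h2 =>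
    ⟨by linarith [hc1 x ⟨h1, h2⟩], hB₀ x ⟨h1, h2⟩⟩⟩

lemma exists_index (hG : GeomFacts) {r : ℕ → ℝ} (hr : Antitone r) {ρ : ℝ}
    (hl : Tendsto r atTop (𝓝 ρ)) (n : ℕ) :
    ∃ N, volume {x | ρ < rr x ∧ rr x ≤ r N} ≤ ((n : ℝ≥0∞) + 1)⁻¹ := by
  have h1 := tendsto_measure_iInter_atTop (μ := volume)
    (s := fun N => {x | ρ < rr x ∧ rr x ≤ r N})
    (fun N => ((isOpen_lt continuous_const hG.cont).measurableSet.inter
      (isClosed_le hG.cont continuous_const).measurableSet).nullMeasurableSet)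
    (fun m n hmn x hx => ⟨hx.1, hx.2.trans (hr hmn)⟩)
    ⟨0, ((measure_mono fun x hx => hx.2).trans_lt (hG.compact (r 0)).measure_lt_top).ne⟩
  have h2 : (⋂ N, {x | ρ < rr x ∧ rr x ≤ r N}) = ∅ := by
    refine eq_empty_of_forall_notMem fun x hx => ?_
    rw [mem_iInter] at hx
    exact absurd (ge_of_tendsto' hl fun N => (hx N).2) (not_le.2 (hx 0).1)
  rw [h2, measure_empty] at h1
  have h3 : (0 : ℝ≥0∞) < ((n : ℝ≥0∞) + 1)⁻¹ := ENNReal.inv_pos.2 (by simp)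
  exact (h1.eventually (ge_mem_nhds h3)).exists

lemma weyl_Hs (hG : GeomFacts) (hW : WeylStmt) {B : ℝ} (hB : 0 < B) :
    ∃ ε₀ : ℝ, 0 < ε₀ ∧ ∀ (u : E → ℝ) (g : E → E), IsH univ u g → ∫ x, u x ^ 2 ≤ ε₀ →
      (∀ η, Test {x | rr x < 1388 / 1000} η → (∀ x, rr x ≤ 1372 / 1000 → ∇ η x = 0) →
        ∫ x, ⟪g x, ∇ η x⟫ = 0) →
      ∃ v ∈ Hs B, ∀ᵐ x, 1373 / 1000 < rr x → rr x < 1387 / 1000 → v x = u x ∧ ∇ v x = g x := by
  obtain ⟨CW, hCW, hWy⟩ := hW (1 / 1000) (by norm_num)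
  refine ⟨(B / (CW + 1)) ^ 2, by positivity, fun u g hu hε hdiv => ?_⟩
  obtain ⟨v, hvs, hvb, hvl, hae⟩ := hWy {x | 1372 / 1000 < rr x ∧ rr x < 1388 / 1000} u g
    (B / (CW + 1))
    ((isOpen_lt continuous_const hG.cont).inter (isOpen_lt hG.cont continuous_const)) hu
    (fun η hη => hdiv η (hη.mono fun x hx => hx.2) fun x hx =>
      hη.grad_eq_zero fun h => absurd h.1 (not_lt.2 hx)) (by positivity) hε
  have hle : CW * (B / (CW + 1)) ≤ B := by
    rw [← mul_div_assoc, div_le_iff₀ (by positivity)]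
    nlinarith
  have hae' : ∀ᵐ x, 1373 / 1000 < rr x → rr x < 1387 / 1000 → v x = u x ∧ ∇ v x = g x := by
    filter_upwards [hae] with x hx h1 h2
    refine hx fun y hy => ?_
    have h3 := hG.lip y x
    rw [mem_closedBall, dist_eq_norm] at hy
    obtain ⟨h4, h5⟩ := abs_le.1 (h3.trans hy)
    constructor <;> linarith
  refine ⟨v, ⟨⟨hvs, fun η hη h0 => ?_⟩, fun x => ⟨(hvb x).1.trans hle, (hvb x).2.trans hle⟩,
    fun x y => (hvl x y).trans (by gcongr)⟩, hae'⟩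
  rw [← hdiv η (hη.mono fun x (hx : rr x < 1387 / 1000) => (by linarith : rr x < 1388 / 1000))
    fun x hx => h0 x (by linarith)]
  refine integral_congr_ae ?_
  filter_upwards [hae'] with x hx
  by_cases h1 : rr x ≤ 1373 / 1000
  · simp [h0 x h1]
  by_cases h2 : rr x < 1387 / 1000
  · rw [(hx (not_le.1 h1) h2).2]
  · simp [hη.grad_eq_zero h2]

end Kill

open Kill in
theorem kill (hG : GeomFacts) (hB : BogStmt) (hW : WeylStmt) (hC : CIStmt) : KillStmt := by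
  obtain ⟨a, b, C, ha0, ha1, hb1, hC0, hCI⟩ := hC 8 (by norm_num)
  obtain ⟨c, B₀, hc, hN⟩ := exists_c hG
  let r : ℕ → ℝ := fun i => 1378 / 1000 + 8 / 1000 * (1 / 2) ^ i
  have hrs : StrictAnti r := strictAnti_nat_of_succ_lt fun i => by
    have : (0 : ℝ) < (1 / 2) ^ i := by positivity
    simp only [r, pow_succ]; linarith
  have hr0 : r 0 = 1386 / 1000 := by norm_num [r]
  have hl : Tendsto r atTop (𝓝 (1378 / 1000)) := by
    have := ((tendsto_pow_atTop_nhds_zero_of_lt_one (r := (1 / 2 : ℝ)) (by norm_num)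
      (by norm_num)).const_mul (8 / 1000)).const_add (1378 / 1000)
    rwa [mul_zero, add_zero] at this
  have hr := hrs.antitone
  have hρ : ∀ n, 1378 / 1000 ≤ r n := fun n => hr.le_of_tendsto hl n
  choose δ hδ hsh using fun i => shell hG hB hCI ha1 hb1 hC0 hc hN (hρ (i + 1))
    (hrs (Nat.lt_succ_self i)) (hr0 ▸ hr (Nat.zero_le i))
  set C₁ := 2 * c ^ 2 + 2 * C * (B₀ + 2 * c) ^ 2 + 2 with hC₁
  have hC₁0 : 0 ≤ C₁ := by positivity
  have hch : ∀ (i : ℕ) (v w : E → ℝ), ∃ γ p G J, Hm v → Hm w → (∀ x, ‖∇ v x‖ ≤ c) →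
      (∀ x, rr x ≤ 2 → |w x - v x| ≤ δ i ∧ ‖∇ w x - ∇ v x‖ ≤ δ i) →
      Out a b C₁ (r (i + 1)) (r i) ((1 / 2) ^ i) v w γ p G J := by
    intro i v w
    by_cases h : Hm v ∧ Hm w ∧ (∀ x, ‖∇ v x‖ ≤ c) ∧
      (∀ x, rr x ≤ 2 → |w x - v x| ≤ δ i ∧ ‖∇ w x - ∇ v x‖ ≤ δ i)
    · obtain ⟨γ, p, G, J, hO⟩ := hsh i v w ((1 / 2) ^ i) (by positivity)
        (pow_le_one₀ (by norm_num) (by norm_num)) h.1 h.2.1 h.2.2.1 h.2.2.2
      exact ⟨γ, p, G, J, fun _ _ _ _ => hO⟩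
    · exact ⟨0, 0, 0, 0, fun h1 h2 h3 h4 => absurd ⟨h1, h2, h3, h4⟩ h⟩
  choose Γ p G J hO using hch
  set B := min (δ 0 / 2) c with hBdef
  have hB0 : 0 < B := lt_min (half_pos (hδ 0)) hc
  obtain ⟨T, hT, hseq⟩ := seq_Hs hG hB0.le hδ (min_le_left _ _)
  obtain ⟨ε₀, hε₀, hwe⟩ := weyl_Hs hG hW hB0
  choose N hNv using exists_index hG hr hl
  obtain ⟨ζ, hζs, hζ01, hζ1, hζ0, hζg, hζt⟩ :=
    cutoff hG (α := 1375 / 1000) (β := 1377 / 1000) (by norm_num) (by norm_num)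
  have hζT := hζt (139 / 100) (by norm_num)
  refine ⟨ε₀, a, b, max (B + 2) ((2 * B ^ 2 + 2 * C₁) *
      (volume {x | rr x ≤ 1386 / 1000}).toReal + (2 * B ^ 2 + 2 * C₁) * 2),
    fun n => (fun h x => 1 + h x) '' {m | ∃ f : ℕ → E → ℝ,
      (∀ i, f i ∈ image2 (fun v w x => Γ i v w x - 1) (T i) (T (i + 1))) ∧
      m = ∑ i ∈ Finset.range (N n), f i}, hε₀, ha0, ha1, hb1,
    fun n => (finite_sums _ (fun i => (hT i).image2 _ (hT (i + 1))) (N n)).image _,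
    fun u g hu hε hdiv => ?_⟩
  obtain ⟨v, hv, hae⟩ := hwe u g hu hε hdiv
  obtain ⟨s, hs, hs0, hsd, hlim⟩ := hseq v hv
  obtain ⟨γ', P, G', J', q1, q2, q3, q4, q5, q6, q7, q8, q9, q10, q11, q12⟩ :=
    assemble hG ha1 hb1 hC₁0 hB0.le hr hr0 hl hv (fun i => (hs i).2) hs0 hlim fun i =>
      hO i (s i) (s (i + 1)) (hs i).2.1 (hs (i + 1)).2.1
        (fun x => ((hs i).2.2.1 x).2.trans (min_le_right _ _)) (hsd i)
  have hζv : Test {x | rr x < 139 / 100} fun x => ζ x * v x := hζT.mul hv.1.1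
  have hgζv : ∀ x, ∇ (fun x => ζ x * v x) x = ζ x • ∇ v x + v x • ∇ ζ x := fun x =>
    grad_mul (hζT.differentiable x) (hv.1.diff x)
  have hz : ∀ x, 1378 / 1000 ≤ rr x → ζ x = 0 ∧ ∇ ζ x = 0 := fun x hx =>
    ⟨hζ0 x (by linarith), hζg x (Or.inr (by linarith))⟩
  have hζb : ∀ᵐ x, |ζ x| ≤ 1 := Eventually.of_forall fun x =>
    abs_le.2 ⟨by linarith [(hζ01 x).1], (hζ01 x).2⟩
  refine ⟨γ', fun x => P x + (ζ x * u x - ζ x * v x),
    fun x => G' x + ((ζ x • g x + u x • ∇ ζ x) - ∇ (fun x => ζ x * v x) x),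
    fun x => J' x + (ζ x • g x - ζ x • ∇ v x), q1, q2, q3,
    q4.add ((hu.localize hζT).sub hζv.isH), q5.add (MemLp.sub
      (memLp_smul_of_bdd hζT.continuous.aestronglyMeasurable hζb hu.memg)
      (memLp_smul_of_bdd' hζT.memLp hv.1.cont_grad.aestronglyMeasurable
        (Eventually.of_forall fun x => (hv.2.1 x).2))), ?_, ?_, ?_, ?_, fun η hη => ?_, fun n => ?_⟩
  · filter_upwards [hae] with x hx h
    obtain ⟨e1, e2, e3⟩ := q6 x h
    rw [e1, e2, e3, hgζv]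
    by_cases h' : rr x < 1375 / 1000
    · simp [hζ1 x h'.le, hζg x (Or.inl h')]
    · obtain ⟨e4, e5⟩ := hx (by linarith [not_lt.1 h']) (by linarith)
      simp [e4, e5]
  · filter_upwards [q8] with x hx h
    obtain ⟨z1, z2⟩ := hz x h.le
    simp only [hgζv, z1, z2, zero_mul, zero_smul, smul_zero, sub_self, add_zero]
    exact ⟨(q7 x).trans (le_max_left _ _), hx h⟩
  · refine Eventually.of_forall fun x h => ?_
    obtain ⟨z1, z2⟩ := hz x (by linarith)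
    obtain ⟨e1, e2, e3⟩ := q9 x h
    simp [hgζv, z1, z2, e1, e2, e3]
  · refine le_trans (le_of_eq ?_) (q10.trans (le_max_right _ _))
    refine setIntegral_congr_fun (isOpen_lt continuous_const hG.cont).measurableSet fun x h => ?_
    obtain ⟨z1, z2⟩ := hz x (le_of_lt h)
    simp [hgζv, z1, z2]
  · rw [← q11 η hη]
    refine integral_congr_ae ?_
    filter_upwards [hae] with x hx
    by_cases h1 : 1374 / 1000 < rr x
    · by_cases h2 : 1378 / 1000 ≤ rr x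
      · simp [(hz x h2).1]
      · simp [(hx (by linarith) (by linarith [not_le.1 h2])).2]
    · simp [hη.grad_eq_zero h1]
  · refine ⟨_, mem_image_of_mem _ ⟨fun i x => Γ i (s i) (s (i + 1)) x - 1,
      fun i => mem_image2_of_mem (hs i).1 (hs (i + 1)).1, rfl⟩,
      (measure_mono fun x hx => ?_).trans (hNv n)⟩
    by_contra h
    refine hx ?_
    rw [q12 (N n) x, Finset.sum_apply]
    simp only [mem_ofPred_eq, not_and_or, not_lt, not_le] at h
    exact h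

end

end Crest.Agent.R83
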