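import Crest.Agent.R83.Basic

/-!
Row 83, `KillStmt`: generic auxiliary lemmas (finite nets, telescoping sums, gluing in `L²`,
dominated convergence in `IsH`).
-/

set_option autoImplicit false

open MeasureTheory Set Filter Topology Metric
open scoped Gradient ContDiff RealInnerProductSpace ENNReal

namespace Crest.Agent.R83.Kill

noncomputable section

/-- finite nets for equi-Lipschitz families with values in a compact set -/
lemma net {ι X Y : Type*} [PseudoMetricSpace X] [MetricSpace Y] {K : Set X} (hK : IsCompact K)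
    {S : Set Y} (hS : IsCompact S) (L : ℝ) (H : Set ι) (F : ι → X → Y)
    (hF : ∀ i ∈ H, ∀ x y, dist (F i x) (F i y) ≤ L * dist x y) (hFS : ∀ i ∈ H, ∀ x, F i x ∈ S)
    {ε : ℝ} (hε : 0 < ε) :
    ∃ T : Set ι, T ⊆ H ∧ T.Finite ∧ ∀ i ∈ H, ∃ j ∈ T, ∀ x ∈ K, dist (F i x) (F j x) ≤ ε := by
  classical
  have : CompactSpace K := isCompact_iff_compactSpace.1 hK
  have hc : ∀ i : H, Continuous (fun x : K => F i x) := by
    intro i
    have : LipschitzWith (Real.toNNReal L) (F i) := by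
      refine LipschitzWith.of_dist_le_mul fun x y => (hF i i.2 x y).trans ?_
      exact mul_le_mul_of_nonneg_right (Real.le_coe_toNNReal L) dist_nonneg
    exact this.continuous.comp continuous_subtype_val
  let Φ : H → BoundedContinuousFunction K Y := fun i =>
    BoundedContinuousFunction.mkOfCompact ⟨fun x : K => F i x, hc i⟩
  have hcomp : IsCompact (closure (range Φ)) := by
    refine BoundedContinuousFunction.arzela_ascoli S hS (range Φ) ?_ ?_
    · rintro f x ⟨i, rfl⟩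
      exact hFS i i.2 x
    · refine Metric.equicontinuous_of_continuity_modulus (fun t => L * t) ?_ _ ?_
      · have : Continuous (fun t : ℝ => L * t) := by fun_prop
        simpa using this.tendsto 0
      · rintro x y ⟨f, i, rfl⟩
        exact hF i i.2 x y
  have htb : TotallyBounded (range Φ) := hcomp.totallyBounded.subset subset_closure
  obtain ⟨t, hts, htf, hcov⟩ := Metric.finite_approx_of_totallyBounded htb ε hε
  have hch : ∀ f : t, ∃ i : H, Φ i = f := fun f => hts f.2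
  choose pick hpick using hch
  have : Finite t := htf.to_subtype
  refine ⟨range fun f : t => (pick f : ι), ?_, finite_range _, ?_⟩
  · rintro _ ⟨f, rfl⟩
    exact (pick f).2
  · intro i hi
    have := hcov (mem_range_self (⟨i, hi⟩ : H))
    simp only [mem_iUnion] at this
    obtain ⟨f, hf, hd⟩ := this
    refine ⟨pick ⟨f, hf⟩, mem_range_self _, fun x hx => ?_⟩
    have h1 : dist (Φ ⟨i, hi⟩) (Φ (pick ⟨f, hf⟩)) < ε := by
      rw [hpick]; exact hd
    exact ((BoundedContinuousFunction.dist_coe_le_dist (⟨x, hx⟩ : K)).trans h1.le)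

/-- telescoping partial sums along a decreasing family of radii -/
lemma psum {M : Type*} [AddCommGroup M] {r : ℕ → ℝ} (hr : Antitone r) (t : ℝ) (a d : ℕ → M)
    (ha0 : a 0 = 0) (hout : ∀ i, r i ≤ t → d i = 0)
    (hin : ∀ i, t ≤ r (i + 1) → d i = a (i + 1) - a i) :
    (∀ n, t ≤ r n → ∑ i ∈ Finset.range n, d i = a n) ∧
    (∀ m n, r (m + 1) < t → t ≤ r m → m < n → ∑ i ∈ Finset.range n, d i = a m + d m) ∧
    (∀ n, r 0 ≤ t → ∑ i ∈ Finset.range n, d i = 0) := by
  have h1 : ∀ n, t ≤ r n → ∑ i ∈ Finset.range n, d i = a n := by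
    intro n
    induction n with
    | zero => intro _; simp [ha0]
    | succ n ih =>
      intro h
      rw [Finset.sum_range_succ, ih (h.trans (hr (Nat.le_succ n))), hin n h]
      abel
  refine ⟨h1, ?_, ?_⟩
  · intro m n hm1 hm2 hmn
    induction n, hmn using Nat.le_induction with
    | base => rw [Finset.sum_range_succ, h1 m hm2]
    | succ n hn ih =>
      rw [Finset.sum_range_succ, ih, hout n ((hr hn).trans hm1.le), add_zero]
  · intro n h
    exact Finset.sum_eq_zero fun i _ => hout i ((hr (Nat.zero_le i)).trans h)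

lemma finite_sums {M : Type*} [AddCommMonoid M] (S : ℕ → Set M) (hS : ∀ i, (S i).Finite) (N : ℕ) :
    {m | ∃ f : ℕ → M, (∀ i, f i ∈ S i) ∧ m = ∑ i ∈ Finset.range N, f i}.Finite := by
  induction N with
  | zero =>
    refine (finite_singleton 0).subset ?_
    rintro m ⟨f, -, rfl⟩
    simp
  | succ N ih =>
    refine (ih.image2 (· + ·) (hS N)).subset ?_
    rintro m ⟨f, hf, rfl⟩
    rw [Finset.sum_range_succ]
    exact mem_image2_of_mem ⟨f, hf, rfl⟩ (hf N)

/-- gluing integrability along countably many disjoint pieces -/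
lemma glue {D : ℕ → Set E} (hm : ∀ i, MeasurableSet (D i))
    (hd : Pairwise (Function.onFun Disjoint D)) (hfin : volume (⋃ i, D i) ≠ ⊤) {f : E → ℝ}
    (hf0 : ∀ x, 0 ≤ f x) (hint : ∀ i, IntegrableOn f (D i)) {C : ℝ}
    (hb : ∀ i, ∫ x in D i, f x ≤ C * (volume (D i)).toReal + C * (1 / 2) ^ i) :
    IntegrableOn f (⋃ i, D i) ∧
      ∫ x in ⋃ i, D i, f x ≤ C * (volume (⋃ i, D i)).toReal + C * 2 := by
  have h1 : HasSum (fun i => (volume (D i)).toReal) (volume (⋃ i, D i)).toReal := by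
    have hc : IntegrableOn (fun _ : E => (1 : ℝ)) (⋃ i, D i) :=
      integrableOn_const hfin
    have := hasSum_integral_iUnion hm hd hc
    simpa [Measure.real] using this
  have h2 : HasSum (fun i => C * (volume (D i)).toReal + C * (1 / 2 : ℝ) ^ i)
      (C * (volume (⋃ i, D i)).toReal + C * 2) :=
    (h1.mul_left C).add (hasSum_geometric_two.mul_left C)
  have h3 : Summable fun i => ∫ x in D i, ‖f x‖ := by
    refine Summable.of_nonneg_of_le (fun i => integral_nonneg fun x => norm_nonneg _)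
      (fun i => ?_) h2.summable
    simpa only [Real.norm_of_nonneg (hf0 _)] using hb i
  have h4 := integrableOn_iUnion_of_summable_integral_norm hint h3
  exact ⟨h4, hasSum_le hb (hasSum_integral_iUnion hm hd h4) h2⟩

/-- dominated convergence in `L²` -/
lemma tendsto_sq {F : Type*} [NormedAddCommGroup F] {gn : ℕ → E → F} {g : E → F} {b : E → ℝ}
    (hgn : ∀ n, AEStronglyMeasurable (gn n) volume) (hb : MemLp b 2 volume)
    (hbd : ∀ n, ∀ᵐ x, ‖gn n x‖ ≤ b x) (hlim : ∀ᵐ x, Tendsto (fun n => gn n x) atTop (𝓝 (g x))) :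
    MemLp g 2 volume ∧ Tendsto (fun n => ∫ x, ‖g x - gn n x‖ ^ 2) atTop (𝓝 0) := by
  have hg : AEStronglyMeasurable g volume := aestronglyMeasurable_of_tendsto_ae atTop hgn hlim
  have hall : ∀ᵐ x, ∀ n, ‖gn n x‖ ≤ b x := ae_all_iff.2 hbd
  have hgb : ∀ᵐ x, ‖g x‖ ≤ b x := by
    filter_upwards [hall, hlim] with x h1 h2
    exact le_of_tendsto' h2.norm h1
  refine ⟨hb.mono' hg hgb, ?_⟩
  have hbi : Integrable (fun x => 4 * b x ^ 2) volume := (integrable_sq hb).const_mul 4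
  have := tendsto_integral_of_dominated_convergence (μ := volume)
    (F := fun n x => ‖g x - gn n x‖ ^ 2) (f := fun _ => (0 : ℝ)) (fun x => 4 * b x ^ 2)
    (fun n => (hg.sub (hgn n)).norm.pow 2) hbi (fun n => ?_) ?_
  · simpa using this
  · filter_upwards [hgb, hbd n] with x h1 h2
    have h3 : ‖g x - gn n x‖ ≤ 2 * b x := (norm_sub_le _ _).trans (by linarith)
    rw [Real.norm_of_nonneg (by positivity)]
    calc ‖g x - gn n x‖ ^ 2 ≤ (2 * b x) ^ 2 := by gcongr
      _ = 4 * b x ^ 2 := by ring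
  · filter_upwards [hlim] with x hx
    have : Tendsto (fun n => ‖g x - gn n x‖ ^ 2) atTop (𝓝 (‖g x - g x‖ ^ 2)) :=
      ((tendsto_const_nhds.sub hx).norm).pow 2
    simpa using this

lemma isH_of_dom {U : Set E} {un : ℕ → E → ℝ} {gn : ℕ → E → E} {u : E → ℝ} {g : E → E}
    {b : E → ℝ} (H : ∀ n, IsH U (un n) (gn n)) (hb : MemLp b 2 volume)
    (hbu : ∀ n, ∀ᵐ x, |un n x| ≤ b x) (hbg : ∀ n, ∀ᵐ x, ‖gn n x‖ ≤ b x)
    (hu : ∀ᵐ x, Tendsto (fun n => un n x) atTop (𝓝 (u x)))
    (hg : ∀ᵐ x, Tendsto (fun n => gn n x) atTop (𝓝 (g x))) : IsH U u g := by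
  obtain ⟨h1, h2⟩ := tendsto_sq (fun n => (H n).memu.1) hb hbu hu
  obtain ⟨h3, h4⟩ := tendsto_sq (fun n => (H n).memg.1) hb hbg hg
  refine IsH.of_tendsto h1 h3 H ?_ h4
  simpa [Real.norm_eq_abs, sq_abs] using h2

lemma inner_zero_of_dom {jn : ℕ → E → E} {j w : E → E} {b : E → ℝ}
    (hjn : ∀ n, AEStronglyMeasurable (jn n) volume) (hb : MemLp b 2 volume)
    (hw : MemLp w 2 volume) (hbd : ∀ n, ∀ᵐ x, ‖jn n x‖ ≤ b x)
    (hlim : ∀ᵐ x, Tendsto (fun n => jn n x) atTop (𝓝 (j x)))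
    (h0 : ∀ n, ∫ x, ⟪jn n x, w x⟫ = 0) : ∫ x, ⟪j x, w x⟫ = 0 := by
  have hbi : Integrable (fun x => b x * ‖w x‖) volume := integrable_mul' hb hw.norm
  have := tendsto_integral_of_dominated_convergence (μ := volume)
    (F := fun n x => ⟪jn n x, w x⟫) (f := fun x => ⟪j x, w x⟫) (fun x => b x * ‖w x‖)
    (fun n => (hjn n).inner hw.1) hbi (fun n => ?_) ?_
  · simp only [h0] at this
    exact tendsto_nhds_unique this tendsto_const_nhds
  · filter_upwards [hbd n] with x hx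
    exact (norm_inner_le_norm _ _).trans (mul_le_mul_of_nonneg_right hx (norm_nonneg _))
  · filter_upwards [hlim] with x hx
    exact hx.inner tendsto_const_nhds

/-- the cone condition with `Λ = 8` -/
lemma cone {n e j : E} (he : ‖e - n‖ ≤ ‖n‖ / 4) (hj : ‖j - n‖ ≤ ‖n‖ / 4) :
    ‖e‖ ^ 2 + ‖j‖ ^ 2 ≤ 8 * ⟪e, j⟫ := by
  obtain ⟨p, rfl⟩ : ∃ p, e = n + p := ⟨e - n, by abel⟩
  obtain ⟨q, rfl⟩ : ∃ q, j = n + q := ⟨j - n, by abel⟩
  simp only [add_sub_cancel_left] at he hj
  have h0 := norm_nonneg n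
  have h1 : ‖n + p‖ ≤ 5 / 4 * ‖n‖ := (norm_add_le _ _).trans (by linarith)
  have h2 : ‖n + q‖ ≤ 5 / 4 * ‖n‖ := (norm_add_le _ _).trans (by linarith)
  have h3 : ‖n + p‖ ^ 2 ≤ (5 / 4 * ‖n‖) ^ 2 := by gcongr
  have h4 : ‖n + q‖ ^ 2 ≤ (5 / 4 * ‖n‖) ^ 2 := by gcongr
  have h5 : |⟪n, q⟫| ≤ ‖n‖ * (‖n‖ / 4) :=
    (abs_real_inner_le_norm _ _).trans (by gcongr)
  have h6 : |⟪p, n⟫| ≤ ‖n‖ / 4 * ‖n‖ :=
    (abs_real_inner_le_norm _ _).trans (by gcongr)
  have h7 : |⟪p, q⟫| ≤ ‖n‖ / 4 * (‖n‖ / 4) :=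
    (abs_real_inner_le_norm _ _).trans (by gcongr)
  rw [inner_add_left, inner_add_right, inner_add_right, real_inner_self_eq_norm_sq]
  have := neg_abs_le ⟪n, q⟫
  have := neg_abs_le ⟪p, n⟫
  have := neg_abs_le ⟪p, q⟫
  nlinarith

end

end Crest.Agent.R83.Kill
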