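import Crest.Agent.R83.KillShell

/-!
Row 83, `KillStmt`: finite nets of small harmonic functions and gluing of the shells.
-/

set_option autoImplicit false

open MeasureTheory Set Filter Topology Metric
open scoped Gradient ContDiff RealInnerProductSpace ENNReal

namespace Crest.Agent.R83.Kill

noncomputable section

/-- the class of small harmonic functions -/
def Hs (B : ℝ) : Set (E → ℝ) := {v | Hm v ∧ (∀ x, |v x| ≤ B ∧ ‖∇ v x‖ ≤ B) ∧
  ∀ x y, ‖∇ v x - ∇ v y‖ ≤ B * ‖x - y‖}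

lemma zero_mem_Hs {B : ℝ} (hB : 0 ≤ B) : (fun _ => (0 : ℝ)) ∈ Hs B := by
  refine ⟨hm_zero, fun x => ?_, fun x y => ?_⟩
  · simp [grad_zero', hB]
  · simp only [grad_zero', sub_self, norm_zero]; positivity

lemma net_Hs (hG : GeomFacts) {B τ : ℝ} (hB : 0 ≤ B) (hτ : 0 < τ) :
    ∃ T : Set (E → ℝ), T ⊆ Hs B ∧ T.Finite ∧ ∀ v ∈ Hs B, ∃ w ∈ T, ∀ x, rr x ≤ 2 →
      |v x - w x| ≤ τ ∧ ‖∇ v x - ∇ w x‖ ≤ τ := by
  have e1 : ∀ v ∈ Hs B, ∀ x y, dist (v x, ∇ v x) (v y, ∇ v y) ≤ B * dist x y := by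
    intro v hv x y
    rw [Prod.dist_eq, max_le_iff]
    constructor
    · have hl : LipschitzWith ⟨B, hB⟩ v := lipschitzWith_of_nnnorm_fderiv_le hv.1.diff fun x => by
        rw [← NNReal.coe_le_coe, coe_nnnorm, ← norm_grad]
        exact (hv.2.1 x).2
      exact hl.dist_le_mul x y
    · rw [dist_eq_norm, dist_eq_norm]
      exact hv.2.2 x y
  have e2 : ∀ v ∈ Hs B, ∀ x, (v x, ∇ v x) ∈ closedBall (0 : ℝ × E) B := by
    intro v hv x
    rw [mem_closedBall, dist_zero_right, Prod.norm_def, max_le_iff]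
    exact hv.2.1 x
  obtain ⟨T, h1, h2, h3⟩ := net (hG.compact 2) (isCompact_closedBall (0 : ℝ × E) B) B (Hs B)
    (fun v x => (v x, ∇ v x)) e1 e2 hτ
  refine ⟨T, h1, h2, fun v hv => ?_⟩
  obtain ⟨w, hw, h⟩ := h3 v hv
  refine ⟨w, hw, fun x hx => ?_⟩
  have := h x hx
  rw [Prod.dist_eq, max_le_iff, Real.dist_eq, dist_eq_norm] at this
  exact this

lemma seq_Hs (hG : GeomFacts) {B : ℝ} (hB : 0 ≤ B) {δ : ℕ → ℝ} (hδ : ∀ i, 0 < δ i)
    (hB0 : B ≤ δ 0 / 2) :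
    ∃ T : ℕ → Set (E → ℝ), (∀ i, (T i).Finite) ∧ ∀ v ∈ Hs B, ∃ s : ℕ → E → ℝ,
      (∀ i, s i ∈ T i ∧ s i ∈ Hs B) ∧ s 0 = (fun _ => 0) ∧
      (∀ i x, rr x ≤ 2 → |s (i + 1) x - s i x| ≤ δ i ∧ ‖∇ (s (i + 1)) x - ∇ (s i) x‖ ≤ δ i) ∧
      ∀ x, rr x ≤ 2 → Tendsto (fun i => s i x) atTop (𝓝 (v x)) ∧
        Tendsto (fun i => ∇ (s i) x) atTop (𝓝 (∇ v x)) := by
  let τ : ℕ → ℝ := fun i => min (min (δ i / 2) (δ (i + 1) / 2)) (1 / ((i : ℝ) + 1))
  have hτ : ∀ i, 0 < τ i := fun i =>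
    lt_min (lt_min (half_pos (hδ i)) (half_pos (hδ _))) (by positivity)
  have hτ1 : ∀ i, τ i ≤ δ i / 2 := fun i => (min_le_left _ _).trans (min_le_left _ _)
  have hτ2 : ∀ i, τ i ≤ δ (i + 1) / 2 := fun i => (min_le_left _ _).trans (min_le_right _ _)
  have hτ3 : Tendsto τ atTop (𝓝 0) :=
    squeeze_zero (fun i => (hτ i).le) (fun i => min_le_right _ _)
      tendsto_one_div_add_atTop_nhds_zero_nat
  choose T hT1 hT2 hT3 using fun i => net_Hs hG hB (hτ i)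
  refine ⟨fun i => Nat.casesOn i {fun _ => 0} T, fun i => ?_, fun v hv => ?_⟩
  · cases i with
    | zero => exact finite_singleton _
    | succ i => exact hT2 i
  choose s hs1 hs2 using fun i => hT3 i v hv
  refine ⟨fun i => Nat.casesOn i (fun _ => 0) s, fun i => ?_, rfl, fun i x hx => ?_,
    fun x hx => ⟨?_, ?_⟩⟩
  · cases i with
    | zero => exact ⟨rfl, zero_mem_Hs hB⟩
    | succ i => exact ⟨hs1 i, hT1 i (hs1 i)⟩
  · cases i with
    | zero =>
      have h0 := hδ 0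
      have := (hT1 0 (hs1 0)).2.1 x
      change |s 0 x - 0| ≤ δ 0 ∧ ‖∇ (s 0) x - ∇ (fun _ => (0 : ℝ)) x‖ ≤ δ 0
      rw [grad_zero', sub_zero, sub_zero]
      constructor <;> linarith [this.1, this.2]
    | succ i =>
      change |s (i + 1) x - s i x| ≤ δ (i + 1) ∧ ‖∇ (s (i + 1)) x - ∇ (s i) x‖ ≤ δ (i + 1)
      obtain ⟨a1, a2⟩ := hs2 i x hx
      obtain ⟨b1, b2⟩ := hs2 (i + 1) x hx
      have c1 := hτ2 i
      have c2 := hτ1 (i + 1)
      constructor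
      · have := abs_sub_le (s (i + 1) x) (v x) (s i x)
        rw [abs_sub_comm] at b1
        linarith
      · have := norm_sub_le_norm_sub_add_norm_sub (∇ (s (i + 1)) x) (∇ v x) (∇ (s i) x)
        rw [norm_sub_rev] at b2
        linarith
  · rw [← tendsto_add_atTop_iff_nat 1, tendsto_iff_dist_tendsto_zero]
    refine squeeze_zero (fun _ => dist_nonneg) (fun i => ?_) hτ3
    rw [dist_comm, Real.dist_eq]
    exact (hs2 i x hx).1
  · rw [← tendsto_add_atTop_iff_nat 1, tendsto_iff_dist_tendsto_zero]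
    refine squeeze_zero (fun _ => dist_nonneg) (fun i => ?_) hτ3
    rw [dist_comm, dist_eq_norm]
    exact (hs2 i x hx).2

lemma tricho {r : ℕ → ℝ} {ρ : ℝ} (hl : Tendsto r atTop (𝓝 ρ)) (t : ℝ) :
    t ≤ ρ ∨ (∃ m, r (m + 1) < t ∧ t ≤ r m) ∨ r 0 < t := by
  classical
  by_cases h1 : t ≤ ρ
  · exact Or.inl h1
  by_cases h2 : r 0 < t
  · exact Or.inr (Or.inr h2)
  have h3 : ∃ n, r n < t := (hl.eventually (gt_mem_nhds (not_le.1 h1))).exists
  obtain ⟨m, hm⟩ : ∃ m, Nat.find h3 = m + 1 :=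
    Nat.exists_eq_succ_of_ne_zero fun h => h2 (h ▸ Nat.find_spec h3)
  refine Or.inr (Or.inl ⟨m, hm ▸ Nat.find_spec h3, not_lt.1 (Nat.find_min h3 (by omega))⟩)

lemma lim_exists {M : Type*} [NormedAddCommGroup M] {r : ℕ → ℝ} (hr : Antitone r) {ρ : ℝ}
    (hl : Tendsto r atTop (𝓝 ρ)) (t : E → ℝ) (a d : ℕ → E → M) (al : E → M)
    (ha0 : ∀ x, a 0 x = 0) (hout : ∀ i x, r i ≤ t x → d i x = 0)
    (hin : ∀ i x, t x ≤ r (i + 1) → d i x = a (i + 1) x - a i x)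
    (hlim : ∀ x, t x ≤ ρ → Tendsto (fun i => a i x) atTop (𝓝 (al x))) :
    ∃ F : E → M, (∀ x, Tendsto (fun n => ∑ i ∈ Finset.range n, d i x) atTop (𝓝 (F x))) ∧
      (∀ x, t x ≤ ρ → F x = al x) ∧
      (∀ m x, r (m + 1) < t x → t x ≤ r m → F x = a m x + d m x) ∧
      (∀ x, r 0 ≤ t x → F x = 0) ∧
      (∀ n x, t x ≤ r n → ∑ i ∈ Finset.range n, d i x = a n x) ∧
      (∀ n x, r n < t x → ∑ i ∈ Finset.range n, d i x = F x) := by
  have hρ : ∀ n, ρ ≤ r n := fun n => hr.le_of_tendsto hl n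
  have P := fun x => psum hr (t x) (fun i => a i x) (fun i => d i x) (ha0 x) (fun i => hout i x)
    (fun i => hin i x)
  have T1 : ∀ x, t x ≤ ρ →
      Tendsto (fun n => ∑ i ∈ Finset.range n, d i x) atTop (𝓝 (al x)) := fun x hx =>
    (hlim x hx).congr fun n => ((P x).1 n (hx.trans (hρ n))).symm
  have T2 : ∀ m x, r (m + 1) < t x → t x ≤ r m →
      Tendsto (fun n => ∑ i ∈ Finset.range n, d i x) atTop (𝓝 (a m x + d m x)) :=
    fun m x h1 h2 => tendsto_const_nhds.congr' (by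
      filter_upwards [eventually_gt_atTop m] with n hn
      exact ((P x).2.1 m n h1 h2 hn).symm)
  have T3 : ∀ x, r 0 ≤ t x →
      Tendsto (fun n => ∑ i ∈ Finset.range n, d i x) atTop (𝓝 0) := fun x hx =>
    tendsto_const_nhds.congr fun n => ((P x).2.2 n hx).symm
  have hex : ∀ x, ∃ y, Tendsto (fun n => ∑ i ∈ Finset.range n, d i x) atTop (𝓝 y) := fun x => by
    rcases tricho hl (t x) with h | ⟨m, h1, h2⟩ | h
    · exact ⟨_, T1 x h⟩
    · exact ⟨_, T2 m x h1 h2⟩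
    · exact ⟨_, T3 x h.le⟩
  choose F hF using hex
  have F2 : ∀ m x, r (m + 1) < t x → t x ≤ r m → F x = a m x + d m x := fun m x h1 h2 =>
    tendsto_nhds_unique (hF x) (T2 m x h1 h2)
  have F3 : ∀ x, r 0 ≤ t x → F x = 0 := fun x h => tendsto_nhds_unique (hF x) (T3 x h)
  refine ⟨F, hF, fun x h => tendsto_nhds_unique (hF x) (T1 x h), F2, F3, fun n x => (P x).1 n,
    fun n x hn => ?_⟩
  rcases tricho hl (t x) with h | ⟨m, h1, h2⟩ | h
  · exact absurd (h.trans (hρ n)) (not_le.2 hn)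
  · have hmn : m < n := lt_of_not_ge fun h => absurd (h2.trans (hr h)) (not_le.2 hn)
    rw [F2 m x h1 h2, (P x).2.1 m n h1 h2 hmn]
  · rw [F3 x h.le, (P x).2.2 n h.le]

lemma memLp_ind (hG : GeomFacts) (β c : ℝ) :
    MemLp ({x | rr x ≤ β}.indicator fun _ => c) 2 volume :=
  memLp_indicator_const 2 (hG.compact β).measurableSet c (Or.inr (hG.compact β).measure_lt_top.ne)

lemma glueL2 (hG : GeomFacts) {r : ℕ → ℝ} (hr : Antitone r) {ρ : ℝ}
    (hl : Tendsto r atTop (𝓝 ρ)) {a d : ℕ → E → E} {F : E → E} {B C : ℝ} (hC : 0 ≤ C)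
    (hF : AEStronglyMeasurable F volume) (hle : ∀ x, rr x ≤ ρ → ‖F x‖ ≤ B)
    (hm : ∀ m x, r (m + 1) < rr x → rr x ≤ r m → F x = a m x + d m x)
    (h0 : ∀ x, r 0 ≤ rr x → F x = 0) (ha : ∀ m, AEStronglyMeasurable (a m) volume)
    (haB : ∀ m x, ‖a m x‖ ≤ B) (hd : ∀ m, MemLp (d m) 2 volume)
    (hdi : ∀ m, ∫ x in {x | r (m + 1) < rr x ∧ rr x ≤ r m}, ‖d m x‖ ^ 2 ≤
      C * (volume {x | r (m + 1) < rr x ∧ rr x ≤ r m}).toReal + C * (1 / 2) ^ m) :
    MemLp F 2 volume ∧ ∫ x in {x | ρ < rr x}, ‖F x‖ ^ 2 ≤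
      (2 * B ^ 2 + 2 * C) * (volume {x | rr x ≤ r 0}).toReal + (2 * B ^ 2 + 2 * C) * 2 := by
  have hρ : ∀ n, ρ ≤ r n := fun n => hr.le_of_tendsto hl n
  set D : ℕ → Set E := fun m => {x | r (m + 1) < rr x ∧ rr x ≤ r m} with hD
  have hDm : ∀ m, MeasurableSet (D m) := fun m =>
    (isOpen_lt continuous_const hG.cont).measurableSet.inter
      (isClosed_le hG.cont continuous_const).measurableSet
  have hDd : Pairwise (Function.onFun Disjoint D) := by
    refine pairwise_disjoint_on D |>.2 fun m n hmn => ?_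
    refine Set.disjoint_left.2 fun x h1 h2 => ?_
    exact absurd (h2.2.trans (hr hmn)) (not_le.2 h1.1)
  have hsub : (⋃ m, D m) ⊆ {x | rr x ≤ r 0} :=
    iUnion_subset fun m x hx => hx.2.trans (hr (Nat.zero_le m))
  have hK := (hG.compact (r 0)).measure_lt_top (μ := volume)
  have hfin : volume (⋃ m, D m) ≠ ⊤ := ((measure_mono hsub).trans_lt hK).ne
  have hfm : ∀ m, volume (D m) ≠ ⊤ := fun m =>
    ne_top_of_le_ne_top hfin (measure_mono (subset_iUnion D m))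
  have key := fun m => setInt_le (hDm m) (hfm m) (ha m) (fun x _ => haB m x) (hd m)
  have heq : ∀ m, EqOn (fun x => ‖a m x + d m x‖ ^ 2) (fun x => ‖F x‖ ^ 2) (D m) :=
    fun m x hx => by simp only [hm m x hx.1 hx.2]
  obtain ⟨g1, g2⟩ := glue hDm hDd hfin (f := fun x => ‖F x‖ ^ 2) (fun x => by positivity)
    (fun m => (key m).1.congr_fun (heq m) (hDm m)) (C := 2 * B ^ 2 + 2 * C) fun m => by
      rw [← setIntegral_congr_fun (hDm m) (heq m)]
      refine (key m).2.trans ?_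
      have h1 := hdi m
      have h2 : 0 ≤ 2 * B ^ 2 * (1 / 2 : ℝ) ^ m := by positivity
      change ∫ x in D m, ‖d m x‖ ^ 2 ≤ C * (volume (D m)).toReal + C * (1 / 2) ^ m at h1
      nlinarith
  have hUm : MeasurableSet (⋃ m, D m) := MeasurableSet.iUnion hDm
  have hz : ∀ x, ρ < rr x → x ∉ ⋃ m, D m → ‖F x‖ ^ 2 = 0 := fun x h1 h2 => by
    rcases tricho hl (rr x) with h | ⟨m, h3, h4⟩ | h
    · exact absurd h (not_le.2 h1)
    · exact absurd (mem_iUnion.2 ⟨m, (⟨h3, h4⟩ : x ∈ D m)⟩) h2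
    · simp [h0 x h.le]
  constructor
  · rw [memLp_two_iff_integrable_sq_norm hF]
    have i1 : IntegrableOn (fun x => ‖F x‖ ^ 2) {x | rr x ≤ ρ} := by
      refine Measure.integrableOn_of_bounded (M := B ^ 2) (hG.compact ρ).measure_lt_top.ne
        (hF.norm.pow 2) ?_
      refine (ae_restrict_iff' (hG.compact ρ).measurableSet).2 (Eventually.of_forall fun x hx => ?_)
      rw [Real.norm_of_nonneg (by positivity)]
      have := hle x hx
      gcongr
    refine (i1.union g1).integrable_of_forall_notMem_eq_zero fun x hx => ?_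
    rw [mem_union, not_or] at hx
    exact hz x (not_le.1 hx.1) hx.2
  · rw [setIntegral_eq_of_subset_of_forall_sdiff_eq_zero
      (isOpen_lt continuous_const hG.cont).measurableSet
      (iUnion_subset fun m x hx => (hρ (m + 1)).trans_lt hx.1 : (⋃ m, D m) ⊆ {x | ρ < rr x})
      fun x hx => hz x hx.1 hx.2]
    refine g2.trans ?_
    have := ENNReal.toReal_mono hK.ne (measure_mono hsub)
    gcongr

lemma dom {M : Type*} [NormedAddCommGroup M] {r : ℕ → ℝ} (hr : Antitone r) {S a : ℕ → E → M}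
    {F : E → M} {B : ℝ} (hB : 0 ≤ B) (h1 : ∀ n x, rr x ≤ r n → S n x = a n x)
    (h2 : ∀ n x, r n < rr x → S n x = F x) (ha : ∀ n x, ‖a n x‖ ≤ B) (n : ℕ) (x : E) :
    ‖S n x‖ ≤ ‖F x‖ + {x | rr x ≤ r 0}.indicator (fun _ => B) x := by
  by_cases h : rr x ≤ r n
  · rw [h1 n x h, indicator_of_mem (show x ∈ {x | rr x ≤ r 0} from h.trans (hr (Nat.zero_le n)))]
    linarith [ha n x, norm_nonneg (F x)]
  · rw [h2 n x (not_le.1 h)]
    have : 0 ≤ {x | rr x ≤ r 0}.indicator (fun _ => B) x := indicator_nonneg (fun _ _ => hB) x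
    linarith

end

end Crest.Agent.R83.Kill
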