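import Crest.Agent.R83.KillAux

/-!
Row 83, `KillStmt`: the transition between two close harmonic functions across one thin shell.
-/

set_option autoImplicit false

open MeasureTheory Set Filter Topology Metric
open scoped Gradient ContDiff RealInnerProductSpace ENNReal

namespace Crest.Agent.R83.Kill

noncomputable section

/-- smooth, weakly harmonic in the shell, zero flux -/
def Hm (v : E → ℝ) : Prop := ContDiff ℝ ∞ v ∧ ∀ η, Test {x | rr x < 1387 / 1000} η →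
  (∀ x, rr x ≤ 1373 / 1000 → ∇ η x = 0) → ∫ x, ⟪∇ v x, ∇ η x⟫ = 0

lemma integrable_inner_test {U : Set E} {F : E → E} {η : E → ℝ} (hF : Continuous F)
    (hη : Test U η) : Integrable (fun x => ⟪F x, ∇ η x⟫) := by
  refine (hF.inner hη.continuous_grad).integrable_of_hasCompactSupport ?_
  refine HasCompactSupport.intro hη.cpt fun x hx => ?_
  simp [grad_eq_zero_of_notMem hx]

lemma Hm.diff {v : E → ℝ} (h : Hm v) : Differentiable ℝ v := h.1.differentiable (by simp)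

lemma Hm.cont_grad {v : E → ℝ} (h : Hm v) : Continuous (∇ v) :=
  continuous_grad (h.1.of_le (by exact_mod_cast le_top))

lemma Hm.sub {v w : E → ℝ} (hv : Hm v) (hw : Hm w) : Hm (fun x => w x - v x) := by
  refine ⟨hw.1.sub hv.1, fun η hη h0 => ?_⟩
  have : ∀ x, ⟪∇ (fun x => w x - v x) x, ∇ η x⟫ = ⟪∇ w x, ∇ η x⟫ - ⟪∇ v x, ∇ η x⟫ := fun x => by
    rw [grad_sub (hw.diff x) (hv.diff x), inner_sub_left]
  simp only [this]
  rw [integral_sub (integrable_inner_test hw.cont_grad hη) (integrable_inner_test hv.cont_grad hη),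
    hw.2 η hη h0, hv.2 η hη h0, sub_zero]

lemma grad_zero' (x : E) : ∇ (fun _ : E => (0 : ℝ)) x = 0 :=
  grad_eq_zero_of_eventually_const (c := 0) (Eventually.of_forall fun _ => rfl)

lemma hm_zero : Hm (fun _ => 0) := by
  refine ⟨contDiff_const, fun η _ _ => ?_⟩
  simp [grad_zero']

lemma cutoff (hG : GeomFacts) {α β : ℝ} (h1 : 1 < α) (hαβ : α < β) :
    ∃ χ : E → ℝ, ContDiff ℝ ∞ χ ∧ (∀ x, 0 ≤ χ x ∧ χ x ≤ 1) ∧ (∀ x, rr x ≤ α → χ x = 1) ∧
      (∀ x, β ≤ rr x → χ x = 0) ∧ (∀ x, rr x < α ∨ β < rr x → ∇ χ x = 0) ∧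
      ∀ ρ, β < ρ → Test {x | rr x < ρ} χ := by
  have hs : ContDiff ℝ ∞ (fun x => 1 - step α β (rr x)) := by
    refine hG.comp_smooth (fun t => 1 - step α β t) α h1
      (contDiff_const.sub (step_contDiff α β)).contDiffOn fun t ht => ?_
    simp only [step_of_le hαβ ht, step_of_le hαβ le_rfl]
  have ha : ∀ x, rr x ≤ α → 1 - step α β (rr x) = 1 := fun x hx => by
    rw [step_of_le hαβ hx, sub_zero]
  have hb : ∀ x, β ≤ rr x → 1 - step α β (rr x) = 0 := fun x hx => by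
    rw [step_of_ge hαβ hx, sub_self]
  refine ⟨fun x => 1 - step α β (rr x), hs, fun x => ⟨?_, ?_⟩, ha, hb, fun x hx => ?_,
    fun ρ hρ => ?_⟩
  · linarith [step_le_one α β (rr x)]
  · linarith [step_nonneg α β (rr x)]
  · rcases hx with hx | hx
    · refine grad_eq_zero_of_eventually_const (c := 1) ?_
      filter_upwards [(isOpen_lt hG.cont continuous_const).mem_nhds hx] with y hy
      exact ha y (le_of_lt hy)
    · refine grad_eq_zero_of_eventually_const (c := 0) ?_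
      filter_upwards [(isOpen_lt continuous_const hG.cont).mem_nhds hx] with y hy
      exact hb y (le_of_lt hy)
  · exact Test.of_zero_off hs (hG.compact β) (fun x hx => lt_of_le_of_lt hx hρ)
      fun x hx => hb x (le_of_lt (not_le.1 hx))

lemma setInt_le {D : Set E} (hD : MeasurableSet D) (hfin : volume D ≠ ⊤) {a g : E → E} {c : ℝ}
    (ha : AEStronglyMeasurable a volume) (hac : ∀ x ∈ D, ‖a x‖ ≤ c) (hg : MemLp g 2 volume) :
    IntegrableOn (fun x => ‖a x + g x‖ ^ 2) D ∧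
      ∫ x in D, ‖a x + g x‖ ^ 2 ≤ 2 * c ^ 2 * (volume D).toReal + 2 * ∫ x in D, ‖g x‖ ^ 2 := by
  have : IsFiniteMeasure (volume.restrict D) := isFiniteMeasure_restrict.2 hfin
  have h1 : MemLp a 2 (volume.restrict D) :=
    MemLp.of_bound ha.restrict c ((ae_restrict_iff' hD).2 (Eventually.of_forall hac))
  have h2 : MemLp g 2 (volume.restrict D) := hg.restrict D
  refine ⟨integrable_norm_sq (h1.add h2), (integral_norm_add_sq_le h1 h2).trans ?_⟩
  have h3 : ∫ x in D, ‖a x‖ ^ 2 ≤ ∫ x in D, c ^ 2 := by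
    refine setIntegral_mono_on (integrable_norm_sq h1) (integrableOn_const hfin) hD fun x hx => ?_
    have := hac x hx
    gcongr
  rw [setIntegral_const, smul_eq_mul, Measure.real] at h3
  nlinarith

/-- the convex integration statement with `Λ = 8` -/
def CI8 (a b C : ℝ) : Prop :=
  ∀ (Ω : Set E) (e j : E → E) (B ε : ℝ), IsOpen Ω → Bornology.IsBounded Ω →
    ContinuousOn e Ω → ContinuousOn j Ω → (∀ x ∈ Ω, ‖e x‖ ≤ B ∧ ‖j x‖ ≤ B) →
    (∀ x ∈ Ω, ‖e x‖ ^ 2 + ‖j x‖ ^ 2 ≤ 8 * ⟪e x, j x⟫) → 0 < ε →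
    ∃ (γ φ : E → ℝ) (g k : E → E), Measurable γ ∧ (∀ x, a ≤ γ x ∧ γ x ≤ b) ∧ IsH Ω φ g ∧
      (∀ x, |φ x| ≤ ε) ∧ MemLp k 2 volume ∧ (∀ x, x ∉ Ω → φ x = 0 ∧ g x = 0 ∧ k x = 0) ∧
      (∀ η, Test univ η → ∫ x, ⟪k x, ∇ η x⟫ = 0) ∧
      (∀ᵐ x, x ∈ Ω → j x + k x = γ x • (e x + g x)) ∧
      (∫ x, ‖g x‖ ^ 2) + (∫ x, ‖k x‖ ^ 2) ≤ C * B ^ 2 * (volume Ω).toReal + ε

/-- the data produced on one shell -/
structure Out (a b C α β ε : ℝ) (v w γ p : E → ℝ) (G J : E → E) : Prop where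
  meas : Measurable γ
  bd : ∀ x, a ≤ γ x ∧ γ x ≤ b
  one : ∀ x, rr x ≤ α ∨ β ≤ rr x → γ x = 1
  isH : IsH {x | rr x < 139 / 100} p G
  memJ : MemLp J 2 volume
  out : ∀ x, β ≤ rr x → p x = 0 ∧ G x = 0 ∧ J x = 0
  inn : ∀ x, rr x ≤ α → p x = w x - v x ∧ G x = ∇ w x - ∇ v x ∧ J x = ∇ w x - ∇ v x
  eqn : ∀ᵐ x, α < rr x → rr x ≤ β →
    γ x • (∇ NN x + (∇ v x + G x)) = ∇ NN x + (∇ v x + J x)
  pbd : ∀ x, |p x| ≤ 2
  Gbd : ∫ x in {x | α < rr x ∧ rr x ≤ β}, ‖G x‖ ^ 2 ≤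
    C * (volume {x | α < rr x ∧ rr x ≤ β}).toReal + C * ε
  Jbd : ∫ x in {x | α < rr x ∧ rr x ≤ β}, ‖J x‖ ^ 2 ≤
    C * (volume {x | α < rr x ∧ rr x ≤ β}).toReal + C * ε
  div : ∀ η, Test {x | 1374 / 1000 < rr x} η → ∫ x, ⟪J x, ∇ η x⟫ = 0

/-- the smooth part of the transition -/
lemma smooth_part (hG : GeomFacts) (hB : BogStmt) {c α β : ℝ} (hc : 0 < c)
    (h1 : 1378 / 1000 ≤ α) (hαβ : α < β) (h2 : β ≤ 1386 / 1000) :
    ∃ δ : ℝ, 0 < δ ∧ ∀ η : E → ℝ, Hm η → (∀ x, rr x ≤ 2 → |η x| ≤ δ ∧ ‖∇ η x‖ ≤ δ) →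
      ∃ (q : E → ℝ) (Q : E → E), Test {x | rr x < β} q ∧ Continuous Q ∧
        (∀ x, |q x| ≤ 1 ∧ ‖∇ q x‖ ≤ c ∧ ‖Q x‖ ≤ c) ∧ (∀ x, β ≤ rr x → Q x = 0) ∧
        (∀ x, rr x ≤ α → q x = η x ∧ ∇ q x = ∇ η x ∧ Q x = ∇ η x) ∧
        ∀ ξ, Test {x | 1374 / 1000 < rr x} ξ → ∫ x, ⟪Q x, ∇ ξ x⟫ = 0 := by
  set α' := (2 * α + β) / 3 with hα'
  set β' := (α + 2 * β) / 3 with hβ'
  have e1 : α < α' := by rw [hα']; linarith
  have e2 : α' < β' := by rw [hα', hβ']; linarith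
  have e3 : β' < β := by rw [hβ']; linarith
  have hAo : IsOpen {x | α < rr x ∧ rr x < β} :=
    (isOpen_lt continuous_const hG.cont).inter (isOpen_lt hG.cont continuous_const)
  have hK : IsCompact {x | α' ≤ rr x ∧ rr x ≤ β'} :=
    (hG.compact β').inter_left (isClosed_le continuous_const hG.cont)
  obtain ⟨CB, K', hCB, -, hK'A, hBog⟩ := hB _ _ hAo (hG.shell_conn α β (by linarith)) hK
    fun x hx => ⟨e1.trans_le hx.1, hx.2.trans_lt e3⟩
  obtain ⟨χ, hχs, hχ01, hχ1, hχ0, hχg, hχt⟩ := cutoff hG (by linarith : 1 < α') e2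
  obtain ⟨L, hL0, hL⟩ := (hχt β e3).exists_bound
  have hden : 0 < 1 + L + CB * L := by positivity
  set δ := min 1 (c / (1 + L + CB * L)) with hδ
  have hδ0 : 0 < δ := lt_min one_pos (by positivity)
  have hδ1 : δ ≤ 1 := min_le_left _ _
  have hδ2 : δ * (1 + L + CB * L) ≤ c := (le_div_iff₀ hden).1 (min_le_right _ _)
  refine ⟨δ, hδ0, fun η hη hd => ?_⟩
  have hχd : Differentiable ℝ χ := (hχt β e3).differentiable
  have hoff : ∀ x, x ∉ {x | α' ≤ rr x ∧ rr x ≤ β'} → ∇ χ x = 0 := fun x hx => by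
    refine hχg x ?_
    simp only [mem_ofPred_eq, not_and_or, not_le] at hx
    exact hx
  have hfc : Continuous fun x => ⟪∇ η x, ∇ χ x⟫ := hη.cont_grad.inner (hχt β e3).continuous_grad
  obtain ⟨V, hVc, hV0, hVb, hVd⟩ := hBog (fun x => ⟪∇ η x, ∇ χ x⟫) (δ * L) hfc
    (fun x hx => by simp [hoff x hx])
    (fun x => by
      by_cases hx : x ∈ {x | α' ≤ rr x ∧ rr x ≤ β'}
      · refine (abs_real_inner_le_norm _ _).trans ?_
        exact mul_le_mul (hd x (by linarith [hx.2])).2 (hL x).2 (norm_nonneg _) hδ0.le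
      · simp only [hoff x hx, inner_zero_right, abs_zero]; positivity)
    (hη.2 χ (hχt _ (by linarith)) fun x hx => hχg x (Or.inl (by linarith)))
  have hq : Test {x | rr x < β} fun x => χ x * η x := (hχt β e3).mul hη.1
  have hgq : ∀ x, ∇ (fun x => χ x * η x) x = χ x • ∇ η x + η x • ∇ χ x := fun x =>
    grad_mul (hχd x) (hη.diff x)
  have hVA : ∀ x, rr x ≤ α ∨ β ≤ rr x → V x = 0 := fun x hx => hV0 x fun h => by
    have := hK'A h
    rcases hx with hx | hx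
    · exact absurd this.1 (not_lt.2 hx)
    · exact absurd this.2 (not_lt.2 hx)
  refine ⟨fun x => χ x * η x, fun x => χ x • ∇ η x - V x, hq,
    (hχs.continuous.smul hη.cont_grad).sub hVc, fun x => ?_, fun x hx => ?_, fun x hx => ?_,
    fun ξ hξ => ?_⟩
  · have hLδ : 0 ≤ δ * L := by positivity
    have hCδ : 0 ≤ CB * (δ * L) := by positivity
    by_cases hx : rr x ≤ 2
    · obtain ⟨d1, d2⟩ := hd x hx
      have c1 : |χ x| ≤ 1 := abs_le.2 ⟨by linarith [(hχ01 x).1], (hχ01 x).2⟩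
      have c2 : ‖χ x • ∇ η x‖ ≤ δ := by
        rw [norm_smul, Real.norm_eq_abs]
        nlinarith [abs_nonneg (χ x), norm_nonneg (∇ η x)]
      have c3 : ‖η x • ∇ χ x‖ ≤ δ * L := by
        rw [norm_smul, Real.norm_eq_abs]
        exact mul_le_mul d1 (hL x).2 (norm_nonneg _) hδ0.le
      refine ⟨?_, ?_, ?_⟩
      · rw [abs_mul]
        nlinarith [abs_nonneg (χ x), abs_nonneg (η x)]
      · rw [hgq]
        refine (norm_add_le _ _).trans ?_
        nlinarith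
      · refine (norm_sub_le _ _).trans ?_
        have := hVb x
        nlinarith
    · have hx' : β < rr x := by linarith [not_le.1 hx]
      have z1 : χ x = 0 := hχ0 x (by linarith)
      have z2 : ∇ χ x = 0 := hχg x (Or.inr (by linarith))
      have z3 : V x = 0 := hVA x (Or.inr hx'.le)
      simp [hgq, z1, z2, z3, hc.le]
  · simp [hχ0 x (by linarith), hVA x (Or.inr hx)]
  · have z1 : χ x = 1 := hχ1 x (by linarith)
    have z2 : ∇ χ x = 0 := hχg x (Or.inl (by linarith))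
    simp [hgq, z1, z2, hVA x (Or.inl hx)]
  · have ht1 : Test {x | rr x < 1387 / 1000} fun x => χ x * ξ x :=
      (hχt _ (by linarith)).mul hξ.smooth
    have ht2 : Test {x | 1374 / 1000 < rr x} fun x => χ x * ξ x := hξ.mul_left hχs
    have h0 := hη.2 _ ht1 fun x hx => ht2.grad_eq_zero (by
      simp only [mem_ofPred_eq, not_lt]; linarith)
    have hp : ∀ x, ⟪χ x • ∇ η x - V x, ∇ ξ x⟫ =
        ⟪∇ η x, ∇ (fun x => χ x * ξ x) x⟫ - ⟪∇ η x, ∇ χ x⟫ * ξ x - ⟪V x, ∇ ξ x⟫ := fun x => by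
      rw [grad_mul (hχd x) (hξ.differentiable x), inner_sub_left, inner_add_right,
        real_inner_smul_left, real_inner_smul_right, real_inner_smul_right]
      ring
    have i1 := integrable_inner_test hη.cont_grad ht1
    have i2 : Integrable fun x => ⟪∇ η x, ∇ χ x⟫ * ξ x :=
      (hfc.mul hξ.continuous).integrable_of_hasCompactSupport hξ.cpt.mul_left
    have i3 := integrable_inner_test hVc hξ
    have i4 : Integrable fun x =>
        ⟪∇ η x, ∇ (fun x => χ x * ξ x) x⟫ - ⟪∇ η x, ∇ χ x⟫ * ξ x := i1.sub i2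
    simp only [hp]
    rw [integral_sub i4 i3, integral_sub i1 i2, h0, hVd ξ hξ.smooth]
    ring

lemma shell (hG : GeomFacts) (hB : BogStmt) {a b C c B₀ α β : ℝ} (hCI : CI8 a b C)
    (ha : a ≤ 1) (hb : 1 ≤ b) (hC : 0 ≤ C) (hc : 0 < c)
    (hN : ∀ x, 1378 / 1000 ≤ rr x → rr x ≤ 1386 / 1000 → 8 * c ≤ ‖∇ NN x‖ ∧ ‖∇ NN x‖ ≤ B₀)
    (h1 : 1378 / 1000 ≤ α) (hαβ : α < β) (h2 : β ≤ 1386 / 1000) :
    ∃ δ : ℝ, 0 < δ ∧ ∀ (v w : E → ℝ) (ε : ℝ), 0 < ε → ε ≤ 1 → Hm v → Hm w →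
      (∀ x, ‖∇ v x‖ ≤ c) → (∀ x, rr x ≤ 2 → |w x - v x| ≤ δ ∧ ‖∇ w x - ∇ v x‖ ≤ δ) →
      ∃ γ p G J, Out a b (2 * c ^ 2 + 2 * C * (B₀ + 2 * c) ^ 2 + 2) α β ε v w γ p G J := by
  classical
  obtain ⟨δ, hδ, H⟩ := smooth_part hG hB hc h1 hαβ h2
  refine ⟨δ, hδ, fun v w ε hε0 hε1 hv hw hvb hd => ?_⟩
  have hgη : ∀ x, ∇ (fun x => w x - v x) x = ∇ w x - ∇ v x := fun x =>
    grad_sub (hw.diff x) (hv.diff x)
  obtain ⟨q, Q, hq, hQc, hbd, hQ0, hin, hdiv⟩ := H _ (hv.sub hw) fun x hx => by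
    rw [hgη]; exact hd x hx
  set A : Set E := {x | α < rr x ∧ rr x < β} with hA
  set D : Set E := {x | α < rr x ∧ rr x ≤ β} with hD
  have hAo : IsOpen A :=
    (isOpen_lt continuous_const hG.cont).inter (isOpen_lt hG.cont continuous_const)
  have hDm : MeasurableSet D :=
    (isOpen_lt continuous_const hG.cont).measurableSet.inter
      (isClosed_le hG.cont continuous_const).measurableSet
  have hDf : volume D ≠ ⊤ :=
    ((measure_mono (fun x hx => hx.2 : D ⊆ {x | rr x ≤ β})).trans_lt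
      (hG.compact β).measure_lt_top).ne
  have hAD : (volume A).toReal ≤ (volume D).toReal :=
    ENNReal.toReal_mono hDf (measure_mono fun x hx => ⟨hx.1, hx.2.le⟩)
  have hNc : ContinuousOn (∇ NN) A := fun x hx =>
    (contDiffAt_grad (hG.N_smooth x (by linarith [hx.1]))).continuousAt.continuousWithinAt
  have hNA : ∀ x ∈ A, 8 * c ≤ ‖∇ NN x‖ ∧ ‖∇ NN x‖ ≤ B₀ := fun x hx =>
    hN x (by linarith [hx.1]) (by linarith [hx.2])
  have b1 : ∀ x, ‖∇ v x + ∇ q x‖ ≤ 2 * c := fun x =>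
    (norm_add_le _ _).trans (by linarith [hvb x, (hbd x).2.1])
  have b2 : ∀ x, ‖∇ v x + Q x‖ ≤ 2 * c := fun x =>
    (norm_add_le _ _).trans (by linarith [hvb x, (hbd x).2.2])
  obtain ⟨γ, φ, g, k, hγm, hγb, hφ, hφb, hk, hoff, hkd, heq, hint⟩ :=
    hCI A (fun x => ∇ NN x + (∇ v x + ∇ q x)) (fun x => ∇ NN x + (∇ v x + Q x)) (B₀ + 2 * c) ε hAo
      ((hG.compact β).isBounded.subset fun x hx => hx.2.le)
      (hNc.add (hv.cont_grad.add hq.continuous_grad).continuousOn)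
      (hNc.add (hv.cont_grad.add hQc).continuousOn)
      (fun x hx => ⟨(norm_add_le _ _).trans (add_le_add (hNA x hx).2 (b1 x)),
        (norm_add_le _ _).trans (add_le_add (hNA x hx).2 (b2 x))⟩)
      (fun x hx => cone (n := ∇ NN x)
        (by rw [add_sub_cancel_left]; linarith [b1 x, (hNA x hx).1])
        (by rw [add_sub_cancel_left]; linarith [b2 x, (hNA x hx).1])) hε0
  have hnA : ∀ x, rr x ≤ α ∨ β ≤ rr x → x ∉ A := fun x hx h => by
    rcases hx with hx | hx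
    · exact absurd h.1 (not_lt.2 hx)
    · exact absurd h.2 (not_lt.2 hx)
  have hQm : MemLp Q 2 volume := hQc.memLp_of_hasCompactSupport
    (HasCompactSupport.intro (hG.compact β) fun x hx => hQ0 x (not_le.1 hx).le)
  have hg0 : 0 ≤ ∫ x, ‖g x‖ ^ 2 := integral_nonneg fun x => by positivity
  have hk0 : 0 ≤ ∫ x, ‖k x‖ ^ 2 := integral_nonneg fun x => by positivity
  have hL2 : ∀ {s t : E → E}, AEStronglyMeasurable s volume → (∀ x, ‖s x‖ ≤ c) →
      MemLp t 2 volume → ∫ x, ‖t x‖ ^ 2 ≤ C * (B₀ + 2 * c) ^ 2 * (volume A).toReal + ε →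
      ∫ x in D, ‖s x + t x‖ ^ 2 ≤ (2 * c ^ 2 + 2 * C * (B₀ + 2 * c) ^ 2 + 2) * (volume D).toReal +
        (2 * c ^ 2 + 2 * C * (B₀ + 2 * c) ^ 2 + 2) * ε := by
    intro s t hs hsb ht hti
    refine (setInt_le hDm hDf hs (fun x _ => hsb x) ht).2.trans ?_
    have i1 : ∫ x in D, ‖t x‖ ^ 2 ≤ ∫ x, ‖t x‖ ^ 2 :=
      setIntegral_le_integral (integrable_norm_sq ht) (Eventually.of_forall fun x => by positivity)
    have i2 : C * (B₀ + 2 * c) ^ 2 * (volume A).toReal ≤ C * (B₀ + 2 * c) ^ 2 * (volume D).toReal := by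
      gcongr
    have i3 : 0 ≤ (volume D).toReal := ENNReal.toReal_nonneg
    have i4 : 0 ≤ (2 * c ^ 2 + 2 * C * (B₀ + 2 * c) ^ 2) * ε := by positivity
    nlinarith
  have hout : ∀ x, β ≤ rr x → q x + φ x = 0 ∧ ∇ q x + g x = 0 ∧ Q x + k x = 0 := fun x hx => by
    obtain ⟨z1, z2, z3⟩ := hoff x (hnA x (Or.inr hx))
    have hx' : x ∉ {x | rr x < β} := not_lt.2 hx
    simp [z1, z2, z3, hq.eq_zero hx', hq.grad_eq_zero hx', hQ0 x hx]
  refine ⟨A.piecewise γ (fun _ => 1), fun x => q x + φ x, fun x => ∇ q x + g x,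
    fun x => Q x + k x, hγm.piecewise hAo.measurableSet measurable_const, fun x => ?_,
    fun x hx => piecewise_eq_of_notMem _ _ _ (hnA x hx), ?_, hQm.add hk, hout, fun x hx => ?_, ?_,
    fun x => ?_, ?_, ?_, fun ξ hξ => ?_⟩
  · by_cases hx : x ∈ A
    · rw [piecewise_eq_of_mem _ _ _ hx]; exact hγb x
    · rw [piecewise_eq_of_notMem _ _ _ hx]; exact ⟨ha, hb⟩
  · exact (hq.isH.mono fun x (hx : rr x < β) => (by linarith : rr x < 139 / 100)).add
      (hφ.mono fun x hx => (by linarith [hx.2] : rr x < 139 / 100))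
  · obtain ⟨z1, z2, z3⟩ := hoff x (hnA x (Or.inl hx))
    obtain ⟨y1, y2, y3⟩ := hin x hx
    simp [z1, z2, z3, y1, y2, y3, hgη]
  · filter_upwards [heq] with x hx hx1 hx2
    rcases hx2.lt_or_eq with hx2 | hx2
    · have hxA : x ∈ A := ⟨hx1, hx2⟩
      rw [piecewise_eq_of_mem _ _ _ hxA]
      have := hx hxA
      simp only [add_assoc] at this
      exact this.symm
    · obtain ⟨-, z2, z3⟩ := hout x hx2.ge
      rw [piecewise_eq_of_notMem _ _ _ (hnA x (Or.inr hx2.ge)), z2, z3, one_smul]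
  · exact (abs_add_le _ _).trans (by linarith [(hbd x).1, hφb x])
  · exact hL2 hq.continuous_grad.aestronglyMeasurable (fun x => (hbd x).2.1) hφ.memg (by linarith)
  · exact hL2 hQc.aestronglyMeasurable (fun x => (hbd x).2.2) hk (by linarith)
  · simp only [inner_add_left]
    rw [integral_add (integrable_inner' hQm hξ.memLp_grad) (integrable_inner' hk hξ.memLp_grad),
      hdiv ξ hξ, hkd ξ hξ.univ, add_zero]

end

end Crest.Agent.R83.Kill
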