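import Crest.Agent.R83.Basic

/-!
Row 83: Poincaré inequality, Lax–Milgram and weak limits in `IsH U`.
-/

set_option autoImplicit false

open MeasureTheory Set Filter Topology Metric
open scoped Gradient ContDiff RealInnerProductSpace ENNReal

namespace Crest.Agent.R83

noncomputable section

namespace Lax

lemma poincare_test {R : ℝ} {φ : E → ℝ} (h : Test (ball 0 R) φ) :
    2 * ∫ x, φ x ^ 2 ≤ R ^ 2 * ∫ x, ‖∇ φ x‖ ^ 2 := by
  have h1 := integral_inner_grad_eq (J := fun y => y) isOpen_univ (fun _ _ => contDiffAt_id)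
    (h.mul h.smooth).univ
  have i1 := integrable_sq h.memLp
  have i2 := integrable_norm_sq h.memLp_grad
  have e : ∫ x, φ x * φ x * dvg (fun y => y) x = 3 * ∫ x, φ x ^ 2 := by
    rw [← integral_const_mul]
    exact integral_congr_ae (.of_forall fun x => by simp only [dvg_id]; ring)
  have i3 : Integrable fun x : E => ⟪x, ∇ (fun y => φ y * φ y) x⟫ :=
    (continuous_id.inner (h.mul h.smooth).continuous_grad).integrable_of_hasCompactSupport
      ((hasCompactSupport_grad (h.mul h.smooth).cpt).mono fun x hx h0 => hx (by simp [h0]))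
  have h2 : ∫ x, -(φ x ^ 2 + R ^ 2 * ‖∇ φ x‖ ^ 2) ≤ ∫ x : E, ⟪x, ∇ (fun y => φ y * φ y) x⟫ := by
    refine integral_mono (i1.add (i2.const_mul _)).neg i3 fun x => ?_
    have hd := h.differentiable x
    simp only [grad_mul hd hd, inner_add_right, inner_smul_right]
    have h3 : ⟪x, ∇ φ x⟫ ^ 2 ≤ R ^ 2 * ‖∇ φ x‖ ^ 2 := by
      by_cases hx : x ∈ ball (0 : E) R
      · rw [← mul_pow, ← sq_abs]
        exact pow_le_pow_left₀ (abs_nonneg _) ((abs_real_inner_le_norm _ _).trans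
          (mul_le_mul_of_nonneg_right (mem_ball_zero_iff.1 hx).le (norm_nonneg _))) 2
      · simp [h.grad_eq_zero hx]
    nlinarith [sq_nonneg (φ x + ⟪x, ∇ φ x⟫)]
  rw [integral_neg, integral_add i1 (i2.const_mul _), integral_const_mul, h1, e] at h2
  linarith

end Lax

theorem poincare : PoincareStmt := by
  intro R
  refine ⟨2 * R ^ 2, by positivity, fun U u g hU H => le_of_forall_pos_le_add fun δ hδ => ?_⟩
  obtain ⟨φ, hφ, h1, h2⟩ := H.approx (δ / (2 + 2 * R ^ 2)) (by positivity)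
  have h3 := Lax.poincare_test (hφ.mono hU)
  have h4 := integral_norm_add_sq_le (H.memu.sub hφ.memLp) hφ.memLp
  have h5 := integral_norm_add_sq_le (hφ.memLp_grad.sub H.memg) H.memg
  simp only [Pi.sub_apply, sub_add_cancel, Real.norm_eq_abs, sq_abs] at h4 h5
  simp only [norm_sub_rev (g _)] at h2
  have h6 : R ^ 2 * ∫ x, ‖∇ φ x‖ ^ 2 ≤
      R ^ 2 * (2 * (δ / (2 + 2 * R ^ 2)) + 2 * ∫ x, ‖g x‖ ^ 2) :=
    mul_le_mul_of_nonneg_left (by linarith) (by positivity)
  have h7 : (2 + 2 * R ^ 2) * (δ / (2 + 2 * R ^ 2)) = δ := by field_simp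
  linarith

namespace Lax

/-- the ambient Hilbert space -/
abbrev P : Type := WithLp 2 (Lp ℝ 2 (volume : Measure E) × Lp E 2 (volume : Measure E))

/-- `H¹₀(U)` as a subspace -/
def HS (U : Set E) : Submodule ℝ P where
  carrier := {p | IsH U p.fst p.snd}
  add_mem' {p q} hp hq := (hp.add hq).congr (Lp.coeFn_add p.fst q.fst) (Lp.coeFn_add p.snd q.snd)
  zero_mem' := (IsH.zero U).congr (Lp.coeFn_zero _ _ _) (Lp.coeFn_zero _ _ _)
  smul_mem' c p hp := (hp.const_mul c).congr (Lp.coeFn_smul c p.fst) (Lp.coeFn_smul c p.snd)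

lemma isClosed_HS (U : Set E) : IsClosed (HS U : Set P) := by
  refine isClosed_of_closure_subset fun p hp => IsH.of_approx (Lp.memLp _) (Lp.memLp _)
    fun ε hε => ?_
  obtain ⟨q, hq, hd⟩ := Metric.mem_closure_iff.1 hp (√ε) (Real.sqrt_pos.2 hε)
  have h1 : ‖p - q‖ ^ 2 ≤ ε := by
    rw [← Real.sq_sqrt hε.le, ← dist_eq_norm]
    exact pow_le_pow_left₀ dist_nonneg hd.le 2
  rw [WithLp.prod_norm_sq_eq_of_L2] at h1
  refine ⟨q.fst, q.snd, hq, ?_, ?_⟩
  · have : ‖(p - q).fst‖ ^ 2 = ∫ x, (p.fst x - q.fst x) ^ 2 := by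
      rw [norm_Lp_sq]
      exact integral_congr_ae ((Lp.coeFn_sub p.fst q.fst).mono fun x hx => by
        simp only [WithLp.sub_fst, hx, Pi.sub_apply, Real.norm_eq_abs, sq_abs])
    nlinarith [sq_nonneg ‖(p - q).snd‖]
  · have : ‖(p - q).snd‖ ^ 2 = ∫ x, ‖p.snd x - q.snd x‖ ^ 2 := by
      rw [norm_Lp_sq]
      exact integral_congr_ae ((Lp.coeFn_sub p.snd q.snd).mono fun x hx => by
        simp only [WithLp.sub_snd, hx, Pi.sub_apply])
    nlinarith [sq_nonneg ‖(p - q).fst‖]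

instance (U : Set E) : CompleteSpace (HS U) := (isClosed_HS U).completeSpace_coe

/-- the element of `P` given by a pair -/
def mkP {U : Set E} {u : E → ℝ} {g : E → E} (H : IsH U u g) : P :=
  WithLp.toLp 2 (H.memu.toLp u, H.memg.toLp g)

lemma mkP_mem {U : Set E} {u : E → ℝ} {g : E → E} (H : IsH U u g) : mkP H ∈ HS U :=
  H.congr H.memu.coeFn_toLp H.memg.coeFn_toLp

lemma exists_weak_limit {V ι : Type*} [NormedAddCommGroup V] [InnerProductSpace ℝ V]
    [CompleteSpace V] (x : ι → V) {K : ℝ} (hK : ∀ n, ‖x n‖ ≤ K) (𝒰 : Ultrafilter ι) :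
    ∃ z : V, ∀ y, Tendsto (fun n => ⟪x n, y⟫) 𝒰 (𝓝 ⟪z, y⟫) := by
  obtain ⟨ℓ, -, hℓ⟩ := (WeakDual.isCompact_closedBall (𝕜 := ℝ) (E := V) 0 K).ultrafilter_le_nhds
    (𝒰.map fun n => StrongDual.toWeakDual (InnerProductSpace.toDual ℝ V (x n)))
    (le_principal_iff.2 (mem_map.2 (Eventually.of_forall fun n => by simpa using hK n)))
  refine ⟨(InnerProductSpace.toDual ℝ V).symm (WeakDual.toStrongDual ℓ), fun y => ?_⟩
  rw [InnerProductSpace.toDual_symm_apply]
  exact ((WeakDual.eval_continuous y).tendsto ℓ).comp hℓ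

lemma exists_mul {γ : E → ℝ} {b : ℝ} (hγ : Measurable γ) (hbd : ∀ x, |γ x| ≤ b) :
    ∃ M : Lp E 2 (volume : Measure E) →L[ℝ] Lp E 2 (volume : Measure E),
      ∀ f k : Lp E 2 (volume : Measure E), ⟪M f, k⟫ = ∫ x, γ x * ⟪f x, k x⟫ := by
  have hγ' : MemLp γ ⊤ (volume : Measure E) :=
    memLp_top_of_bound hγ.aestronglyMeasurable b (.of_forall hbd)
  refine ⟨(ContinuousLinearMap.lsmul ℝ ℝ : ℝ →L[ℝ] E →L[ℝ] E).holderL volume ⊤ 2 2 (hγ'.toLp γ),
    fun f k => ?_⟩
  rw [L2.inner_def]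
  refine integral_congr_ae ?_
  filter_upwards [(ContinuousLinearMap.lsmul ℝ ℝ : ℝ →L[ℝ] E →L[ℝ] E).coeFn_holder (r := 2)
    (hγ'.toLp γ) f, hγ'.coeFn_toLp] with x h1 h2
  rw [← real_inner_smul_left, ← h2]
  exact congrArg (fun t => ⟪t, k x⟫) h1

lemma coerc {γ : E → ℝ} {a b : ℝ} (hγ : Measurable γ) (hab : ∀ x, a ≤ γ x) (hbd : ∀ x, |γ x| ≤ b)
    {g : E → E} (hg : MemLp g 2 volume) : a * ∫ x, ‖g x‖ ^ 2 ≤ ∫ x, γ x * ⟪g x, g x⟫ := by
  have i1 := integrable_norm_sq hg
  rw [← integral_const_mul]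
  simp only [real_inner_self_eq_norm_sq]
  exact integral_mono (i1.const_mul _) (i1.bdd_mul hγ.aestronglyMeasurable (.of_forall hbd))
    fun x => mul_le_mul_of_nonneg_right (hab x) (sq_nonneg _)

lemma coerc_aux {a C n A B β : ℝ} (ha : 0 < a) (hC : 0 ≤ C) (h1 : n ^ 2 = A + B) (h2 : A ≤ C * B)
    (h3 : a * B ≤ β) : a / (C + 1) * n * n ≤ β := by
  rw [mul_assoc, ← sq, div_mul_eq_mul_div, div_le_iff₀ (by positivity), h1]
  nlinarith [mul_le_mul_of_nonneg_left h2 ha.le]

lemma norm_P_sq (p : P) : ‖p‖ ^ 2 = (∫ x, p.fst x ^ 2) + ∫ x, ‖p.snd x‖ ^ 2 := by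
  rw [WithLp.prod_norm_sq_eq_of_L2, norm_Lp_sq, norm_Lp_sq]
  simp only [Real.norm_eq_abs, sq_abs]

end Lax

open Lax

theorem lax : LaxStmt := by
  intro U γ a b F hU hγ ha hab hF
  obtain ⟨R, hR⟩ := hU.subset_ball (0 : E)
  obtain ⟨C, hC, hP⟩ := poincare R
  have hbd : ∀ x, |γ x| ≤ b := fun x => by
    rw [abs_of_nonneg (ha.le.trans (hab x).1)]; exact (hab x).2
  obtain ⟨M, hM⟩ := exists_mul hγ hbd
  let s : HS U →L[ℝ] Lp E 2 (volume : Measure E) := (WithLp.sndL 2 ℝ _ _).comp (HS U).subtypeL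
  let B : HS U →L[ℝ] HS U →L[ℝ] ℝ := (innerSL ℝ).bilinearComp (M.comp s) s
  have hB : ∀ p q : HS U, B p q = ∫ x, γ x * ⟪p.1.snd x, q.1.snd x⟫ := fun p q => hM _ _
  have hco : IsCoercive B := by
    refine ⟨a / (C + 1), by positivity, fun p => ?_⟩
    have h1 : ‖p‖ ^ 2 = _ := norm_P_sq p.1
    have h2 := hP U _ _ hR p.2
    have h3 := coerc hγ (fun x => (hab x).1) hbd (Lp.memLp p.1.snd)
    rw [← hB] at h3
    exact coerc_aux ha hC h1 h2 h3
  let p := hco.continuousLinearEquivOfBilin.symm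
    ((InnerProductSpace.toDual ℝ (HS U)).symm ((innerSL ℝ (hF.toLp F)).comp s))
  refine ⟨p.1.fst, p.1.snd, p.2, fun η h H => ?_⟩
  have h1 := hco.continuousLinearEquivOfBilin_apply p ⟨mkP H, mkP_mem H⟩
  rw [ContinuousLinearEquiv.apply_symm_apply, InnerProductSpace.toDual_symm_apply, hB] at h1
  have h2 : ⟪hF.toLp F, H.memg.toLp h⟫ = ∫ x, γ x * ⟪p.1.snd x, H.memg.toLp h x⟫ := h1
  rw [L2.inner_def] at h2
  calc _ = ∫ x, γ x * ⟪p.1.snd x, H.memg.toLp h x⟫ :=
        integral_congr_ae (H.memg.coeFn_toLp.mono fun x hx => by simp only [hx])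
    _ = _ := by
      rw [← h2]
      refine integral_congr_ae ?_
      filter_upwards [hF.coeFn_toLp, H.memg.coeFn_toLp] with x h3 h4
      rw [h3, h4]

theorem weak : WeakStmt := by
  intro U u g K M 𝒰 H hu hg hM
  obtain ⟨z, hz⟩ := exists_weak_limit (fun n => mkP (H n)) (K := √(K + K)) (fun n => by
    refine Real.le_sqrt_of_sq_le ?_
    rw [WithLp.prod_norm_sq_eq_of_L2]
    refine add_le_add (((norm_toLp_sq (H n).memu).trans ?_).trans_le (hu n))
      ((norm_toLp_sq (H n).memg).trans_le (hg n))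
    simp only [Real.norm_eq_abs, sq_abs]) 𝒰
  have hmem : z ∈ HS U := by
    rw [← (HS U).orthogonal_orthogonal, Submodule.mem_orthogonal']
    intro y hy
    refine tendsto_nhds_unique (hz y) ?_
    simp only [(Submodule.mem_orthogonal _ _).1 hy _ (mkP_mem _)]
    exact tendsto_const_nhds
  have hset : ∀ s : Set E, MeasurableSet s → volume s < ⊤ →
      Tendsto (fun n => ∫ x in s, u n x) 𝒰 (𝓝 (∫ x in s, z.fst x)) := fun s hs hμ => by
    have := hz (WithLp.toLp 2 (indicatorConstLp 2 hs hμ.ne (1 : ℝ), 0))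
    simp only [WithLp.prod_inner_apply, inner_zero_right, add_zero, real_inner_comm
      (indicatorConstLp 2 hs hμ.ne (1 : ℝ)), L2.inner_indicatorConstLp_one] at this
    refine this.congr fun n => integral_congr_ae (ae_restrict_of_ae (H n).memu.coeFn_toLp)
  have hint : ∀ {f : E → ℝ}, MemLp f 2 volume → ∀ s : Set E, volume s < ⊤ → IntegrableOn f s :=
    fun hf s hμ => by
      have : IsFiniteMeasure (volume.restrict s) := isFiniteMeasure_restrict.2 hμ.ne
      exact (hf.restrict s).integrable (by norm_num)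
  have hc : ∀ s : Set E, volume s < ⊤ → Integrable (fun _ => M) (volume.restrict s) :=
    fun s hμ => by
      have : IsFiniteMeasure (volume.restrict s) := isFiniteMeasure_restrict.2 hμ.ne
      exact integrable_const _
  have key : ∀ σ : ℝ, |σ| = 1 → ∀ᵐ x, σ * z.fst x ≤ M := fun σ hσ => by
    have := ae_nonneg_of_forall_setIntegral_nonneg_of_sigmaFinite (μ := volume)
      (f := fun x => M - σ * z.fst x) (fun s _ hμ =>
        (hc s hμ).sub ((hint (Lp.memLp _) s hμ).const_mul σ)) fun s hs hμ => by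
        rw [integral_sub (hc s hμ) ((hint (Lp.memLp _) s hμ).const_mul σ),
          integral_const_mul, sub_nonneg]
        refine le_of_tendsto' ((hset s hs hμ).const_mul σ) fun n => ?_
        rw [← integral_const_mul]
        refine integral_mono_ae ((hint (H n).memu s hμ).const_mul σ) (hc s hμ)
          (ae_restrict_of_ae ((hM n).mono fun x hx => (le_abs_self _).trans ?_))
        rwa [abs_mul, hσ, one_mul]
    exact this.mono fun x hx => sub_nonneg.1 hx
  refine ⟨z.fst, z.snd, hmem, ?_, fun F hF => ?_⟩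
  · filter_upwards [key 1 abs_one, key (-1) (by simp)] with x h1 h2
    exact abs_le.2 ⟨by linarith, by linarith⟩
  · have := hz (WithLp.toLp 2 (0, hF.toLp F))
    simp only [WithLp.prod_inner_apply, inner_zero_right, zero_add, real_inner_comm
      (hF.toLp F), L2.inner_def] at this
    have e : ∀ k : E → E, ∫ x, ⟪hF.toLp F x, k x⟫ = ∫ x, ⟪F x, k x⟫ := fun k =>
      integral_congr_ae (hF.coeFn_toLp.mono fun x hx => by simp only [hx])
    simp only [e] at this
    exact this.congr fun n => integral_congr_ae ((H n).memg.coeFn_toLp.mono fun x hx =>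
      congrArg (fun t => ⟪F x, t⟫) hx)

end

end Crest.Agent.R83
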