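import Crest.Agent.R83.Limit2

/-! Row 83, limit of the recursion, part 3: passage to the limit. -/

set_option autoImplicit false

open MeasureTheory Set Filter Topology Metric
open scoped Gradient ContDiff RealInnerProductSpace ENNReal

namespace Crest.Agent.R83

noncomputable section

namespace Lim

lemma memLp_coef_sub {γ Γ : E → ℝ} {a b : ℝ} {F : E → E} (ha : 0 < a) (hm : Measurable γ)
    (hb : ∀ x, a ≤ γ x ∧ γ x ≤ b) (hm' : Measurable Γ) (hb' : ∀ x, a ≤ Γ x ∧ Γ x ≤ b)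
    (hF : MemLp F 2 volume) : MemLp (fun x => (Γ x - γ x) • F x) 2 volume :=
  memLp_smul_of_bdd (B := b) (hm'.sub hm).aestronglyMeasurable (Eventually.of_forall fun x => by
    rw [abs_le]
    constructor <;> linarith [hb x, hb' x]) hF

lemma tendsto_nrm_coef {γ : ℕ → E → ℝ} {Γ : E → ℝ} {a b : ℝ} {F : E → E} (ha : 0 < a)
    (hm : ∀ k, Measurable (γ k)) (hb : ∀ k x, a ≤ γ k x ∧ γ k x ≤ b) (hm' : Measurable Γ)
    (hb' : ∀ x, a ≤ Γ x ∧ Γ x ≤ b) (hl : ∀ᵐ x, Tendsto (fun k => γ k x) atTop (𝓝 (Γ x)))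
    (hF : MemLp F 2 volume) :
    Tendsto (fun k => nrm fun x => (Γ x - γ k x) • F x) atTop (𝓝 0) := by
  have h := tendsto_integral_of_dominated_convergence (μ := volume)
    (F := fun k x => ‖(Γ x - γ k x) • F x‖ ^ 2) (f := fun _ => 0) (fun x => b ^ 2 * ‖F x‖ ^ 2)
    (fun k => (integrable_norm_sq (memLp_coef_sub ha (hm k) (hb k) hm' hb' hF)).1)
    ((integrable_norm_sq hF).const_mul _)
    (fun k => Eventually.of_forall fun x => by
      rw [norm_pow, norm_norm, norm_smul, mul_pow, Real.norm_eq_abs, sq_abs]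
      refine mul_le_mul_of_nonneg_right (sq_le_sq' ?_ ?_) (sq_nonneg _) <;>
        linarith [hb k x, hb' x])
    (by
      filter_upwards [hl] with x hx
      have := (((hx.const_sub (Γ x)).smul_const (F x)).norm).pow 2
      simpa using this)
  rw [integral_zero] at h
  simpa only [Real.sqrt_zero, nrm] using h.sqrt

/-- strong times weak convergence -/
lemma tendsto_pair {l : Filter ℕ} (hla : l ≤ atTop) {γ : ℕ → E → ℝ} {Γ : E → ℝ} {a b K : ℝ}
    {D Fk : ℕ → E → E} {g F : E → E} (ha : 0 < a)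
    (hm : ∀ k, Measurable (γ k)) (hb : ∀ k x, a ≤ γ k x ∧ γ k x ≤ b) (hm' : Measurable Γ)
    (hb' : ∀ x, a ≤ Γ x ∧ Γ x ≤ b) (hl : ∀ᵐ x, Tendsto (fun k => γ k x) atTop (𝓝 (Γ x)))
    (hD : ∀ k, MemLp (D k) 2 volume) (hK : ∀ k, ∫ x, ‖D k x‖ ^ 2 ≤ K)
    (hw : ∀ F : E → E, MemLp F 2 volume →
      Tendsto (fun k => ∫ x, ⟪F x, D k x⟫) l (𝓝 (∫ x, ⟪F x, g x⟫)))
    (hF : MemLp F 2 volume) (hFk : ∀ k, MemLp (Fk k) 2 volume)
    (hs : Tendsto (fun k => nrm fun x => Fk k x - F x) l (𝓝 0)) :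
    Tendsto (fun k => ∫ x, γ k x * ⟪D k x, Fk k x⟫) l (𝓝 (∫ x, Γ x * ⟪g x, F x⟫)) := by
  have hb0 : 0 ≤ b := ha.le.trans ((hb' 0).1.trans (hb' 0).2)
  have hΓF := memLp_coef ha hm' hb' hF
  have h1 := hw _ hΓF
  have h2 := (tendsto_nrm_coef ha hm hb hm' hb' hl hF).mono_left hla
  have hA : ∀ k, MemLp (fun x => γ k x • (Fk k x - F x)) 2 volume := fun k =>
    memLp_coef ha (hm k) (hb k) ((hFk k).sub hF)
  have hB := fun k => memLp_coef_sub ha (hm k) (hb k) hm' hb' hF
  have h3 : Tendsto (fun k => ∫ x, ⟪γ k x • (Fk k x - F x), D k x⟫) l (𝓝 0) := by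
    refine squeeze_zero_norm (fun k => ?_) (by simpa using (hs.const_mul b).mul_const √K)
    refine (abs_inner_le (hA k) (hD k)).trans (mul_le_mul (nrm_le_mul hb0 ((hFk k).sub hF)
      fun x => ?_) (nrm_le_of_sq (hK k)) (nrm_nonneg _) (mul_nonneg hb0 (nrm_nonneg _)))
    rw [norm_smul, Real.norm_eq_abs, abs_of_pos (ha.trans_le (hb k x).1)]
    exact mul_le_mul_of_nonneg_right (hb k x).2 (norm_nonneg _)
  have h4 : Tendsto (fun k => ∫ x, ⟪(Γ x - γ k x) • F x, D k x⟫) l (𝓝 0) := by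
    refine squeeze_zero_norm (fun k => ?_) (by simpa using h2.mul_const √K)
    exact (abs_inner_le (hB k) (hD k)).trans
      (mul_le_mul_of_nonneg_left (nrm_le_of_sq (hK k)) (nrm_nonneg _))
  have h5 := (h1.add h3).sub h4
  simp only [add_zero, sub_zero, real_inner_smul_left (F _), real_inner_comm (g _)] at h5
  refine h5.congr fun k => ?_
  have i1 := integrable_inner' hΓF (hD k)
  have i2 := integrable_inner' (hA k) (hD k)
  have i3 := integrable_inner' (hB k) (hD k)
  simp only [real_inner_smul_left (F _)] at i1 i3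
  have i4 : Integrable fun x => Γ x * ⟪F x, D k x⟫ + ⟪γ k x • (Fk k x - F x), D k x⟫ := i1.add i2
  rw [← integral_add i1 i2, ← integral_sub i4 i3]
  refine integral_congr_ae (Eventually.of_forall fun x => ?_)
  simp only [real_inner_comm (D k x), real_inner_smul_right, inner_sub_right]
  ring

/-- correcting a harmonic function to a nearby coefficient -/
lemma exists_corr (hP : PoincareStmt) (hL : LaxStmt) : ∃ C : ℝ, ∀ {γ Γ : E → ℝ} {a b : ℝ}
    {h : E → E}, 0 < a → Measurable γ → (∀ x, a ≤ γ x ∧ γ x ≤ b) → Measurable Γ →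
    (∀ x, a ≤ Γ x ∧ Γ x ≤ b) → MemLp h 2 volume →
    (∀ η, Test (ball 0 3) η → ∫ x, Γ x * ⟪h x, ∇ η x⟫ = 0) →
    ∃ w k, IsH univ w k ∧ nrm k ≤ a⁻¹ * nrm (fun x => (Γ x - γ x) • h x) ∧ nrm w ≤ C * nrm k ∧
      ∀ η, Test (ball 0 3) η → ∫ x, γ x * ⟪h x + k x, ∇ η x⟫ = 0 := by
  obtain ⟨C, hC, hP⟩ := hP 3
  refine ⟨√C, fun {γ Γ a b h} ha hm hb hm' hb' hh h0 => ?_⟩
  have hF := memLp_coef_sub ha hm hb hm' hb' hh
  obtain ⟨w, k, H, hw⟩ := hL (ball 0 3) γ a b _ isBounded_ball hm ha hb hF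
  refine ⟨w, k, H.univ, ?_, ?_, fun η hη => ?_⟩
  · have h1 : a * nrm k ^ 2 ≤ nrm (fun x => (Γ x - γ x) • h x) * nrm k := by
      refine le_trans ?_ ((le_abs_self _).trans (abs_inner_le hF H.memg))
      rw [← hw w k H, nrm_sq, ← integral_const_mul]
      have i1 := integrable_inner' (memLp_coef ha hm hb H.memg) H.memg
      simp only [real_inner_smul_left] at i1
      refine integral_mono ((integrable_norm_sq H.memg).const_mul _) i1 fun x => ?_
      beta_reduce
      rw [real_inner_self_eq_norm_sq]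
      exact mul_le_mul_of_nonneg_right (hb x).1 (sq_nonneg _)
    rw [le_inv_mul_iff₀ ha]
    rcases (nrm_nonneg k).eq_or_lt with h2 | h2
    · rw [← h2, mul_zero]
      exact nrm_nonneg _
    · refine le_of_mul_le_mul_right ?_ h2
      nlinarith
  · rw [nrm_real, nrm, ← Real.sqrt_mul hC]
    exact Real.sqrt_le_sqrt (hP _ w k subset_rfl H)
  · have h1 := hw η _ hη.isH
    have i1 := integrable_inner' (memLp_coef ha hm hb hh) hη.memLp_grad
    have i2 := integrable_inner' (memLp_coef ha hm hb H.memg) hη.memLp_grad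
    have i3 := integrable_inner' (memLp_coef ha hm' hb' hh) hη.memLp_grad
    simp only [real_inner_smul_left, sub_mul] at i1 i2 i3 h1
    rw [integral_sub i3 i1, h0 η hη] at h1
    simp only [inner_add_left, mul_add]
    rw [integral_add i1 i2, h1]
    ring

variable {a b M K : ℝ} {γ d : ℕ → E → ℝ} {G D : ℕ → E → E} (hG : GeomFacts)
  (S : SeqD a b M K γ d G D)
include hG S

lemma abs_lam_le (n : ℕ) {u : E → ℝ} {h : E → E} (H : IsH univ u h) :
    |Lam (γ n) (G n) u h| ≤ nrm f1 * nrm u + (nrm V1 + b * √K) * nrm h := by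
  have hb0 : 0 ≤ b := S.pos.le.trans ((S.bd 0 0).1.trans (S.bd 0 0).2)
  have h1 := memLp_coef S.pos (S.meas n) (S.bd n) (S.memG n)
  have h2 : MemLp (fun x => V1 x + γ n x • G n x) 2 volume := (V1_mem hG).add h1
  refine (abs_pr_le (f1_mem hG) h2 H.memu H.memg).trans ?_
  rw [← nrm_real, ← nrm_real]
  refine add_le_add_right (mul_le_mul_of_nonneg_right ((nrm_add_le (V1_mem hG) h1).trans
    (add_le_add_right ((nrm_le_mul hb0 (S.memG n) fun x => ?_).trans
      (mul_le_mul_of_nonneg_left (nrm_le_of_sq (S.bdG n)) hb0)) _)) (nrm_nonneg _)) _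
  rw [norm_smul, Real.norm_eq_abs, abs_of_pos (S.pos.trans_le (S.bd n x).1)]
  exact mul_le_mul_of_nonneg_right (S.bd n x).2 (norm_nonneg _)

lemma lam_const (n : ℕ) {ψ : E → ℝ} {c : ℝ} (h : ∀ x, rr x < 1401 / 1000 → ψ x = c) :
    Lam (γ n) (G n) ψ (∇ ψ) = c * F0 := by
  rw [Lam, pr, F0, ← integral_const_mul]
  refine integral_congr_ae ?_
  filter_upwards [S.zeroG n] with x hx
  by_cases h1 : rr x < 14 / 10
  · have h2 : ∀ᶠ y in 𝓝 x, ψ y = c :=
      ((isOpen_lt hG.cont continuous_const).eventually_mem h1).mono fun y hy =>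
        h y (lt_trans hy (by norm_num))
    rw [grad_eq_zero_of_eventually_const h2, h2.self_of_nhds, inner_zero_right, add_zero, mul_comm]
  · obtain ⟨h2, h3⟩ := hG.f1_V1_zero x (Or.inr (by linarith))
    simp [h2, h3, hx (not_lt.1 h1)]

lemma exists_flux : ∃ η, Test univ η ∧ ∀ n, ∫ x, γ (n + 1) x * ⟪D n x, ∇ η x⟫ = kap * F0 := by
  have hlt : (1401 / 1000 : ℝ) < 1409 / 1000 := by norm_num
  have hχ : Test univ fun x => 1 - step (1401 / 1000) (1409 / 1000) (rr x) :=
    Test.of_zero_off (hG.comp_smooth (fun t => 1 - step (1401 / 1000) (1409 / 1000) t)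
      (1401 / 1000) (by norm_num) (contDiff_const.sub (step_contDiff _ _)).contDiffOn
      fun t ht => by rw [step_of_le hlt ht, step_of_le hlt le_rfl])
      (hG.compact (1409 / 1000)) (subset_univ _) fun x hx => by
        rw [step_of_ge hlt (not_le.1 hx).le, sub_self]
  refine ⟨_, (hχ.comp_TT 0).univ, fun n => ?_⟩
  rw [S.dip n _ _ (hχ.comp_TT 0).univ.isH, ← funext (grad_comp_SS 0 _),
    ← funext (grad_comp_SS 1 _), lam_const hG S n (c := 1), lam_const hG S n (c := 0)]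
  · ring
  · intro x hx
    rw [step_of_ge hlt, sub_self]
    by_contra hc
    exact child_disjoint hG (y := SS 1 x) (by linarith) (by rw [TT_SS]; linarith)
  · intro x hx
    rw [TT_SS, step_of_le hlt hx.le, sub_zero]

end Lim

open Lim

theorem limit (hG : GeomFacts) (hB : BogStmt) (hP : PoincareStmt) (hL : LaxStmt) (hWk : WeakStmt)
    (hS : SeqStmt) : GaugeHyp := by
  obtain ⟨a, b, M, K, γ, d, G, D, ha, h1, h2, h3, h4, h5, h6⟩ := hS
  have S : SeqD a b M K γ d G D :=
    ⟨ha, fun n => (h1 n).1, fun n => (h1 n).2.1, fun n => (h1 n).2.2.1, fun n => (h1 n).2.2.2.1,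
      fun n => (h1 n).2.2.2.2.1, fun n => (h1 n).2.2.2.2.2, h2, h3, h4, fun n => (h5 n).1,
      fun n => (h5 n).2.1, fun n => (h5 n).2.2.1, fun n => (h5 n).2.2.2, h6⟩
  have hF0 : 0 < F0 := hG.f1_pos
  have hU : (hyperfilter ℕ : Filter ℕ) ≤ atTop := Nat.hyperfilter_le_atTop
  obtain ⟨ns, Γ, hns, hΓm, hΓb, hΓ1, hΓl⟩ := exists_limit hG S
  obtain ⟨C0, hC0, hdec⟩ := exists_dec hG S hB
  obtain ⟨C1, hcorr⟩ := exists_corr hP hL
  obtain ⟨C2, hC2, hP2⟩ := hP 2
  have hball : {x : E | rr x < 135 / 100} ⊆ ball 0 2 := fun x hx =>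
    mem_ball_zero_iff.2 ((hG.norm_le x).trans_lt (lt_trans hx (by norm_num)))
  obtain ⟨dd, g, Hd, hdM, hw⟩ := hWk _ (fun k => d (ns k)) (fun k => D (ns k)) (max (C2 * K) K) M
    (hyperfilter ℕ) (fun k => S.isH _)
    (fun k => ((hP2 _ _ _ hball (S.isH _)).trans (mul_le_mul_of_nonneg_left (S.bdD _) hC2)).trans
      (le_max_left _ _)) (fun k => (S.bdD _).trans (le_max_right _ _)) fun k => S.bdd _
  have hpair := fun (Fk : ℕ → E → E) (F : E → E) => tendsto_pair (γ := fun k => γ (ns k + 1))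
    (D := fun k => D (ns k)) (Fk := Fk) (F := F) hU ha (fun k => S.meas _) (fun k => S.bd _) hΓm hΓb
    hΓl (fun k => (S.isH _).memg) (fun k => S.bdD _) hw
  refine ⟨Γ, dd, g, a, b, M, ha, hΓm, hΓb,
    fun x hx => hΓ1 x (le_trans (by linarith) (hG.norm_le x)), Hd.mono hball, hdM,
    fun hg => ?_, fun u h H hh => ?_⟩
  · obtain ⟨η, hη, hf⟩ := exists_flux hG S
    have h7 := hpair (fun _ => ∇ η) (∇ η) hη.memLp_grad (fun _ => hη.memLp_grad)
      (by simp [nrm])
    simp only [hf] at h7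
    have h8 : ∫ x, Γ x * ⟪g x, ∇ η x⟫ = 0 := by
      refine integral_eq_zero_of_ae ?_
      filter_upwards [hg] with x hx
      simp [hx]
    rw [h8] at h7
    exact (mul_pos kap_pos hF0).ne' (tendsto_nhds_unique tendsto_const_nhds h7)
  choose w k Hw hk hwk hharm using fun j => hcorr ha (S.meas (ns j + 1)) (S.bd _) hΓm hΓb H.memg hh
  have hk0 : Tendsto (fun j => nrm (k j)) atTop (𝓝 0) :=
    squeeze_zero (fun _ => nrm_nonneg _) hk (by
      simpa using (tendsto_nrm_coef ha (fun j => S.meas (ns j + 1)) (fun j => S.bd _) hΓm hΓb hΓl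
        H.memg).const_mul a⁻¹)
  have hw0 : Tendsto (fun j => nrm (w j)) atTop (𝓝 0) :=
    squeeze_zero (fun _ => nrm_nonneg _) hwk (by simpa using hk0.const_mul C1)
  have Hj := fun j => H.add (Hw j)
  have hQ : Qo ⊆ ball 0 3 := fun x hx =>
    mem_ball_zero_iff.2 ((hG.norm_le x).trans_lt (lt_trans (mem_Qo.1 hx) (by norm_num)))
  have hHarm : ∀ j, Harm (γ (ns j + 1)) fun x => h x + k j x := fun j φ hφ =>
    hharm j φ (hφ.mono hQ)
  set c : ℕ → ℝ := fun j =>
    Lam (γ (ns j + 1)) (G (ns j + 1)) (fun x => u x + w j x) (fun x => h x + k j x) / F0 with hc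
  have hb0 : 0 ≤ b := ha.le.trans ((hΓb 0).1.trans (hΓb 0).2)
  obtain ⟨c₀, -, hc₀⟩ := (isCompact_closedBall (0 : ℝ)
    ((nrm f1 * (nrm u + 1) + (nrm V1 + b * √K) * (nrm h + 1)) / F0)).ultrafilter_le_nhds
    ((hyperfilter ℕ).map c) (le_principal_iff.2 (hU (by
      filter_upwards [hk0.eventually_le_const one_pos, hw0.eventually_le_const one_pos]
        with j h7 h8
      refine mem_closedBall_zero_iff.2 ?_
      rw [Real.norm_eq_abs, abs_div, abs_of_pos hF0]
      refine div_le_div_of_nonneg_right ((abs_lam_le hG S _ (Hj j)).trans ?_) hF0.le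
      have h9 := nrm_add_le H.memu (Hw j).memu
      have h10 := nrm_add_le H.memg (Hw j).memg
      have := nrm_nonneg f1
      have := nrm_nonneg V1
      gcongr <;> linarith)))
  replace hc₀ : Tendsto c (hyperfilter ℕ) (𝓝 c₀) := hc₀
  refine ⟨c₀, fun η hη => ?_⟩
  obtain ⟨B, hB0, hB⟩ := hη.exists_bound
  have Hc := fun j => isH_cut (Hj j) hη (c j)
  have Hc₀ := isH_cut H hη c₀
  have hs : Tendsto (fun j => nrm fun x => (η x • (h x + k j x) + (u x + w j x - c j) • ∇ η x) -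
      (η x • h x + (u x - c₀) • ∇ η x)) (hyperfilter ℕ) (𝓝 0) := by
    refine squeeze_zero (fun _ => nrm_nonneg _) (fun j => ?_) (by
      simpa using (((hk0.const_mul B).add (hw0.const_mul B)).mono_left hU).add
        (((hc₀.const_sub c₀).abs).mul_const (nrm (∇ η))))
    have e : (fun x => (η x • (h x + k j x) + (u x + w j x - c j) • ∇ η x) -
        (η x • h x + (u x - c₀) • ∇ η x)) =
        fun x => (η x • k j x + w j x • ∇ η x) + (c₀ - c j) • ∇ η x := by
      funext x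
      module
    have m1 : MemLp (fun x => η x • k j x) 2 volume := memLp_smul_of_bdd
      hη.continuous.aestronglyMeasurable (Eventually.of_forall fun x => (hB x).1) (Hw j).memg
    have m2 : MemLp (fun x => w j x • ∇ η x) 2 volume := memLp_smul_of_bdd' (Hw j).memu
      hη.continuous_grad.aestronglyMeasurable (Eventually.of_forall fun x => (hB x).2)
    rw [e]
    refine (nrm_add_le (m1.add m2) (hη.memLp_grad.const_smul (c₀ - c j))).trans (add_le_add
      ((nrm_add_le m1 m2).trans (add_le_add (nrm_le_mul hB0 (Hw j).memg fun x => ?_)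
        (nrm_le_mul hB0 (Hw j).memu fun x => ?_)))
      (nrm_le_mul (abs_nonneg _) hη.memLp_grad fun x => (norm_smul (c₀ - c j) (∇ η x)).le))
    · rw [norm_smul]
      exact mul_le_mul_of_nonneg_right (hB x).1 (norm_nonneg _)
    · rw [norm_smul, mul_comm]
      exact mul_le_mul_of_nonneg_right (hB x).2 (norm_nonneg _)
  refine tendsto_nhds_unique (hpair _ _ Hc₀.memg (fun j => (Hc j).memg) hs) ?_
  have hθ : Tendsto (fun j => θ ^ ns j) (hyperfilter ℕ) (𝓝 0) :=
    ((tendsto_pow_atTop_nhds_zero_of_lt_one θ_nonneg θ_lt_one).comp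
      (tendsto_atTop_mono hns tendsto_id)).mono_left hU
  have hlim := hθ.mul (((((hk0.mono_left hU).const_add (nrm h)).const_mul B).add
    (hs.const_add (nrm fun x => η x • h x + (u x - c₀) • ∇ η x))).const_mul
      (kap * (2 * (θ * C0))))
  rw [zero_mul] at hlim
  refine squeeze_zero_norm (fun j => ?_) hlim
  have h7 := dec_children hG S (mul_nonneg (pow_nonneg θ_nonneg (ns j)) hC0) (hdec (ns j)) (Hj j)
    (hHarm j) (c := c j) (div_mul_cancel₀ _ hF0.ne').symm hη fun x => (hB x).1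
  have h8 := (nQ_le (Hj j).memg).trans (nrm_add_le H.memg (Hw j).memg)
  have h9 := nrm_add_le (h := fun x => (η x • (h x + k j x) + (u x + w j x - c j) • ∇ η x) -
    (η x • h x + (u x - c₀) • ∇ η x)) Hc₀.memg ((Hc j).memg.sub Hc₀.memg)
  simp only [add_sub_cancel] at h9
  have h10 := (nQ_le (Hc j).memg).trans h9
  rw [S.dip _ _ _ (Hc j), Real.norm_eq_abs, abs_mul, abs_of_pos kap_pos]
  have h11 : 0 ≤ 2 * (θ * (θ ^ ns j * C0)) := by
    have := θ_nonneg
    positivity
  refine (mul_le_mul_of_nonneg_left ((abs_sub _ _).trans (h7.trans (mul_le_mul_of_nonneg_left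
    (add_le_add (mul_le_mul_of_nonneg_left h8 hB0) h10) h11))) kap_pos.le).trans (le_of_eq ?_)
  ring

end

end Crest.Agent.R83
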