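import Crest.Agent.R83.Basic

/-! Row 83, limit of the recursion, part 1: `L²` bookkeeping and the base estimate. -/

set_option autoImplicit false

open MeasureTheory Set Filter Topology Metric
open scoped Gradient ContDiff RealInnerProductSpace ENNReal

namespace Crest.Agent.R83.Lim

noncomputable section

/-- the `L²` norm -/
def nrm {F : Type*} [NormedAddCommGroup F] (g : E → F) : ℝ := √(∫ x, ‖g x‖ ^ 2)

/-- the block -/
def Q : Set E := {x | rr x ≤ 14 / 10}

/-- the open block -/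
def Qo : Set E := {x | rr x < 14 / 10}

/-- the `L²` norm on the block -/
def nQ (k : E → E) : ℝ := √(∫ x in Q, ‖k x‖ ^ 2)

/-- the total flux -/
def F0 : ℝ := ∫ x, f1 x

/-- the contraction factor -/
def θ : ℝ := √(25 / 26)

lemma θ_nonneg : 0 ≤ θ := Real.sqrt_nonneg _

lemma θ_sq : θ ^ 2 = 25 / 26 := Real.sq_sqrt (by norm_num)

lemma θ_lt_one : θ < 1 := by
  have := θ_sq
  have := θ_nonneg
  nlinarith

section nrm

variable {F : Type*} [NormedAddCommGroup F]

lemma nrm_nonneg (g : E → F) : 0 ≤ nrm g := Real.sqrt_nonneg _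

lemma nrm_sq (g : E → F) : nrm g ^ 2 = ∫ x, ‖g x‖ ^ 2 :=
  Real.sq_sqrt (integral_nonneg fun _ => sq_nonneg _)

lemma nrm_real (u : E → ℝ) : nrm u = √(∫ x, u x ^ 2) := by
  simp only [nrm, Real.norm_eq_abs, sq_abs]

lemma nrm_add_le {g h : E → F} (hg : MemLp g 2 volume) (hh : MemLp h 2 volume) :
    nrm (fun x => g x + h x) ≤ nrm g + nrm h := sqrt_integral_add_le hg hh

lemma nrm_le_mul {F' : Type*} [NormedAddCommGroup F'] {g : E → F} {h : E → F'} {B : ℝ}
    (hB : 0 ≤ B) (hh : MemLp h 2 volume) (H : ∀ x, ‖g x‖ ≤ B * ‖h x‖) : nrm g ≤ B * nrm h := by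
  rw [nrm, Real.sqrt_le_iff]
  refine ⟨mul_nonneg hB (nrm_nonneg _), ?_⟩
  rw [mul_pow, nrm_sq, ← integral_const_mul]
  refine integral_mono_of_nonneg (Eventually.of_forall fun _ => sq_nonneg _)
    ((integrable_norm_sq hh).const_mul _) (Eventually.of_forall fun x => ?_)
  beta_reduce
  rw [← mul_pow]
  exact pow_le_pow_left₀ (norm_nonneg _) (H x) 2

lemma nrm_le_of_sq {g : E → F} {K : ℝ} (h : ∫ x, ‖g x‖ ^ 2 ≤ K) : nrm g ≤ √K := Real.sqrt_le_sqrt h

end nrm

lemma nQ_nonneg (k : E → E) : 0 ≤ nQ k := Real.sqrt_nonneg _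

lemma nQ_le {k : E → E} (hk : MemLp k 2 volume) : nQ k ≤ nrm k :=
  Real.sqrt_le_sqrt (setIntegral_le_integral (integrable_norm_sq hk)
    (Eventually.of_forall fun _ => sq_nonneg _))

lemma abs_inner_le {V k : E → E} (hV : MemLp V 2 volume) (hk : MemLp k 2 volume) :
    |∫ x, ⟪V x, k x⟫| ≤ nrm V * nrm k := abs_integral_inner_le hV hk

lemma mem_Q {x : E} : x ∈ Q ↔ rr x ≤ 14 / 10 := Iff.rfl

lemma mem_Qo {x : E} : x ∈ Qo ↔ rr x < 14 / 10 := Iff.rfl

lemma Qo_subset : Qo ⊆ Q := fun _ hx => mem_Q.2 (mem_Qo.1 hx).le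

section geom

variable (hG : GeomFacts)
include hG

lemma isClosed_Q : IsClosed Q := isClosed_le hG.cont continuous_const

lemma volume_Q_lt : volume Q < ⊤ := (hG.compact _).measure_lt_top

lemma f1_cpt : HasCompactSupport f1 :=
  HasCompactSupport.intro (hG.compact (1397 / 1000)) fun x hx =>
    (hG.f1_V1_zero x (Or.inr (not_le.1 hx))).1

lemma V1_cpt : HasCompactSupport V1 :=
  HasCompactSupport.intro (hG.compact (1397 / 1000)) fun x hx =>
    (hG.f1_V1_zero x (Or.inr (not_le.1 hx))).2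

lemma f1_mem : MemLp f1 2 volume := hG.f1_cont.memLp_of_hasCompactSupport (f1_cpt hG)

lemma V1_mem : MemLp V1 2 volume := hG.V1_cont.memLp_of_hasCompactSupport (V1_cpt hG)

lemma abs_inner_le_Q {V k : E → E} {A : ℝ} (hV : MemLp V 2 volume) (hk : MemLp k 2 volume)
    (hA : ∀ x, ‖V x‖ ≤ A) (h0 : ∀ x, x ∉ Q → V x = 0) :
    |∫ x, ⟪V x, k x⟫| ≤ A * √(volume.real Q) * nQ k := by
  have hA0 : 0 ≤ A := (norm_nonneg _).trans (hA 0)
  rw [← setIntegral_eq_integral_of_forall_compl_eq_zero (s := Q)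
    (fun x hx => by rw [h0 x hx, inner_zero_left])]
  refine (abs_integral_inner_le (hV.restrict Q) (hk.restrict Q)).trans
    (mul_le_mul_of_nonneg_right ?_ (nQ_nonneg k))
  rw [Real.sqrt_le_iff]
  refine ⟨by positivity, ?_⟩
  rw [mul_pow, Real.sq_sqrt measureReal_nonneg]
  refine (Real.le_norm_self _).trans
    (norm_setIntegral_le_of_norm_le_const (volume_Q_lt hG) fun x _ => ?_)
  rw [norm_pow, norm_norm]
  exact pow_le_pow_left₀ (norm_nonneg _) (hA x) 2

lemma base (hB : BogStmt) : ∃ C0 : ℝ, 0 ≤ C0 ∧ ∀ (u η : E → ℝ) (h k : E → E) (c B : ℝ),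
    IsH univ u h → MemLp k 2 volume → pr f1 V1 u h = c * F0 → Test univ η → (∀ x, |η x| ≤ B) →
    |pr f1 V1 (fun x => (u x - c) * η x) k| ≤ C0 * (B * nQ h + nQ k) := by
  obtain ⟨C, K', hC, hK', hK'U, hBog⟩ := hB {x | 139 / 100 < rr x ∧ rr x < 14 / 10}
    {x | 1393 / 1000 ≤ rr x ∧ rr x ≤ 1397 / 1000}
    ((isOpen_lt continuous_const hG.cont).inter (isOpen_lt hG.cont continuous_const))
    (hG.shell_conn _ _ (by norm_num))
    ((hG.compact (1397 / 1000)).of_isClosed_subset
      ((isClosed_le continuous_const hG.cont).inter (isClosed_le hG.cont continuous_const))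
      fun _ hx => hx.2)
    (fun x hx => ⟨by linarith [hx.1], by linarith [hx.2]⟩)
  obtain ⟨A, hA⟩ := hG.f1_cont.bounded_above_of_compact_support (f1_cpt hG)
  obtain ⟨A', hA'⟩ := hG.V1_cont.bounded_above_of_compact_support (V1_cpt hG)
  have hA0 : 0 ≤ A := (norm_nonneg _).trans (hA 0)
  have hA0' : 0 ≤ A' := (norm_nonneg _).trans (hA' 0)
  have hF0 : 0 < F0 := hG.f1_pos
  have hV1Q : ∀ x, x ∉ Q → V1 x = 0 := fun x hx =>
    (hG.f1_V1_zero x (Or.inr (by have := not_le.1 (mt mem_Q.2 hx); linarith))).2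
  have hf1 := f1_mem hG
  have hf1i : Integrable f1 := hG.f1_cont.integrable_of_hasCompactSupport (f1_cpt hG)
  refine ⟨(C * (A * 2) + A') * √(volume.real Q), by positivity,
    fun u η h k c B H hk hc hη hηB => ?_⟩
  have hB0 : 0 ≤ B := (abs_nonneg _).trans (hηB 0)
  have hfη : Integrable fun x => f1 x * η x := integrable_mul' hf1 hη.memLp
  set m : ℝ := (∫ x, f1 x * η x) / F0 with hm
  have hmF : ∫ x, f1 x * η x = m * F0 := by rw [hm, div_mul_cancel₀ _ hF0.ne']
  have hmB : |m| ≤ B := by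
    rw [hm, abs_div, abs_of_pos hF0, div_le_iff₀ hF0, F0, ← integral_const_mul,
      ← Real.norm_eq_abs]
    refine norm_integral_le_of_norm_le (hf1i.const_mul B) (Eventually.of_forall fun x => ?_)
    rw [Real.norm_eq_abs, abs_mul, abs_of_nonneg (hG.f1_nonneg x), mul_comm]
    exact mul_le_mul_of_nonneg_right (hηB x) (hG.f1_nonneg x)
  have hfc : Continuous fun x => f1 x * (η x - m) :=
    hG.f1_cont.mul (hη.continuous.sub continuous_const)
  have hf : MemLp (fun x => f1 x * (η x - m)) 2 volume :=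
    hfc.memLp_of_hasCompactSupport (f1_cpt hG).mul_right
  obtain ⟨V, hVc, hV0, hVB, hV⟩ := hBog (fun x => f1 x * (η x - m)) (A * (2 * B)) hfc
    (fun x hx => by
      rw [(hG.f1_V1_zero x (by
        by_contra hc
        push Not at hc
        exact hx hc)).1, zero_mul])
    (fun x => by
      rw [abs_mul]
      exact mul_le_mul (hA x) ((abs_sub _ _).trans (by linarith [hηB x])) (abs_nonneg _) hA0)
    (by
      simp only [mul_sub]
      rw [integral_sub hfη (hf1i.mul_const m), integral_mul_const, hmF, mul_comm, F0, sub_self])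
  have hVm : MemLp V 2 volume := hVc.memLp_of_hasCompactSupport (HasCompactSupport.intro hK' hV0)
  have h1 := H.pr_eq_zero hf hVm fun φ hφ => by
    rw [pr_eq hf hVm hφ.memLp hφ.memLp_grad, hV φ hφ.smooth, add_neg_cancel]
  rw [pr_eq hf hVm H.memu H.memg] at h1
  rw [pr_eq hf1 (V1_mem hG) H.memu H.memg] at hc
  have h2 := abs_inner_le_Q hG hVm H.memg hVB fun x hx => hV0 x fun hx' => hx (hK'U hx').2.le
  have h3 := abs_inner_le_Q hG (V1_mem hG) H.memg hA' hV1Q
  have h4 := abs_inner_le_Q hG (V1_mem hG) hk hA' hV1Q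
  have h5 : ∫ x, f1 x * ((u x - c) * η x) =
      -(∫ x, ⟪V x, h x⟫) - m * ∫ x, ⟪V1 x, h x⟫ := by
    have e : ∀ x, f1 x * ((u x - c) * η x) =
        f1 x * (η x - m) * u x + m * (f1 x * u x) - c * (f1 x * η x) := fun x => by ring
    have i1 := integrable_mul' hf H.memu
    have i2 := (integrable_mul' hf1 H.memu).const_mul m
    have i3 : Integrable fun x => f1 x * (η x - m) * u x + m * (f1 x * u x) := i1.add i2
    simp only [e]
    rw [integral_sub i3 (hfη.const_mul c), integral_add i1 i2, integral_const_mul,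
      integral_const_mul, hmF]
    linear_combination h1 + m * hc
  have hv : MemLp (fun x => (u x - c) * η x) 2 volume := by
    have := (H.localize hη).memu.sub (hη.memLp.const_mul c)
    refine this.congr_norm ?_ (Eventually.of_forall fun x => ?_)
    · exact (H.memu.1.sub aestronglyMeasurable_const).mul hη.memLp.1
    · congr 1
      simp only [Pi.sub_apply]
      ring
  rw [pr_eq hf1 (V1_mem hG) hv hk, h5]
  have h6 : |m * ∫ x, ⟪V1 x, h x⟫| ≤ B * (A' * √(volume.real Q) * nQ h) := by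
    rw [abs_mul]
    exact mul_le_mul hmB h3 (abs_nonneg _) hB0
  have h7 : 0 ≤ C * (A * 2) * √(volume.real Q) * nQ k := by
    have := nQ_nonneg k
    positivity
  calc _ ≤ |∫ x, ⟪V x, h x⟫| + |m * ∫ x, ⟪V1 x, h x⟫| + |∫ x, ⟪V1 x, k x⟫| := by
        refine (abs_add_le _ _).trans (add_le_add_left ((abs_sub _ _).trans ?_) _)
        rw [abs_neg]
    _ ≤ _ := by nlinarith

lemma child_subset (i : Fin 2) : TT i ⁻¹' Q ⊆ Qo := fun y hy => by
  have h := hG.child i (TT i y) (le_trans hy (by norm_num))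
  rw [SS_TT] at h
  exact lt_of_le_of_lt h (by norm_num)

lemma child_disjoint {y : E} (h0 : rr (TT 0 y) ≤ 141 / 100) (h1 : rr (TT 1 y) ≤ 141 / 100) :
    False := by
  have a0 := hG.child_sign 0 _ h0
  have a1 := hG.child_sign 1 _ h1
  rw [SS_TT] at a0 a1
  rw [sg_zero] at a0
  rw [sg_one] at a1
  linarith

lemma nQ_pull_sq (i : Fin 2) (k : E → E) :
    nQ (pull i k) ^ 2 = kap⁻¹ * ∫ x in TT i ⁻¹' Q, ‖k x‖ ^ 2 := by
  have hQ := (isClosed_Q hG).measurableSet
  have hA : MeasurableSet (TT i ⁻¹' Q) :=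
    ((isClosed_Q hG).preimage (contDiff_TT i).continuous).measurableSet
  rw [nQ, Real.sq_sqrt (integral_nonneg fun _ => sq_nonneg _), ← integral_indicator hQ,
    ← integral_indicator hA]
  have e : ∀ x, Q.indicator (fun x => ‖pull i k x‖ ^ 2) x =
      (fun y => kap ^ 2 * (TT i ⁻¹' Q).indicator (fun x => ‖k x‖ ^ 2) y) (SS i x) := fun x => by
    by_cases hx : x ∈ Q
    · beta_reduce
      rw [indicator_of_mem hx, indicator_of_mem (by simpa using hx), norm_pull, mul_pow]
    · beta_reduce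
      rw [indicator_of_notMem hx, indicator_of_notMem (by simpa using hx), mul_zero]
  simp only [e]
  rw [integral_comp_SS i fun y => kap ^ 2 * (TT i ⁻¹' Q).indicator (fun x => ‖k x‖ ^ 2) y,
    integral_const_mul, smul_eq_mul, ← mul_assoc]
  congr 1
  have := kap_pos
  field_simp

lemma nQ_pull {k : E → E} (hk : MemLp k 2 volume) :
    nQ (pull 0 k) + nQ (pull 1 k) ≤ 2 * θ * nQ k := by
  have hi := integrable_norm_sq hk
  have hA : MeasurableSet (TT 1 ⁻¹' Q) :=
    ((isClosed_Q hG).preimage (contDiff_TT 1).continuous).measurableSet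
  have h1 : (∫ x in TT 0 ⁻¹' Q, ‖k x‖ ^ 2) + ∫ x in TT 1 ⁻¹' Q, ‖k x‖ ^ 2 ≤ nQ k ^ 2 := by
    have hd : Disjoint (TT 0 ⁻¹' Q) (TT 1 ⁻¹' Q) :=
      Set.disjoint_left.2 fun y h0 h1 => child_disjoint hG ((mem_Q.1 h0).trans (by norm_num))
        ((mem_Q.1 h1).trans (by norm_num))
    rw [nQ, Real.sq_sqrt (integral_nonneg fun _ => sq_nonneg _),
      ← setIntegral_union hd hA hi.integrableOn hi.integrableOn]
    exact setIntegral_mono_set hi.integrableOn (Eventually.of_forall fun _ => sq_nonneg _)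
      (union_subset ((child_subset hG 0).trans Qo_subset)
        ((child_subset hG 1).trans Qo_subset)).eventuallyLE
  have h2 := nQ_pull_sq hG 0 k
  have h3 := nQ_pull_sq hG 1 k
  have hk' : kap⁻¹ = 25 / 13 := by norm_num [kap]
  rw [hk'] at h2 h3
  refine le_of_sq_le_sq ?_ (mul_nonneg (mul_nonneg two_pos.le θ_nonneg) (nQ_nonneg k))
  rw [mul_pow, mul_pow, θ_sq]
  nlinarith [sq_nonneg (nQ (pull 0 k) - nQ (pull 1 k))]

end geom

end

end Crest.Agent.R83.Lim
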