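import Crest.Agent.R83.Limit1

/-! Row 83, limit of the recursion, part 2: the geometric decay estimate and finite nets. -/

set_option autoImplicit false

open MeasureTheory Set Filter Topology Metric
open scoped Gradient ContDiff RealInnerProductSpace ENNReal

namespace Crest.Agent.R83.Lim

noncomputable section

/-- the data of `SeqStmt` -/
structure SeqD (a b M K : ℝ) (γ d : ℕ → E → ℝ) (G D : ℕ → E → E) : Prop where
  pos : 0 < a
  meas : ∀ n, Measurable (γ n)
  bd : ∀ n x, a ≤ γ n x ∧ γ n x ≤ b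
  one : ∀ n x, 139 / 100 ≤ rr x → γ n x = 1
  memG : ∀ n, MemLp (G n) 2 volume
  bdG : ∀ n, ∫ x, ‖G n x‖ ^ 2 ≤ K
  zeroG : ∀ n, ∀ᵐ x, 14 / 10 ≤ rr x → G n x = 0
  G0 : ∀ x, G 0 x = 0
  child : ∀ n i x, rr x ≤ 14 / 10 → γ (n + 1) (SS i x) = γ n x
  avg : ∀ n v k, IsH univ v k → Lam (γ (n + 1)) (G (n + 1)) v k =
    (Lam (γ n) (G n) (fun x => v (SS 0 x)) (pull 0 k) +
      Lam (γ n) (G n) (fun x => v (SS 1 x)) (pull 1 k)) / 2
  isH : ∀ n, IsH {x | rr x < 135 / 100} (d n) (D n)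
  bdd : ∀ n, ∀ᵐ x, |d n x| ≤ M
  bdD : ∀ n, ∫ x, ‖D n x‖ ^ 2 ≤ K
  dip : ∀ n v k, IsH univ v k → ∫ x, γ (n + 1) x * ⟪D n x, k x⟫ =
    kap * (Lam (γ n) (G n) (fun x => v (SS 0 x)) (pull 0 k) -
      Lam (γ n) (G n) (fun x => v (SS 1 x)) (pull 1 k))
  net : ∀ m : ℕ, ∃ 𝓕 : Set (E → ℝ), 𝓕.Finite ∧ ∀ n, ∃ f ∈ 𝓕,
    volume {x | (∀ i, 14 / 10 < rr (TT i x)) ∧ γ (n + 1) x ≠ f x} ≤ ((m : ℝ≥0∞) + 1)⁻¹

lemma isH_cut {u η : E → ℝ} {h : E → E} (H : IsH univ u h) (hη : Test univ η) (c : ℝ) :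
    IsH univ (fun x => (u x - c) * η x) (fun x => η x • h x + (u x - c) • ∇ η x) :=
  ((H.localize hη).sub (hη.isH.const_mul c)).congr (Eventually.of_forall fun x => by ring)
    (Eventually.of_forall fun x => by simp only [sub_smul]; abel)

lemma memLp_coef {γ : E → ℝ} {a b : ℝ} {h : E → E} (ha : 0 < a) (hm : Measurable γ)
    (hb : ∀ x, a ≤ γ x ∧ γ x ≤ b) (hh : MemLp h 2 volume) :
    MemLp (fun x => γ x • h x) 2 volume :=
  memLp_smul_of_bdd (B := b) hm.aestronglyMeasurable (Eventually.of_forall fun x => by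
    rw [abs_of_pos (ha.trans_le (hb x).1)]
    exact (hb x).2) hh

/-- `u` is harmonic for the coefficient `γ` in the open block -/
def Harm (γ : E → ℝ) (h : E → E) : Prop := ∀ φ, Test Qo φ → ∫ x, γ x * ⟪h x, ∇ φ x⟫ = 0

/-- the decay estimate with constant `C` -/
def Dec (γ : E → ℝ) (G : E → E) (C : ℝ) : Prop :=
  ∀ (u η : E → ℝ) (h : E → E) (c B : ℝ), IsH univ u h → Harm γ h → Lam γ G u h = c * F0 →
    Test univ η → (∀ x, |η x| ≤ B) →
    |Lam γ G (fun x => (u x - c) * η x) (fun x => η x • h x + (u x - c) • ∇ η x)| ≤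
      C * (B * nQ h + nQ fun x => η x • h x + (u x - c) • ∇ η x)

variable {a b M K : ℝ} {γ d : ℕ → E → ℝ} {G D : ℕ → E → E} (hG : GeomFacts)
  (S : SeqD a b M K γ d G D)
include hG S

lemma harm_child {n : ℕ} {h : E → E} (hh : Harm (γ (n + 1)) h) (i : Fin 2) :
    Harm (γ n) (pull i h) := by
  intro φ hφ
  have h1 := hh _ ((hφ.comp_TT i).mono ((preimage_mono Qo_subset).trans (child_subset hG i)))
  have e : ∀ x, γ n x * ⟪pull i h x, ∇ φ x⟫ = (fun y => kap ^ 2 *
      (γ (n + 1) y * ⟪h y, ∇ (fun x => φ (TT i x)) y⟫)) (SS i x) := fun x => by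
    beta_reduce
    rw [grad_comp_TT, push, TT_SS, pull]
    by_cases hx : x ∈ Qo
    · rw [S.child n i x (mem_Qo.1 hx).le, real_inner_smul_left, real_inner_smul_right,
        inner_sw_left]
      have := kap_pos
      field_simp
    · simp [hφ.grad_eq_zero hx]
  simp only [e]
  rw [integral_comp_SS i fun y => kap ^ 2 * (γ (n + 1) y * ⟪h y, ∇ (fun x => φ (TT i x)) y⟫),
    integral_const_mul, h1, mul_zero, smul_zero]

omit hG in
lemma lam_child {n : ℕ} {u : E → ℝ} {h : E → E} (H : IsH univ u h) (hh : Harm (γ (n + 1)) h)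
    (i : Fin 2) :
    Lam (γ n) (G n) (fun x => u (SS i x)) (pull i h) = Lam (γ (n + 1)) (G (n + 1)) u h := by
  have h1 := (S.isH n).inner_eq_zero (memLp_coef S.pos (S.meas (n + 1)) (S.bd (n + 1)) H.memg)
    fun φ hφ => by
      simp only [real_inner_smul_left]
      exact hh φ (hφ.mono fun x hx => mem_Qo.2 (lt_trans hx (by norm_num)))
  simp only [real_inner_comm (D n _), real_inner_smul_right] at h1
  rw [S.dip n u h H, mul_eq_zero, sub_eq_zero] at h1
  have h2 := h1.resolve_left kap_pos.ne'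
  rw [S.avg n u h H]
  fin_cases i
  · simp only [Fin.zero_eta]
    linarith
  · simp only [Fin.mk_one]
    linarith

lemma dec_children {n : ℕ} {C : ℝ} (hC : 0 ≤ C) (hd : Dec (γ n) (G n) C) {u η : E → ℝ}
    {h : E → E} {c B : ℝ} (H : IsH univ u h) (hh : Harm (γ (n + 1)) h)
    (hc : Lam (γ (n + 1)) (G (n + 1)) u h = c * F0) (hη : Test univ η) (hB : ∀ x, |η x| ≤ B) :
    |Lam (γ n) (G n) (fun x => (u (SS 0 x) - c) * η (SS 0 x))
        (pull 0 fun x => η x • h x + (u x - c) • ∇ η x)| +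
      |Lam (γ n) (G n) (fun x => (u (SS 1 x) - c) * η (SS 1 x))
        (pull 1 fun x => η x • h x + (u x - c) • ∇ η x)| ≤
      2 * (θ * C) * (B * nQ h + nQ fun x => η x • h x + (u x - c) • ∇ η x) := by
  have hB0 : 0 ≤ B := (abs_nonneg _).trans (hB 0)
  have key : ∀ i, |Lam (γ n) (G n) (fun x => (u (SS i x) - c) * η (SS i x))
      (pull i fun x => η x • h x + (u x - c) • ∇ η x)| ≤
      C * (B * nQ (pull i h) + nQ (pull i fun x => η x • h x + (u x - c) • ∇ η x)) := fun i => by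
    have e : (pull i fun x => η x • h x + (u x - c) • ∇ η x) = fun x =>
        η (SS i x) • pull i h x + (u (SS i x) - c) • ∇ (fun y => η (SS i y)) x := by
      funext x
      rw [grad_comp_SS]
      simp only [pull, map_add, map_smul, smul_add, smul_comm kap]
    rw [e]
    exact hd _ _ _ c B (H.comp_SS i).univ (harm_child hG S hh i)
      ((lam_child S H hh i).trans hc) (hη.comp_SS i).univ fun x => hB _
  have h1 := mul_le_mul_of_nonneg_left (nQ_pull hG H.memg) (mul_nonneg hC hB0)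
  have h2 := mul_le_mul_of_nonneg_left (nQ_pull hG (isH_cut H hη c).memg) hC
  nlinarith [key 0, key 1]

lemma exists_dec (hB : BogStmt) : ∃ C0 : ℝ, 0 ≤ C0 ∧ ∀ n, Dec (γ n) (G n) (θ ^ n * C0) := by
  obtain ⟨C0, hC0, hb⟩ := base hG hB
  refine ⟨C0, hC0, fun n => ?_⟩
  induction n with
  | zero =>
    intro u η h c B H _ hc hη hB
    have e : ∀ v k, Lam (γ 0) (G 0) v k = pr f1 V1 v k := fun v k => by
      simp only [Lam, S.G0, smul_zero, add_zero]
    rw [e] at hc ⊢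
    rw [pow_zero, one_mul]
    exact hb u η h _ c B H (isH_cut H hη c).memg hc hη hB
  | succ n ih =>
    intro u η h c B H hh hc hη hB
    have h1 := dec_children hG S (mul_nonneg (pow_nonneg θ_nonneg n) hC0) ih H hh hc hη hB
    rw [S.avg n _ _ (isH_cut H hη c), abs_div, abs_two, div_le_iff₀ two_pos]
    refine (abs_add_le _ _).trans (h1.trans (le_of_eq ?_))
    ring

/-! ### finite nets -/

/-- the coefficients are within `δ` of a finite set -/
def Net (γ : ℕ → E → ℝ) (δ : ℝ) : Prop := ∃ 𝓕 : Set (E → ℝ), 𝓕.Finite ∧ ∀ n, ∃ f ∈ 𝓕,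
  volume {x | γ n x ≠ f x} ≤ ENNReal.ofReal δ

lemma net_zero : Net γ (volume.real Q + 1) := by
  refine ⟨{fun _ => 1}, finite_singleton _, fun n => ⟨_, rfl, ?_⟩⟩
  have h1 : {x | γ n x ≠ 1} ⊆ Q := fun x hx => mem_Q.2 (by
    by_contra hc
    exact hx (S.one n x (by linarith)))
  refine (measure_mono h1).trans ?_
  rw [← ofReal_measureReal (volume_Q_lt hG).ne]
  exact ENNReal.ofReal_le_ofReal (by linarith)

omit hG in
lemma net_half {δ : ℝ} (hδ : 0 < δ) (h : Net γ δ) : Net γ (δ / 2) := by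
  classical
  obtain ⟨𝓕, hf, h⟩ := h
  obtain ⟨m, hm⟩ := exists_nat_one_div_lt (show 0 < δ / 5 by positivity)
  obtain ⟨𝓖, hg, h'⟩ := S.net m
  let glue : (E → ℝ) → (E → ℝ) → E → ℝ := fun f g x =>
    if rr (TT 0 x) ≤ 14 / 10 then f (TT 0 x) else if rr (TT 1 x) ≤ 14 / 10 then f (TT 1 x) else g x
  refine ⟨insert (γ 0) (image2 glue 𝓕 𝓖), (hf.image2 _ hg).insert _, fun n => ?_⟩
  cases n with
  | zero => exact ⟨_, mem_insert _ _, by simp⟩
  | succ n =>
    obtain ⟨f, hf, h1⟩ := h n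
    obtain ⟨g, hg, h2⟩ := h' n
    refine ⟨glue f g, mem_insert_of_mem _ (mem_image2_of_mem hf hg), ?_⟩
    have hc : ∀ i x, rr (TT i x) ≤ 14 / 10 → γ (n + 1) x = γ n (TT i x) := fun i x hx => by
      rw [← S.child n i _ hx, SS_TT]
    have hsub : {x | γ (n + 1) x ≠ glue f g x} ⊆ (TT 0 ⁻¹' {x | γ n x ≠ f x} ∪
        TT 1 ⁻¹' {x | γ n x ≠ f x}) ∪ {x | (∀ i, 14 / 10 < rr (TT i x)) ∧ γ (n + 1) x ≠ g x} := by
      intro x hx
      simp only [glue, mem_ofPred_eq] at hx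
      split_ifs at hx with h0 h1
      · exact Or.inl (Or.inl (by rwa [hc 0 x h0] at hx))
      · exact Or.inl (Or.inr (by rwa [hc 1 x h1] at hx))
      · exact Or.inr ⟨Fin.forall_fin_two.2 ⟨not_le.1 h0, not_le.1 h1⟩, hx⟩
    have h3 : ∀ i, volume (TT i ⁻¹' {x | γ n x ≠ f x}) ≤ ENNReal.ofReal (kap ^ 3 * δ) := fun i => by
      rw [volume_preimage_TT, ENNReal.ofReal_mul (pow_pos kap_pos 3).le]
      gcongr
    have h4 : ((m : ℝ≥0∞) + 1)⁻¹ ≤ ENNReal.ofReal (δ / 5) := by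
      refine le_trans (le_of_eq ?_) (ENNReal.ofReal_le_ofReal hm.le)
      rw [one_div, ENNReal.ofReal_inv_of_pos (by positivity), ENNReal.ofReal_add (by positivity)
        zero_le_one, ENNReal.ofReal_natCast, ENNReal.ofReal_one]
    have hk : 0 ≤ kap ^ 3 * δ := (mul_pos (pow_pos kap_pos 3) hδ).le
    refine (measure_mono hsub).trans ((measure_union_le _ _).trans ((add_le_add
      ((measure_union_le _ _).trans (add_le_add (h3 0) (h3 1))) (h2.trans h4)).trans ?_))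
    rw [← ENNReal.ofReal_add hk hk, ← ENNReal.ofReal_add (add_nonneg hk hk) (by positivity)]
    refine ENNReal.ofReal_le_ofReal ?_
    have : kap ^ 3 ≤ 3 / 20 := by norm_num [kap]
    nlinarith

lemma net_all (k : ℕ) : Net γ ((volume.real Q + 1) / 2 ^ k) := by
  induction k with
  | zero => simpa using net_zero hG S
  | succ k ih =>
    have := net_half S (by positivity) ih
    rwa [div_div, ← pow_succ] at this

/-- a subsequence of the coefficients converges almost everywhere -/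
lemma exists_limit : ∃ (ns : ℕ → ℕ) (Γ : E → ℝ), (∀ k, k ≤ ns k) ∧ Measurable Γ ∧
    (∀ x, a ≤ Γ x ∧ Γ x ≤ b) ∧ (∀ x, 139 / 100 ≤ rr x → Γ x = 1) ∧
    ∀ᵐ x, Tendsto (fun k => γ (ns k + 1) x) atTop (𝓝 (Γ x)) := by
  set δ := volume.real Q + 1 with hδ
  have hδ0 : 0 < δ := by positivity
  have h1 : ∀ k : ℕ, ∃ f : E → ℝ, ∀ᶠ n in (hyperfilter ℕ : Filter ℕ),
      volume {x | γ (n + 1) x ≠ f x} ≤ ENNReal.ofReal (δ / 2 ^ k) := fun k => by
    obtain ⟨𝓕, hf, h⟩ := net_all hG S k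
    obtain ⟨f, -, h'⟩ := (Ultrafilter.eventually_exists_mem_iff (f := hyperfilter ℕ) hf).1
      (Eventually.of_forall fun n => h (n + 1))
    exact ⟨f, h'⟩
  choose f hf using h1
  have h2 : ∀ k : ℕ, ∃ n, k ≤ n ∧ ∀ j ∈ Iic k,
      volume {x | γ (n + 1) x ≠ f j x} ≤ ENNReal.ofReal (δ / 2 ^ j) := fun k =>
    (((eventually_ge_atTop k).filter_mono Nat.hyperfilter_le_atTop).and
      ((eventually_all_finite (finite_Iic k)).2 fun j _ => hf j)).exists
  choose ns hns hn using h2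
  have h3 : ∀ k, volume {x | γ (ns k + 1) x ≠ γ (ns (k + 1) + 1) x} ≤
      ENNReal.ofReal (2 * δ * (1 / 2) ^ k) := fun k => by
    have hsub : {x | γ (ns k + 1) x ≠ γ (ns (k + 1) + 1) x} ⊆
        {x | γ (ns k + 1) x ≠ f k x} ∪ {x | γ (ns (k + 1) + 1) x ≠ f k x} := fun x hx => by
      by_contra hc
      simp only [mem_union, mem_ofPred_eq, not_or, not_not] at hc
      exact hx (hc.1.trans hc.2.symm)
    refine (measure_mono hsub).trans ((measure_union_le _ _).trans ((add_le_add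
      (hn k k (mem_Iic.2 le_rfl)) (hn (k + 1) k (mem_Iic.2 k.le_succ))).trans (le_of_eq ?_)))
    rw [← ENNReal.ofReal_add (by positivity) (by positivity), one_div, inv_pow]
    congr 1
    ring
  have h4 : ∑' k, volume {x | γ (ns k + 1) x ≠ γ (ns (k + 1) + 1) x} ≠ ⊤ :=
    ne_top_of_le_ne_top (summable_geometric_two.mul_left (2 * δ)).tsum_ofReal_ne_top
      (ENNReal.tsum_le_tsum h3)
  refine ⟨ns, fun x => limsup (fun k => γ (ns k + 1) x) atTop, hns,
    Measurable.limsup fun k => S.meas _, fun x => ⟨?_, ?_⟩, fun x hx => ?_, ?_⟩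
  · exact le_limsup_of_frequently_le (Frequently.of_forall fun k => (S.bd _ x).1)
      (isBoundedUnder_of ⟨b, fun k => (S.bd _ x).2⟩)
  · exact limsup_le_of_le (isCoboundedUnder_le_of_le atTop fun k => (S.bd _ x).1)
      (Eventually.of_forall fun k => (S.bd _ x).2)
  · simp only [S.one _ x hx, limsup_const]
  · filter_upwards [ae_eventually_notMem h4] with x hx
    obtain ⟨N, hN⟩ := eventually_atTop.1 hx
    have h5 : ∀ k, N ≤ k → γ (ns k + 1) x = γ (ns N + 1) x := fun k hk => by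
      induction k, hk using Nat.le_induction with
      | base => rfl
      | succ k hk ih => exact (not_not.1 (hN k hk)).symm.trans ih
    have h6 : Tendsto (fun k => γ (ns k + 1) x) atTop (𝓝 (γ (ns N + 1) x)) :=
      tendsto_const_nhds.congr' (eventually_atTop.2 ⟨N, fun k hk => (h5 k hk).symm⟩)
    rwa [h6.limsup_eq]

end

end Crest.Agent.R83.Lim
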