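import Crest.Agent.R83.StepWave

/-!
Row 83: one step of convex integration.
-/

set_option autoImplicit false

open MeasureTheory Set Filter Topology Metric
open scoped Gradient ContDiff RealInnerProductSpace ENNReal

namespace Crest.Agent.R83

noncomputable section

namespace StepAux

lemma continuousOn_dfc {b : ℝ} {Ω : Set E} {e j : E → E} (he : ContinuousOn e Ω)
    (hj : ContinuousOn j Ω) (hU : ∀ x ∈ Ω, inU b (e x) (j x)) :
    ContinuousOn (fun y => dfc (e y) (j y)) Ω :=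
  (hj.norm.pow 2).sub (((he.inner (𝕜 := ℝ) hj).pow 2).div (he.norm.pow 2) fun x hx =>
    pow_ne_zero _ (norm_ne_zero_iff.2 (ne_zero_of_inU (hU x hx))))

lemma local_step {b : ℝ} (hb : 0 < b) {Ω : Set E} {e j : E → E} (hΩ : IsOpen Ω)
    (he : ContinuousOn e Ω) (hj : ContinuousOn j Ω) (hU : ∀ x ∈ Ω, inU b (e x) (j x))
    {𝓕 : Set (E → E)} (h𝓕 : 𝓕.Finite) (hF : ∀ F ∈ 𝓕, MemLp F 2 volume) {ε₁ : ℝ} (hε₁ : 0 < ε₁)
    (x : E) (hx : x ∈ Ω) : ∃ R₀ : ℝ, 0 < R₀ ∧ ∀ R : ℝ, 0 < R → R < R₀ → closedBall x R ⊆ Ω ∧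
      ∀ ε : ℝ, 0 < ε → ∃ (φ : E → ℝ) (v : E), Test (ball x R) φ ∧ (∀ y, |φ y| ≤ ε) ∧
        (∀ y ∈ ball x R, inU b (e y + ∇ φ y) (j y + crs (∇ φ y) v)) ∧
        (∀ F ∈ 𝓕, |∫ y, ⟪F y, ∇ φ y⟫| ≤ ε ∧ |∫ y, ⟪F y, crs (∇ φ y) v⟫| ≤ ε) ∧
        ∫ y in closedBall x R, ((64 * b ^ 2)⁻¹ * dfc (e y) (j y) - ε₁) ≤
          (∫ y, ‖∇ φ y‖ ^ 2) + ε := by
  obtain ⟨p, v, hp, hd, hs⟩ := alg hb (hU x hx)
  have hK : IsCompact ((fun s : ℝ => (e x + s • p, j x + s • crs p v)) '' Icc (-1) 1) :=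
    isCompact_Icc.image (by fun_prop)
  obtain ⟨δ, hδ, hth⟩ := hK.exists_thickening_subset_open (isOpen_inU b) (by
    rintro _ ⟨s, hs', rfl⟩
    exact hs s (abs_le.2 hs'))
  have hG : ContinuousOn (fun y => (64 * b ^ 2)⁻¹ * dfc (e y) (j y) - ε₁) Ω :=
    (continuousOn_const.mul (continuousOn_dfc he hj hU)).sub continuousOn_const
  have hn := hΩ.mem_nhds hx
  have hlt : (64 * b ^ 2)⁻¹ * dfc (e x) (j x) - ε₁ < ‖p‖ ^ 2 / 16 := by
    have : (64 * b ^ 2)⁻¹ * dfc (e x) (j x) ≤ ‖p‖ ^ 2 / 16 := by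
      rw [inv_mul_le_iff₀ (by positivity)]
      linarith
    linarith
  have hev : ∀ᶠ y in 𝓝 x, y ∈ Ω ∧ dist (e y) (e x) < δ / 2 ∧ dist (j y) (j x) < δ / 2 ∧
      (64 * b ^ 2)⁻¹ * dfc (e y) (j y) - ε₁ < ‖p‖ ^ 2 / 16 :=
    Eventually.and hn ((Metric.tendsto_nhds.1 (he.continuousAt hn) _ (half_pos hδ)).and
      ((Metric.tendsto_nhds.1 (hj.continuousAt hn) _ (half_pos hδ)).and
        ((hG.continuousAt hn).eventually (gt_mem_nhds hlt))))
  obtain ⟨R₀, hR₀, hball⟩ := Metric.eventually_nhds_iff_ball.1 hev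
  refine ⟨R₀, hR₀, fun R hR hRR => ?_⟩
  have hsub : closedBall x R ⊆ Ω := fun y hy => (hball y (closedBall_subset_ball hRR hy)).1
  refine ⟨hsub, fun ε hε => ?_⟩
  have hδ' : 0 < δ / (2 * (‖v‖ + 1)) := by positivity
  obtain ⟨φ, h1, h2, h3, h4, h5⟩ := exists_wave x hR hp v h𝓕 hF hδ' hε
  refine ⟨φ, v, h1, h2, fun y hy => ?_, h4, ?_⟩
  · obtain ⟨s, hs1, hs2⟩ := h3 y
    obtain ⟨-, g1, g2, -⟩ := hball y (ball_subset_ball hRR.le hy)
    rw [dist_eq_norm] at g1 g2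
    have g3 : δ / (2 * (‖v‖ + 1)) * (‖v‖ + 1) = δ / 2 := by field_simp
    have g4 := norm_nonneg v
    refine hth (a := (e y + ∇ φ y, j y + crs (∇ φ y) v))
      (mem_thickening_iff.2 ⟨_, ⟨s, abs_le.1 hs1, rfl⟩, ?_⟩)
    rw [Prod.dist_eq, max_lt_iff, dist_eq_norm, dist_eq_norm]
    constructor
    · calc _ = ‖(e y - e x) + (∇ φ y - s • p)‖ := by congr 1; simp only; abel
        _ ≤ _ := norm_add_le _ _
        _ < δ := by nlinarith
    · calc _ = ‖(j y - j x) + crs (∇ φ y - s • p) v‖ := by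
            congr 1
            rw [sub_eq_add_neg (∇ φ y), ← neg_smul, crs_add_left, crs_smul_left]
            simp only [neg_smul]
            abel
        _ ≤ _ := norm_add_le _ _
        _ < δ := by
            nlinarith [norm_crs_le (∇ φ y - s • p) v, mul_le_mul_of_nonneg_right hs2 g4]
  · calc _ ≤ ∫ y in closedBall x R, ‖p‖ ^ 2 / 16 :=
          setIntegral_mono_on ((hG.mono hsub).integrableOn_compact (isCompact_closedBall x R))
            (continuousOn_const.integrableOn_compact (isCompact_closedBall x R))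
            measurableSet_closedBall fun y hy =>
              (hball y (closedBall_subset_ball hRR hy)).2.2.2.le
      _ ≤ _ := by
          rw [setIntegral_const, smul_eq_mul]
          linarith

lemma exists_finite_cover {Ω : Set E} {G : E → ℝ} (hG : IntegrableOn G Ω) (R₀ : E → ℝ)
    (hR₀ : ∀ x ∈ Ω, 0 < R₀ x) (hsub : ∀ x ∈ Ω, ∀ R, 0 < R → R < R₀ x → closedBall x R ⊆ Ω)
    {ε : ℝ} (hε : 0 < ε) : ∃ (s : Finset E) (r : E → ℝ), (∀ x ∈ s, x ∈ Ω ∧ 0 < r x ∧ r x < R₀ x) ∧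
      (∀ x ∈ s, ∀ y ∈ s, x ≠ y → Disjoint (closedBall x (r x)) (closedBall y (r y))) ∧
      (∫ y in Ω, G y) - ε ≤ ∑ x ∈ s, ∫ y in closedBall x (r x), G y := by
  classical
  obtain ⟨t, r, htc, htΩ, hr, h0, hdisj⟩ := Besicovitch.exists_disjoint_closedBall_covering_ae
    (volume : Measure E) (fun _ => univ) Ω
    (fun x _ δ hδ => ⟨δ / 2, mem_univ _, half_pos hδ, half_lt_self hδ⟩) R₀ hR₀
  have : Countable t := htc.to_subtype
  have hsub' : (⋃ x : t, closedBall (x : E) (r x)) ⊆ Ω :=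
    iUnion_subset fun x => hsub x (htΩ x.2) _ (hr x x.2).2.1 (hr x x.2).2.2
  have hs := hasSum_integral_iUnion (μ := volume) (f := G)
    (s := fun x : t => closedBall (x : E) (r x)) (fun _ => measurableSet_closedBall)
    (fun x y hxy => hdisj x.2 y.2 fun h => hxy (Subtype.ext h)) (hG.mono_set hsub')
  have heq : ∫ y in ⋃ x : t, closedBall (x : E) (r x), G y = ∫ y in Ω, G y := by
    refine setIntegral_congr_set (ae_eq_set.2 ⟨?_, ?_⟩)
    · rw [sdiff_eq_empty.2 hsub', measure_empty]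
    · rwa [iUnion_coe_set]
  rw [heq] at hs
  obtain ⟨s, hs'⟩ := (Tendsto.eventually hs (lt_mem_nhds (sub_lt_self _ hε))).exists
  refine ⟨s.map (Function.Embedding.subtype _), r, fun x hx => ?_, fun x hx y hy hxy => ?_, ?_⟩
  · obtain ⟨x, -, rfl⟩ := Finset.mem_map.1 hx
    exact ⟨htΩ x.2, (hr x x.2).2⟩
  · obtain ⟨x, -, rfl⟩ := Finset.mem_map.1 hx
    obtain ⟨y, -, rfl⟩ := Finset.mem_map.1 hy
    exact hdisj x.2 y.2 hxy
  · rw [Finset.sum_map]
    exact hs'.le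

end StepAux

open StepAux

theorem ciStep : StepStmt := by
  intro b hb
  have hb0 : 0 < b := one_pos.trans hb
  refine ⟨(64 * b ^ 2)⁻¹, by positivity, ?_⟩
  intro Ω e j B ε 𝓕 hΩ hbd he hj hB hU h𝓕 hF hε
  have hfin : volume Ω < ⊤ := hbd.measure_lt_top
  have hV : 0 ≤ volume.real Ω := measureReal_nonneg
  have hε₁ : 0 < ε / (3 * (volume.real Ω + 1)) := by positivity
  have hD : IntegrableOn (fun y => dfc (e y) (j y)) Ω := by
    refine ⟨(continuousOn_dfc he hj hU).aestronglyMeasurable hΩ.measurableSet,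
      .restrict_of_bounded (C := B ^ 2) hfin ?_⟩
    · filter_upwards [ae_restrict_mem hΩ.measurableSet] with y hy
      rw [Real.norm_eq_abs, abs_of_nonneg (dfc_nonneg _ _)]
      refine (dfc_le_sq _ _).trans ?_
      gcongr
      exact (hB y hy).2
  have hc : IntegrableOn (fun _ : E => ε / (3 * (volume.real Ω + 1))) Ω :=
    integrableOn_const hfin.ne
  choose! R₀ hR₀ hloc using local_step hb0 hΩ he hj hU h𝓕 hF hε₁
  obtain ⟨s, r, hs, hdisj, hsum⟩ := exists_finite_cover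
    (G := fun y => (64 * b ^ 2)⁻¹ * dfc (e y) (j y) - ε / (3 * (volume.real Ω + 1)))
    ((hD.const_mul _).sub hc) R₀ hR₀ (fun x hx R h1 h2 => (hloc x hx R h1 h2).1)
    (ε := ε / 3) (by positivity)
  have hε₂ : 0 < ε / (3 * ((s.card : ℝ) + 1)) := by positivity
  have hN : ∑ _x ∈ s, ε / (3 * ((s.card : ℝ) + 1)) ≤ ε / 3 := by
    rw [Finset.sum_const, nsmul_eq_mul, ← mul_div_assoc, div_le_div_iff₀ (by positivity) three_pos]
    nlinarith
  have hball : ∀ x ∈ s, closedBall x (r x) ⊆ Ω := fun x hx =>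
    (hloc x (hs x hx).1 _ (hs x hx).2.1 (hs x hx).2.2).1
  choose! φ v h1 h2 h3 h4 h5 using fun x (hx : x ∈ s) =>
    (hloc x (hs x hx).1 _ (hs x hx).2.1 (hs x hx).2.2).2 _ hε₂
  have hsle : ∀ {a : E → ℝ}, (∀ x ∈ s, |a x| ≤ ε / (3 * ((s.card : ℝ) + 1))) →
      |∑ x ∈ s, a x| ≤ ε := fun h =>
    (Finset.abs_sum_le_sum_abs _ _).trans ((Finset.sum_le_sum h).trans (by linarith))
  have hgrad : ∀ y, ∇ (fun y => ∑ x ∈ s, φ x y) y = ∑ x ∈ s, ∇ (φ x) y := fun y =>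
    grad_sum s fun x hx => (h1 x hx).differentiable y
  have key : ∀ y, (∀ x ∈ s, ∇ (φ x) y = 0) ∨
      ∃ x₀ ∈ s, y ∈ ball x₀ (r x₀) ∧ ∀ x ∈ s, x ≠ x₀ → ∇ (φ x) y = 0 := by
    intro y
    by_cases h : ∃ x₀ ∈ s, y ∈ ball x₀ (r x₀)
    · obtain ⟨x₀, hx₀, hy⟩ := h
      exact Or.inr ⟨x₀, hx₀, hy, fun x hx hne => (h1 x hx).grad_eq_zero fun hy' =>
        Set.disjoint_left.1 (hdisj x hx x₀ hx₀ hne) (ball_subset_closedBall hy')
          (ball_subset_closedBall hy)⟩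
    · exact Or.inl fun x hx => (h1 x hx).grad_eq_zero fun hy => h ⟨x, hx, hy⟩
  have hsm : ∀ x ∈ s, ∀ y, ContDiffAt ℝ ∞ (fun y => crs (∇ (φ x) y) (v x)) y := fun x hx y =>
    contDiffAt_crs (contDiff_grad (h1 x hx).smooth).contDiffAt contDiffAt_const
  have hK : IsCompact (⋃ x ∈ s, closedBall x (r x)) :=
    s.isCompact_biUnion fun x _ => isCompact_closedBall _ _
  have hk0 : ∀ y, y ∉ (⋃ x ∈ s, closedBall x (r x)) → ∑ x ∈ s, crs (∇ (φ x) y) (v x) = 0 :=
    fun y hy => Finset.sum_eq_zero fun x hx => by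
      rw [(h1 x hx).grad_eq_zero fun hy' => hy (mem_biUnion hx (ball_subset_closedBall hy')),
        crs_zero_left]
  have hki : ∀ {F : E → E}, MemLp F 2 volume → ∫ y, ⟪F y, ∑ x ∈ s, crs (∇ (φ x) y) (v x)⟫ =
      ∑ x ∈ s, ∫ y, ⟪F y, crs (∇ (φ x) y) (v x)⟫ := fun hF => by
    simp only [inner_sum, inner_crs]
    exact integral_finsetSum _ fun x hx => integrable_inner' (memLp_crs _ hF) (h1 x hx).memLp_grad
  refine ⟨fun y => ∑ x ∈ s, φ x y, fun y => ∑ x ∈ s, crs (∇ (φ x) y) (v x),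
    Test.sum s fun x hx => (h1 x hx).mono (ball_subset_closedBall.trans (hball x hx)),
    ContDiff.sum fun x hx => contDiff_iff_contDiffAt.2 (hsm x hx), HasCompactSupport.intro hK hk0,
    (closure_minimal (Function.support_subset_iff'.2 hk0) hK.isClosed).trans
      (iUnion₂_subset hball), fun η hη => ?_, fun y => hsle fun x hx => h2 x hx y,
    fun y hy => ?_, fun F hF' => ⟨?_, ?_⟩, ?_⟩
  · simp only [real_inner_comm (∇ η _)]
    rw [hki hη.memLp_grad]
    refine Finset.sum_eq_zero fun x hx => ?_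
    simp only [real_inner_comm _ (∇ η _)]
    refine integral_inner_grad_eq_zero isOpen_univ
      (fun y _ => ⟨(hsm x hx y).of_le (by exact_mod_cast le_top), ?_⟩) hη
    have := dvg_crs_grad (f := φ x) (g := fun y => ⟪v x, y⟫) (x := y) (h1 x hx).smooth.contDiffAt
      (contDiffAt_const.inner ℝ contDiffAt_id)
    simpa only [grad_inner] using this
  · rw [hgrad]
    beta_reduce
    rcases key y with h | ⟨x₀, hx₀, hy₀, h⟩
    · rw [Finset.sum_eq_zero h, Finset.sum_eq_zero fun x hx => by rw [h x hx, crs_zero_left],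
        add_zero, add_zero]
      exact hU y hy
    · rw [Finset.sum_eq_single_of_mem x₀ hx₀ h,
        Finset.sum_eq_single_of_mem x₀ hx₀ fun x hx hne => by rw [h x hx hne, crs_zero_left]]
      exact h3 x₀ hx₀ y hy₀
  · simp only [hgrad, inner_sum]
    rw [integral_finsetSum _ fun x hx => integrable_inner' (hF F hF') (h1 x hx).memLp_grad]
    exact hsle fun x hx => (h4 x hx F hF').1
  · rw [hki (hF F hF')]
    exact hsle fun x hx => (h4 x hx F hF').2
  · have e1 : ∀ y, ‖∇ (fun y => ∑ x ∈ s, φ x y) y‖ ^ 2 = ∑ x ∈ s, ‖∇ (φ x) y‖ ^ 2 := by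
      intro y
      rw [hgrad]
      rcases key y with h | ⟨x₀, hx₀, -, h⟩
      · rw [Finset.sum_eq_zero h, Finset.sum_eq_zero fun x hx => by simp [h x hx]]
        simp
      · rw [Finset.sum_eq_single_of_mem x₀ hx₀ h,
          Finset.sum_eq_single_of_mem x₀ hx₀ fun x hx hne => by simp [h x hx hne]]
    simp only [e1]
    rw [integral_finsetSum _ fun x hx => integrable_norm_sq (h1 x hx).memLp_grad]
    have e2 := Finset.sum_le_sum h5
    rw [Finset.sum_add_distrib] at e2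
    rw [integral_sub (hD.const_mul _) hc, integral_const_mul, setIntegral_const, smul_eq_mul] at hsum
    have e3 : volume.real Ω * (ε / (3 * (volume.real Ω + 1))) ≤ ε / 3 := by
      rw [← mul_div_assoc, div_le_div_iff₀ (by positivity) three_pos]
      nlinarith
    linarith

end

end Crest.Agent.R83
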