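import Crest.Agent.R83.WeylKer

/-!
Row 83: Weyl's lemma with interior estimates.
-/

set_option autoImplicit false

open MeasureTheory Set Filter Topology Metric
open scoped Gradient ContDiff RealInnerProductSpace ENNReal

namespace Crest.Agent.R83

open WeylAux in
theorem weyl : WeylStmt := by
  intro t ht
  have hc := integral_rho_pos
  have hk : Test univ (fun y => (∫ y, rho 1 y)⁻¹ * rho t y) := (rho_test ht).const_mul _
  obtain ⟨C1, h1, H1⟩ := cv_bound hk
  obtain ⟨C2, h2, H2⟩ := cv_grad_bound hk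
  obtain ⟨C3, h3, H3⟩ := cv_grad_lip hk
  refine ⟨C1 + C2 + C3, by positivity, fun U u g B hU H hh hB hI => ?_⟩
  have hv := cv_smooth H.memu hk
  refine ⟨_, hv, fun x => ⟨(H1 u B H.memu hB hI x).trans ?_, (H2 u B H.memu hB hI x).trans ?_⟩,
    fun x y => (H3 u B H.memu hB hI x y).trans ?_, ?_⟩
  · gcongr; linarith
  · gcongr; linarith
  · gcongr; linarith
  · have he : ∀ᵐ x, x ∈ {x : E | closedBall x t ⊆ U} →
        cv u (fun y => (∫ y, rho 1 y)⁻¹ * rho t y) x = u x := by
      filter_upwards [ae_tendsto_cv H.memu] with x hx hxO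
      have h4 : Tendsto (fun s => cv u (rho s) x) (𝓝[>] 0) (𝓝 (cv u (rho t) x)) := by
        refine tendsto_const_nhds.congr' ?_
        filter_upwards [Ioc_mem_nhdsGT ht] with s hs
        exact mean_value H hh hs.1 hs.2 hxO
      have h5 := tendsto_nhds_unique h4 hx
      have h6 : cv u (fun y => (∫ y, rho 1 y)⁻¹ * rho t y) x =
          (∫ y, rho 1 y)⁻¹ * cv u (rho t) x := by
        rw [cv_apply, cv_apply, ← integral_const_mul]
        simp only [mul_left_comm]
      rw [h6, h5, ← mul_assoc, inv_mul_cancel₀ hc.ne', one_mul]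
    filter_upwards [he, grad_ae_eq H hv (isOpen_inner hU ht) he] with x hx hx' hxO
    exact ⟨hx hxO, hx' hxO⟩

end Crest.Agent.R83
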