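import Crest.Agent.R83.Seq
import Crest.Agent.R83.Geom
import Crest.Agent.R83.Bog
import Crest.Agent.R83.Weyl
import Crest.Agent.R83.Step
import Crest.Agent.R83.CI3
import Crest.Agent.R83.Cascade
import Crest.Agent.R83.Flat
import Crest.Agent.R83.Kill
import Crest.Agent.R83.Chain
import Crest.Agent.R83.Lax
import Crest.Agent.R83.Gauge
import Crest.Agent.R83.Limit

set_option autoImplicit false

namespace Crest.Agent.R83

theorem ci (hS : StepStmt) : CIStmt := CI.main hS

theorem result_of_design (hD : DesignStmt) : Result :=
  gauge c1 chain prod poincare lax (maxp poincare)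
    (limit geomFacts bog poincare lax weak
      (seq geomFacts bog weyl poincare lax (maxp poincare) (ci ciStep) hD
        (kill geomFacts bog weyl (ci ciStep))))

end Crest.Agent.R83
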