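import Crest.Agent.R83.Seq5

/-!
Row 83: the recursion.
-/

set_option autoImplicit false

open MeasureTheory Set Filter Topology Metric
open scoped Gradient ContDiff RealInnerProductSpace ENNReal

namespace Crest.Agent.R83

noncomputable section

open _root_.Crest.Agent.R83.Seq in
theorem seq (hG : GeomFacts) (hB : BogStmt) (hW : WeylStmt) (hP : PoincareStmt)
    (hL : LaxStmt) (hM : MaxStmt) (hC : CIStmt) (hD : DesignStmt) (hK : KillStmt) : SeqStmt := by
  obtain ⟨as, bs, MW, γs, W, Gd, Jt, s0, s1, s2, s3, s4, s5, s6, s7, s8, s9⟩ :=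
    exists_dipole hG hD hC
  obtain ⟨a, b, C, 𝓕, a0, a1, b1, C0, F1, hstep⟩ := one_step hG hB hW hP hL hM hK s0 s1 s2 s3 s4
  let Good : (E → ℝ) × (E → ℝ) × (E → E) → Prop := fun z =>
    Measurable z.1 ∧ (∀ x, a ≤ z.1 x ∧ z.1 x ≤ b) ∧ (∀ x, 139 / 100 ≤ rr x → z.1 x = 1) ∧
      IsH {x | rr x < 14 / 10} z.2.1 z.2.2 ∧ (∀ᵐ x, |z.2.1 x| ≤ 26 * C) ∧
      √(∫ x, ‖z.2.2 x‖ ^ 2) ≤ 100 * C
  let Rel : (E → ℝ) × (E → ℝ) × (E → E) → (E → ℝ) × (E → ℝ) × (E → E) → Prop := fun z z' =>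
    (∀ i x, rr x ≤ 14 / 10 → z'.1 (SS i x) = z.1 x) ∧
      (∀ x, rr x < 135 / 100 → (∀ i, 14 / 10 < rr (TT i x)) → z'.1 x = γs x) ∧
      (∀ v k, IsH univ v k → Lam z'.1 z'.2.2 v k =
        (Lam z.1 z.2.2 (fun x => v (SS 0 x)) (pull 0 k) +
          Lam z.1 z.2.2 (fun x => v (SS 1 x)) (pull 1 k)) / 2) ∧
      ∀ m : ℕ, ∃ f ∈ 𝓕 m,
        volume {x | (∀ i, 14 / 10 < rr (TT i x)) ∧ z'.1 x ≠ f x} ≤ ((m : ℝ≥0∞) + 1)⁻¹
  have hs : ∀ z : {z // Good z}, ∃ z' : {z // Good z}, Rel z.1 z'.1 := by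
    rintro ⟨⟨γ, P, G⟩, g1, g2, g3, g4, g5, g6⟩
    obtain ⟨γ', P', G', h1, h2, h3, h4, h5, h6, h7, h8, h9, h10⟩ :=
      hstep γ P G _ _ g1 g2 g3 g4 g5 g6
    refine ⟨⟨(γ', P', G'), h1, h2, h3, h4, ?_, ?_⟩, h7, h8, h9, h10⟩
    · filter_upwards [h5] with x hx
      refine hx.trans (le_of_eq ?_)
      norm_num [kap]
      ring
    · exact h6.trans (le_of_eq (by ring))
  choose nxt hnxt using hs
  have g0 : Good (fun _ => 1, fun _ => 0, fun _ => 0) :=
    ⟨measurable_const, fun _ => ⟨a1, b1⟩, fun _ _ => rfl, IsH.zero _,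
      Eventually.of_forall fun _ => by simp only [abs_zero]; positivity, by simp; positivity⟩
  let z : ℕ → {z // Good z} := fun n => nxt^[n] ⟨_, g0⟩
  have hz : ∀ n, Rel (z n).1 (z (n + 1)).1 := fun n => by
    simp only [z, Function.iterate_succ_apply']
    exact hnxt _
  set K := (200 * C + √(∫ x, ‖Gd x‖ ^ 2)) ^ 2 with hKdef
  have hk := kap_pos
  refine ⟨a, b, 26 * C + MW, K, fun n => (z n).1.1,
    fun n x => (1 * (z n).1.2.1 (TT 0 x) + (-1) * (z n).1.2.1 (TT 1 x)) + W x,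
    fun n => (z n).1.2.2,
    fun n x => ((1 : ℝ) • push 0 (z n).1.2.2 x + (-1 : ℝ) • push 1 (z n).1.2.2 x) + Gd x, a0,
    fun n => ?_, fun _ => rfl, fun n => (hz n).1, fun n => (hz n).2.2.1, fun n => ?_,
    fun m => ⟨𝓕 m, F1 m, fun n => (hz n).2.2.2 m⟩⟩
  · obtain ⟨g1, g2, g3, g4, g5, g6⟩ := (z n).2
    refine ⟨g1, g2, g3, g4.memg, ?_, ?_⟩
    · rw [hKdef, ← Real.sqrt_le_left (by positivity)]
      linarith [Real.sqrt_nonneg (∫ x, ‖Gd x‖ ^ 2)]
    · filter_upwards [g4.ae_zero] with x hx h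
      exact (hx (not_lt.2 h)).2
  · obtain ⟨g1, g2, g3, g4, g5, g6⟩ := (z n).2
    have ch := children_isH hG g4 1 (-1)
    refine ⟨ch.add s5, ?_, ?_, fun v k H => ?_⟩
    · filter_upwards [children_bound hG g4 g5 (s := 1) (t := -1) (c := 1) (by simp) (by simp)]
        with x hx
      exact (abs_add_le _ _).trans (add_le_add (by linarith) (s6 x))
    · rw [hKdef, ← Real.sqrt_le_left (by positivity)]
      refine (sqrt_integral_add_le ch.memg s5.memg).trans (add_le_add ?_ le_rfl)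
      rw [children_energy hG g4, Real.sqrt_mul (by positivity)]
      have : √(kap * (1 ^ 2 + (-1) ^ 2)) ≤ 2 := by
        rw [Real.sqrt_le_left (by norm_num)]
        norm_num [kap]
      exact (mul_le_mul this g6 (Real.sqrt_nonneg _) (by norm_num)).trans (le_of_eq (by ring))
    · have mγ := memLp_cond_smul g1 a0 g2 g4.memg
      have i0 := fun i => integrable_inner' (memLp_push i mγ) H.memg
      have e1 := s8 (z (n + 1)).1.1 (hz n).2.1 fun i x h1 h2 => by
        have := (hz n).1 i _ h2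
        rw [SS_TT] at this
        rw [this, g3 _ h1]
      rw [integral_congr_ae (g := fun x =>
        (⟪push 0 (fun y => (z n).1.1 y • (z n).1.2.2 y) x, k x⟫ -
          ⟪push 1 (fun y => (z n).1.1 y • (z n).1.2.2 y) x, k x⟫) + ⟪Jt x, k x⟫) (by
          filter_upwards [children_cond g4 (hz n).1 0, children_cond g4 (hz n).1 1, e1]
            with x h0 h1 h2
          rw [← h0, ← h1, ← h2]
          simp only [inner_add_left, inner_smul_left, conj_trivial]
          ring),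
        integral_add ((i0 0).sub' (i0 1)) (integrable_inner' s7 H.memg),
        integral_sub (i0 0) (i0 1), s9 v k H]
      have h0 := Lam_child hG mγ H.memu H.memg 0
      have h1 := Lam_child hG mγ H.memu H.memg 1
      linear_combination -h0 + h1

end

end Crest.Agent.R83
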