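import Crest.Agent.R83.Basic

/-!
Row 83: fixed data of the recursion, part 1 (the carrier profile and the source functional).
-/

set_option autoImplicit false

open MeasureTheory Set Filter Topology Metric
open scoped Gradient ContDiff RealInnerProductSpace ENNReal

namespace Crest.Agent.R83

noncomputable section

namespace Seq

lemma continuous_of_zero_off {F : Type*} [TopologicalSpace F] [Zero F] {f : E → F} {C : Set E}
    (hC : IsClosed C) (h1 : ∀ x ∈ C, ContinuousAt f x) (h0 : ∀ x, x ∉ C → f x = 0) :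
    Continuous f := by
  refine continuous_iff_continuousAt.2 fun x => ?_
  by_cases hx : x ∈ C
  · exact h1 x hx
  · refine (continuousAt_const (y := (0 : F))).congr ?_
    filter_upwards [hC.isOpen_compl.mem_nhds hx] with y hy
    exact (h0 y hy).symm

lemma integrable_inner_grad {U : Set E} {F : E → E} {ψ : E → ℝ}
    (hF : ∀ x ∈ U, ContinuousAt F x) (hψ : Test U ψ) :
    Integrable (fun x => ⟪F x, ∇ ψ x⟫) volume := by
  refine Continuous.integrable_of_hasCompactSupport ?_
    (HasCompactSupport.intro hψ.cpt fun x hx => by simp [grad_eq_zero_of_notMem hx])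
  exact continuous_of_zero_off (isClosed_tsupport ψ)
    (fun x hx => (hF x (hψ.sub hx)).inner hψ.continuous_grad.continuousAt)
    fun x hx => by simp [grad_eq_zero_of_notMem hx]

lemma memLp_of_zero_off {F : Type*} [NormedAddCommGroup F] {f : E → F} {K : Set E}
    (hf : Continuous f) (hK : IsCompact K) (h0 : ∀ x, x ∉ K → f x = 0) : MemLp f 2 volume :=
  hf.memLp_of_hasCompactSupport (HasCompactSupport.intro hK h0)

variable (hG : GeomFacts)
include hG

lemma step_rr_smooth {a b : ℝ} (ha : 1 < a) (hab : a < b) :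
    ContDiff ℝ ∞ (fun x => step a b (rr x)) :=
  hG.comp_smooth (step a b) a ha (step_contDiff a b).contDiffOn fun t ht => by
    rw [step_of_le hab ht, step_of_le hab le_rfl]

lemma grad_step_rr_zero {a b : ℝ} (ha : 1 < a) (hab : a < b) {x : E}
    (h : rr x ≤ a ∨ b ≤ rr x) : ∇ (fun x => step a b (rr x)) x = 0 := by
  by_cases h1 : 1 < rr x
  · rw [(hG.grad_comp _ _ x h1 (step_hasDerivAt a b _)).gradient, deriv_step_eq_zero hab h,
      zero_smul]
  · refine grad_eq_zero_of_eventually_const (c := 0) ?_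
    have : ∀ᶠ y in 𝓝 x, rr y < a := hG.cont.continuousAt.eventually_lt continuousAt_const
      (by linarith)
    filter_upwards [this] with y hy
    exact step_of_le hab hy.le

lemma th_smooth : ContDiff ℝ ∞ th := hG.th_test.smooth

omit hG in
lemma th_of_le {x : E} (h : rr x ≤ 1393 / 1000) : th x = 1 := by
  simp [th, step_of_le (by norm_num : (1393 / 1000 : ℝ) < 1397 / 1000) h]

omit hG in
lemma th_of_ge {x : E} (h : 1397 / 1000 ≤ rr x) : th x = 0 := by
  simp [th, step_of_ge (by norm_num : (1393 / 1000 : ℝ) < 1397 / 1000) h]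

lemma grad_th_zero {x : E} (h : rr x ≤ 1393 / 1000 ∨ 1397 / 1000 ≤ rr x) : ∇ th x = 0 := by
  have : th = fun x => 1 - step (1393 / 1000) (1397 / 1000) (rr x) := rfl
  rw [this, grad_const_sub, grad_step_rr_zero hG (by norm_num) (by norm_num) h, neg_zero]

lemma contAt_gradN {x : E} (h : 1 < rr x) : ContinuousAt (∇ NN) x :=
  (contDiffAt_grad (hG.N_smooth x h)).continuousAt

lemma memLp_f1 : MemLp f1 2 volume :=
  memLp_of_zero_off hG.f1_cont (hG.compact (1397 / 1000)) fun x hx =>
    (hG.f1_V1_zero x (Or.inr (by simpa using hx))).1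

lemma memLp_V1 : MemLp V1 2 volume :=
  memLp_of_zero_off hG.V1_cont (hG.compact (1397 / 1000)) fun x hx =>
    (hG.f1_V1_zero x (Or.inr (by simpa using hx))).2

/-- testing the harmonic function `NN` against a cut-off product -/
lemma N_cut {m η : E → ℝ} (hm : ContDiff ℝ ∞ m) (hm0 : ∀ x, rr x ≤ 1355 / 1000 → m x = 0)
    (hη : Test univ η) :
    Integrable (fun x => m x * ⟪∇ NN x, ∇ η x⟫ + η x * ⟪∇ NN x, ∇ m x⟫) volume ∧
      ∫ x, (m x * ⟪∇ NN x, ∇ η x⟫ + η x * ⟪∇ NN x, ∇ m x⟫) = 0 := by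
  have hT : Test {x | 1 < rr x} (fun x => m x * η x) :=
    hη.mul_of_zero_off (C := {x | 1355 / 1000 ≤ rr x}) hm (isClosed_le continuous_const hG.cont)
      (fun x hx => by
        have : 1355 / 1000 ≤ rr x := hx.1
        show 1 < rr x
        linarith)
      fun x hx => hm0 x (le_of_lt (by simpa using hx))
  have e : ∀ x, m x * ⟪∇ NN x, ∇ η x⟫ + η x * ⟪∇ NN x, ∇ m x⟫ =
      ⟪∇ NN x, ∇ (fun y => m y * η y) x⟫ := fun x => by
    rw [grad_mul (hm.differentiable (by simp) x) (hη.differentiable x), inner_add_right,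
      inner_smul_right, inner_smul_right]
  simp only [e]
  exact ⟨integrable_inner_grad (fun x hx => contAt_gradN hG hx) hT, hG.N_harm _ hT⟩

/-- the outer part of the potential of a block has source `pr f1 V1` -/
lemma outer_source {η : E → ℝ} (hη : Test univ η) :
    ∫ x, ⟪∇ (fun y => (1 - th y) * NN y) x, ∇ η x⟫ = pr f1 V1 η (∇ η) := by
  have hm : ContDiff ℝ ∞ (fun y => 1 - th y) := contDiff_const.sub (th_smooth hG)
  obtain ⟨i1, h1⟩ := N_cut hG hm (fun x hx => by rw [th_of_le (by linarith), sub_self]) hη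
  have i2 : Integrable (fun x => f1 x * η x + ⟪V1 x, ∇ η x⟫) volume :=
    (integrable_mul' (memLp_f1 hG) hη.memLp).add (integrable_inner' (memLp_V1 hG) hη.memLp_grad)
  have e : ∀ x, ⟪∇ (fun y => (1 - th y) * NN y) x, ∇ η x⟫ =
      ((1 - th x) * ⟪∇ NN x, ∇ η x⟫ + η x * ⟪∇ NN x, ∇ (fun y => 1 - th y) x⟫) +
        (f1 x * η x + ⟪V1 x, ∇ η x⟫) := by
    intro x
    by_cases h : 1 < rr x
    · rw [grad_mul (hm.differentiable (by simp) x)
        ((hG.N_smooth x h).differentiableAt (by simp)), grad_const_sub]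
      simp only [f1, V1, inner_add_left, inner_smul_left, inner_neg_right, inner_neg_left,
        conj_trivial, smul_neg, neg_smul]
      ring
    · have h2 : ∀ᶠ y in 𝓝 x, rr y < 1393 / 1000 :=
        hG.cont.continuousAt.eventually_lt continuousAt_const (by linarith)
      rw [grad_eq_zero_of_eventually_const (c := 0), grad_const_sub,
        grad_th_zero hG (Or.inl (by linarith)), th_of_le (by linarith),
        (hG.f1_V1_zero x (Or.inl (by linarith))).1, (hG.f1_V1_zero x (Or.inl (by linarith))).2]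
      · simp
      · filter_upwards [h2] with y hy
        rw [th_of_le hy.le]; simp
  simp only [e]
  rw [integral_add i1 i2, h1, zero_add, pr]

/-- inner cut-off -/
def st (x : E) : ℝ := step (1355 / 1000) (1365 / 1000) (rr x)

def f2 (x : E) : ℝ := -⟪∇ NN x, ∇ st x⟫

lemma st_smooth : ContDiff ℝ ∞ st := step_rr_smooth hG (by norm_num) (by norm_num)

lemma grad_st_zero {x : E} (h : rr x ≤ 1355 / 1000 ∨ 1365 / 1000 ≤ rr x) : ∇ st x = 0 :=
  grad_step_rr_zero hG (by norm_num) (by norm_num) h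

omit hG in
lemma st_of_le {x : E} (h : rr x ≤ 1355 / 1000) : st x = 0 := step_of_le (by norm_num) h

omit hG in
lemma st_of_ge {x : E} (h : 1365 / 1000 ≤ rr x) : st x = 1 := step_of_ge (by norm_num) h

lemma f2_zero {x : E} (h : rr x ≤ 1355 / 1000 ∨ 1365 / 1000 ≤ rr x) : f2 x = 0 := by
  simp [f2, grad_st_zero hG h]

lemma f2_cont : Continuous f2 :=
  continuous_of_zero_off (C := {x | 1355 / 1000 ≤ rr x}) (isClosed_le continuous_const hG.cont)
    (fun x hx => ((contAt_gradN hG (by
      have : 1355 / 1000 ≤ rr x := hx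
      linarith)).inner (continuous_grad ((st_smooth hG).of_le
        (by exact_mod_cast le_top))).continuousAt).neg)
    fun x hx => f2_zero hG (Or.inl (le_of_lt (by simpa using hx)))

lemma memLp_f2 : MemLp f2 2 volume :=
  memLp_of_zero_off (f2_cont hG) (hG.compact (1365 / 1000)) fun x hx =>
    f2_zero hG (Or.inr (le_of_lt (by simpa using hx)))

/-- the reference current -/
def j0 (x : E) : E := (st x * th x) • ∇ NN x + NN x • ∇ th x

lemma j0_zero {x : E} (h : rr x ≤ 1355 / 1000 ∨ 1397 / 1000 ≤ rr x) : j0 x = 0 := by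
  rcases h with h | h
  · simp [j0, st_of_le h, grad_th_zero hG (Or.inl (by linarith : rr x ≤ 1393 / 1000))]
  · simp [j0, th_of_ge h, grad_th_zero hG (Or.inr h)]

lemma j0_cont : Continuous j0 :=
  continuous_of_zero_off (C := {x | 1355 / 1000 ≤ rr x}) (isClosed_le continuous_const hG.cont)
    (fun x hx => by
      have h1 : 1355 / 1000 ≤ rr x := hx
      have h2 : 1 < rr x := by linarith
      exact (((st_smooth hG).continuous.mul (th_smooth hG).continuous).continuousAt.smul
        (contAt_gradN hG h2)).add ((hG.N_smooth x h2).continuousAt.smul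
          hG.th_test.continuous_grad.continuousAt))
    fun x hx => j0_zero hG (Or.inl (le_of_lt (by simpa using hx)))

lemma memLp_j0 : MemLp j0 2 volume :=
  memLp_of_zero_off (j0_cont hG) (hG.compact (1397 / 1000)) fun x hx =>
    j0_zero hG (Or.inr (le_of_lt (by simpa using hx)))

lemma grad_st_th (x : E) : ⟪∇ NN x, ∇ (fun y => st y * th y) x⟫ = f1 x - f2 x := by
  rw [grad_mul ((st_smooth hG).differentiable (by simp) x)
    ((th_smooth hG).differentiable (by simp) x), inner_add_right, inner_smul_right,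
    inner_smul_right, f1, f2]
  by_cases h : rr x ≤ 138 / 100
  · rw [grad_th_zero hG (Or.inl (by linarith)), th_of_le (by linarith)]; simp
  · rw [grad_st_zero hG (Or.inr (by linarith)), st_of_ge (by linarith)]; simp

lemma j0_source {v : E → ℝ} {k : E → E} (H : IsH univ v k) :
    ∫ x, ⟪j0 x, k x⟫ = (∫ x, f2 x * v x) - pr f1 V1 v k := by
  have key : pr (fun x => f1 x - f2 x) (fun x => j0 x + V1 x) v k = 0 := by
    refine H.pr_eq_zero ((memLp_f1 hG).sub (memLp_f2 hG)) ((memLp_j0 hG).add (memLp_V1 hG))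
      fun η hη => ?_
    obtain ⟨-, h1⟩ := N_cut hG ((st_smooth hG).mul (th_smooth hG))
      (fun x hx => by rw [st_of_le hx, zero_mul]) hη
    rw [← h1, pr]
    congr 1
    ext x
    rw [grad_st_th hG]
    simp only [j0, V1, inner_add_left, inner_smul_left, conj_trivial]
    ring
  rw [pr_eq (f := fun x => f1 x - f2 x) (F := fun x => j0 x + V1 x)
    ((memLp_f1 hG).sub (memLp_f2 hG)) ((memLp_j0 hG).add (memLp_V1 hG)) H.memu H.memg] at key
  rw [pr_eq (memLp_f1 hG) (memLp_V1 hG) H.memu H.memg]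
  simp only [sub_mul, inner_add_left] at key
  rw [integral_sub (integrable_mul' (memLp_f1 hG) H.memu) (integrable_mul' (memLp_f2 hG) H.memu),
    integral_add (integrable_inner' (memLp_j0 hG) H.memg)
      (integrable_inner' (memLp_V1 hG) H.memg)] at key
  linarith

lemma integrable_f1 : Integrable f1 volume :=
  hG.f1_cont.integrable_of_hasCompactSupport (HasCompactSupport.intro (hG.compact (1397 / 1000))
    fun x hx => (hG.f1_V1_zero x (Or.inr (by simpa using hx))).1)

lemma integrable_f2 : Integrable f2 volume :=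
  (f2_cont hG).integrable_of_hasCompactSupport (HasCompactSupport.intro (hG.compact (1365 / 1000))
    fun x hx => f2_zero hG (Or.inr (le_of_lt (by simpa using hx))))

lemma integral_f2 : ∫ x, f2 x = ∫ x, f1 x := by
  have hT : Test {x | 1 < rr x} (fun x => st x * th x) :=
    hG.th_test.mul_of_zero_off (C := {x | 1355 / 1000 ≤ rr x}) (st_smooth hG)
      (isClosed_le continuous_const hG.cont)
      (fun x hx => by
        have : 1355 / 1000 ≤ rr x := hx.1
        show 1 < rr x
        linarith)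
      fun x hx => st_of_le (le_of_lt (by simpa using hx))
  have := hG.N_harm _ hT
  simp only [grad_st_th hG] at this
  rw [integral_sub (integrable_f1 hG) (integrable_f2 hG)] at this
  linarith

omit hG in
/-- the radial profile -/
lemma exists_profile {a₀ : ℝ} (h0 : 0 < a₀) (h1 : a₀ ≤ 1) : ∃ γ₀ Γ : ℝ → ℝ, Continuous γ₀ ∧
    (∀ t, a₀ ≤ γ₀ t ∧ γ₀ t ≤ 1) ∧ (∀ t, t ≤ 137 / 100 ∨ 139 / 100 ≤ t → γ₀ t = 1) ∧
    (∀ t, 1372 / 1000 ≤ t → t ≤ 1388 / 1000 → γ₀ t = a₀) ∧ ContDiff ℝ ∞ Γ ∧
    (∀ t, t ≤ 1355 / 1000 → Γ t = Γ (1355 / 1000)) ∧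
    (∀ t, 139 / 100 ≤ t → Γ t = Real.log ((t + 1) / (t - 1)) / 2) ∧
    ∀ t, γ₀ t * deriv Γ t = step (1355 / 1000) (1365 / 1000) t * -(t ^ 2 - 1)⁻¹ := by
  set μ : ℝ → ℝ := fun t => step (137 / 100) (1372 / 1000) t * (1 - step (1388 / 1000) (139 / 100) t)
    with hμ
  have μ0 : ∀ t, 0 ≤ μ t := fun t => mul_nonneg (step_nonneg _ _ _) (by linarith [step_le_one (1388 / 1000) (139 / 100) t])
  have μ1 : ∀ t, μ t ≤ 1 := fun t => mul_le_one₀ (step_le_one _ _ _)
    (by linarith [step_le_one (1388 / 1000) (139 / 100) t])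
    (by linarith [step_nonneg (1388 / 1000) (139 / 100) t])
  have μs : ContDiff ℝ ∞ μ := (step_contDiff _ _).mul (contDiff_const.sub (step_contDiff _ _))
  set q : ℝ → ℝ := fun t => 1 + (a₀⁻¹ - 1) * μ t with hq
  have ha : 1 ≤ a₀⁻¹ := (one_le_inv₀ h0).2 h1
  have q1 : ∀ t, 1 ≤ q t := fun t => by
    have := mul_nonneg (sub_nonneg.2 ha) (μ0 t)
    simp only [hq]; linarith
  have q2 : ∀ t, q t ≤ a₀⁻¹ := fun t => by
    have := mul_le_mul_of_nonneg_left (μ1 t) (sub_nonneg.2 ha)
    simp only [hq]; linarith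
  have qs : ContDiff ℝ ∞ q := contDiff_const.add (contDiff_const.mul μs)
  set D : ℝ → ℝ := fun t => step (1355 / 1000) (1365 / 1000) t * -(t ^ 2 - 1)⁻¹ * q t with hD
  have D0 : ∀ t, t ≤ 1355 / 1000 → D t = 0 := fun t ht => by
    simp [hD, step_of_le (by norm_num : (1355 / 1000 : ℝ) < 1365 / 1000) ht]
  have Ds : ContDiff ℝ ∞ D := by
    refine contDiff_iff_contDiffAt.2 fun t => ?_
    by_cases ht : 1 < t
    · refine ((step_contDiff _ _).contDiffAt.mul ?_).mul qs.contDiffAt
      exact (((contDiffAt_id.pow 2).sub contDiffAt_const).inv (by simp only [id]; nlinarith)).neg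
    · refine (contDiffAt_const (c := (0 : ℝ))).congr_of_eventuallyEq ?_
      filter_upwards [gt_mem_nhds (show t < 1355 / 1000 by linarith)] with s hs
      exact D0 s hs.le
  set Nf : ℝ → ℝ := fun t => Real.log ((t + 1) / (t - 1)) / 2 with hNf
  set Γ : ℝ → ℝ := fun t => Nf (139 / 100) + ∫ s in (139 / 100 : ℝ)..t, D s with hΓ
  have Γd : ∀ t, HasDerivAt Γ (D t) t := fun t =>
    (Ds.continuous.integral_hasStrictDerivAt _ t).hasDerivAt.const_add _
  have Γd' : deriv Γ = D := funext fun t => (Γd t).deriv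
  have qa : ∀ t, t ≤ 137 / 100 ∨ 139 / 100 ≤ t → q t = 1 := by
    rintro t (ht | ht)
    · simp [hq, hμ, step_of_le (by norm_num : (137 / 100 : ℝ) < 1372 / 1000) ht]
    · simp [hq, hμ, step_of_ge (by norm_num : (1388 / 1000 : ℝ) < 139 / 100) ht]
  refine ⟨fun t => (q t)⁻¹, Γ, qs.continuous.inv₀ fun t => by linarith [q1 t], fun t => ⟨?_, ?_⟩,
    fun t ht => ?_, fun t h2 h3 => ?_, ?_, fun t ht => ?_, fun t ht => ?_, fun t => ?_⟩
  · rw [le_inv_comm₀ h0 (by linarith [q1 t])]; exact q2 t
  · exact inv_le_one_of_one_le₀ (q1 t)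
  · simp only [qa t ht, inv_one]
  · simp [hq, hμ, step_of_ge (by norm_num : (137 / 100 : ℝ) < 1372 / 1000) h2,
      step_of_le (by norm_num : (1388 / 1000 : ℝ) < 139 / 100) h3]
  · rw [contDiff_infty_iff_deriv]
    exact ⟨fun t => (Γd t).differentiableAt, Γd' ▸ Ds⟩
  · have : ∫ s in t..(1355 / 1000 : ℝ), D s = 0 := by
      rw [intervalIntegral.integral_congr (g := fun _ => 0)]
      · simp
      · intro s hs
        rw [uIcc_of_le ht] at hs
        exact D0 s hs.2
    have h2 := intervalIntegral.integral_add_adjacent_intervals (μ := volume) (a := 139 / 100)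
      (b := t) (c := 1355 / 1000) (Ds.continuous.intervalIntegrable _ _)
      (Ds.continuous.intervalIntegrable _ _)
    simp only [hΓ]
    rw [← h2, this, add_zero]
  · have : ∫ s in (139 / 100 : ℝ)..t, D s = Nf t - Nf (139 / 100) := by
      refine intervalIntegral.integral_eq_sub_of_hasDerivAt (fun s hs => ?_)
        (Ds.continuous.intervalIntegrable _ _)
      rw [uIcc_of_le ht] at hs
      have hs1 : 139 / 100 ≤ s := hs.1
      have e : D s = -(s ^ 2 - 1)⁻¹ := by
        simp [hD, qa s (Or.inr hs1),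
          step_of_ge (by norm_num : (1355 / 1000 : ℝ) < 1365 / 1000) (by linarith : 1365 / 1000 ≤ s)]
      rw [e]
      have d1 : HasDerivAt (fun t : ℝ => (t + 1) / (t - 1))
          ((1 * (s - 1) - (s + 1) * 1) / (s - 1) ^ 2) s :=
        ((hasDerivAt_id s).add_const 1).div ((hasDerivAt_id s).sub_const 1)
          (by show s - 1 ≠ 0; linarith)
      have p1 : 0 < s - 1 := by linarith
      have p2 : 0 < s + 1 := by linarith
      have p3 : s ^ 2 - 1 = (s - 1) * (s + 1) := by ring
      refine ((d1.log (div_pos p2 p1).ne').div_const 2).congr_deriv ?_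
      rw [p3]
      field_simp
      ring
    simp only [hΓ]
    rw [this]
    simp [hNf]
  · rw [Γd', hD]
    have := q1 t
    field_simp

/-- the carrier profile -/
lemma exists_carrier {a₀ : ℝ} (h0 : 0 < a₀) (h1 : a₀ ≤ 1) : ∃ (γ₀ : ℝ → ℝ) (P : E → ℝ),
    Continuous γ₀ ∧ (∀ t, a₀ ≤ γ₀ t ∧ γ₀ t ≤ 1) ∧
    (∀ t, t ≤ 137 / 100 ∨ 139 / 100 ≤ t → γ₀ t = 1) ∧
    (∀ t, 1372 / 1000 ≤ t → t ≤ 1388 / 1000 → γ₀ t = a₀) ∧ Test {x | rr x < 14 / 10} P ∧
    ∀ x, γ₀ (rr x) • ∇ P x = j0 x := by
  obtain ⟨γ₀, Γ, c1, c2, c3, c4, c5, c6, c7, c8⟩ := exists_profile h0 h1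
  have hs : ContDiff ℝ ∞ (fun x => Γ (rr x)) :=
    hG.comp_smooth Γ (1355 / 1000) (by norm_num) c5.contDiffOn c6
  refine ⟨γ₀, fun x => th x * Γ (rr x), c1, c2, c3, c4, hG.th_test.mul hs, fun x => ?_⟩
  rw [grad_mul ((th_smooth hG).differentiable (by simp) x) (hs.differentiable (by simp) x)]
  by_cases h : 1 < rr x
  · rw [(hG.grad_comp _ _ x h (c5.differentiable (by simp) _).hasDerivAt).gradient, smul_add,
      j0, hG.N_grad x h]
    congr 1
    · rw [smul_smul, smul_smul, smul_smul]
      congr 1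
      have := c8 (rr x)
      simp only [st]
      linear_combination th x * this
    · by_cases h2 : 139 / 100 ≤ rr x
      · rw [c3 _ (Or.inr h2), one_smul, c7 _ h2, NN]
      · rw [grad_th_zero hG (Or.inl (by linarith))]; simp
  · have h2 : ∀ᶠ y in 𝓝 x, rr y < 1355 / 1000 :=
      hG.cont.continuousAt.eventually_lt continuousAt_const (by linarith)
    rw [j0_zero hG (Or.inl (by linarith)), grad_th_zero hG (Or.inl (by linarith)),
      grad_eq_zero_of_eventually_const (c := Γ (1355 / 1000))]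
    · simp
    · filter_upwards [h2] with y hy
      exact c6 _ hy.le

end Seq

end

end Crest.Agent.R83
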