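import Crest.Agent.R83.Seq1

/-!
Row 83: fixed data of the recursion, part 2 (the dipole and the source field).
-/

set_option autoImplicit false

open MeasureTheory Set Filter Topology Metric
open scoped Gradient ContDiff RealInnerProductSpace ENNReal

namespace Crest.Agent.R83

noncomputable section

namespace Seq

lemma integral_push (i : Fin 2) (F k : E → E) :
    ∫ x, ⟪push i F x, k x⟫ = kap * ∫ x, ⟪F x, pull i k x⟫ := by
  have := pr_comp_SS i (fun _ => 0) (fun _ => 0) F k
  simp only [pr, zero_add, mul_zero, inner_smul_left, conj_trivial] at this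
  rw [this, integral_const_mul, ← mul_assoc, mul_inv_cancel₀ kap_pos.ne', one_mul]

lemma continuous_push (i : Fin 2) {F : E → E} (h : Continuous F) : Continuous (push i F) :=
  (sw.continuous.comp (h.comp (contDiff_TT i).continuous)).const_smul kap⁻¹

/-- source functional of the `i`-th child -/
def AA (i : Fin 2) (v : E → ℝ) (k : E → E) : ℝ := pr f1 V1 (fun x => v (SS i x)) (pull i k)

variable (hG : GeomFacts)
include hG

lemma child_le {i : Fin 2} {x : E} (h : rr (TT i x) ≤ 141 / 100) : rr x ≤ 134 / 100 := by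
  simpa using hG.child i _ h

lemma child_disj {x : E} (h0 : rr (TT 0 x) ≤ 141 / 100) (h1 : rr (TT 1 x) ≤ 141 / 100) : False := by
  have a := hG.child_sign 0 _ h0
  have b := hG.child_sign 1 _ h1
  simp only [SS_TT, sg_zero, sg_one] at a b
  linarith

lemma child_eq {i j : Fin 2} {x : E} (h0 : rr (TT i x) ≤ 141 / 100)
    (h1 : rr (TT j x) ≤ 141 / 100) : i = j := by
  fin_cases i <;> fin_cases j
  · rfl
  · exact (child_disj hG h0 h1).elim
  · exact (child_disj hG h1 h0).elim
  · rfl

lemma cont_rT (i : Fin 2) : Continuous (fun x => rr (TT i x)) :=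
  hG.cont.comp (contDiff_TT i).continuous

lemma isBounded_lt (β : ℝ) : Bornology.IsBounded {x | rr x < β} :=
  (hG.compact β).isBounded.subset fun x (hx : rr x < β) => (le_of_lt hx : rr x ≤ β)

lemma cut_test {a b c : ℝ} (ha : 1 < a) (hab : a < b) (hbc : b < c) :
    Test {x | rr x < c} (fun x => 1 - step a b (rr x)) :=
  Test.of_zero_off (contDiff_const.sub (step_rr_smooth hG ha hab)) (hG.compact b)
    (fun x hx => lt_of_le_of_lt hx hbc) fun x hx => by
      rw [step_of_ge hab (le_of_lt (by simpa using hx)), sub_self]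

lemma design_source {e J : E → E} (hJc : Continuous J)
    (h1 : ∀ i x, rr (TT i x) < 1405 / 1000 →
      e x = sg i • ∇ (fun y => (1 - th (TT i y)) * NN (TT i y)) x ∧ J x = e x)
    (h2 : ∀ η, Test {x | ∀ i, 14 / 10 < rr (TT i x)} η → ∫ x, ⟪J x, ∇ η x⟫ = 0)
    {η : E → ℝ} (hη : Test univ η) :
    ∫ x, ⟪J x, ∇ η x⟫ = kap * (AA 0 η (∇ η) - AA 1 η (∇ η)) := by
  set χ : Fin 2 → E → ℝ := fun i x => 1 - step (1401 / 1000) (1404 / 1000) (rr (TT i x)) with hχ
  have χt : ∀ i, Test {x | rr (TT i x) < 1405 / 1000} (χ i) := fun i =>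
    (cut_test hG (by norm_num) (by norm_num) (by norm_num)).comp_TT i
  have χ1 : ∀ i x, rr (TT i x) ≤ 1401 / 1000 → χ i x = 1 := fun i x hx => by
    simp [hχ, step_of_le (by norm_num : (1401 / 1000 : ℝ) < 1404 / 1000) hx]
  have χ0 : ∀ i x, 1404 / 1000 ≤ rr (TT i x) → χ i x = 0 := fun i x hx => by
    simp [hχ, step_of_ge (by norm_num : (1401 / 1000 : ℝ) < 1404 / 1000) hx]
  have t1 : ∀ i, Test {x | rr (TT i x) < 1405 / 1000} (fun x => χ i x * η x) := fun i =>
    (χt i).mul hη.smooth
  have t2 : Test {x | ∀ i, 14 / 10 < rr (TT i x)} (fun x => (1 - χ 0 x - χ 1 x) * η x) := by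
    refine hη.mul_of_zero_off (C := {x | ∀ i, 1401 / 1000 ≤ rr (TT i x)})
      ((contDiff_const.sub (χt 0).smooth).sub (χt 1).smooth) ?_ ?_ ?_
    · rw [ofPred_forall]
      exact isClosed_iInter fun i => isClosed_le continuous_const (cont_rT hG i)
    · intro x hx i
      have := hx.1 i
      linarith
    · intro x hx
      simp only [mem_ofPred_eq, not_forall, not_le] at hx
      obtain ⟨i, hi⟩ := hx
      fin_cases i
      · have : ¬ rr (TT 1 x) ≤ 141 / 100 := fun h => child_disj hG (by simp at hi; linarith) h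
        rw [χ1 0 x (by simpa using hi.le), χ0 1 x (by linarith)]; ring
      · have : ¬ rr (TT 0 x) ≤ 141 / 100 := fun h => child_disj hG h (by simp at hi; linarith)
        rw [χ1 1 x (by simpa using hi.le), χ0 0 x (by linarith)]; ring
  have k1 : ∀ i, ∫ x, ⟪J x, ∇ (fun x => χ i x * η x) x⟫ = sg i * (kap * AA i η (∇ η)) := by
    intro i
    have e1 : ∀ x, ⟪J x, ∇ (fun x => χ i x * η x) x⟫ =
        sg i * ⟪push i (∇ (fun y => (1 - th y) * NN y)) x, ∇ (fun x => χ i x * η x) x⟫ := by
      intro x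
      by_cases hx : rr (TT i x) < 1405 / 1000
      · rw [(h1 i x hx).2, (h1 i x hx).1, inner_smul_left,
          grad_comp_TT i (fun y => (1 - th y) * NN y)]
        simp
      · rw [(t1 i).grad_eq_zero hx]; simp
    simp only [e1]
    rw [integral_const_mul, integral_push]
    simp only [← grad_comp_SS]
    rw [outer_source hG ((t1 i).comp_SS i).univ]
    congr 2
    simp only [AA, pr, ← grad_comp_SS]
    congr 1
    ext x
    by_cases hx : rr x < 1393 / 1000 ∨ 1397 / 1000 < rr x
    · simp [hG.f1_V1_zero x hx]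
    · have h3 : ∀ᶠ y in 𝓝 x, rr y < 1401 / 1000 :=
        hG.cont.continuousAt.eventually_lt continuousAt_const (by
          simp only [not_or, not_lt] at hx; linarith [hx.2])
      have h4 : (fun y => χ i (SS i y) * η (SS i y)) =ᶠ[𝓝 x] fun y => η (SS i y) := by
        filter_upwards [h3] with y hy
        rw [χ1 i _ (by simpa using hy.le), one_mul]
      rw [h4.gradient_eq, h4.eq_of_nhds]
  have e2 : ∀ x, ⟪J x, ∇ η x⟫ = ⟪J x, ∇ (fun x => χ 0 x * η x) x⟫ +
      ⟪J x, ∇ (fun x => χ 1 x * η x) x⟫ + ⟪J x, ∇ (fun x => (1 - χ 0 x - χ 1 x) * η x) x⟫ := by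
    intro x
    rw [← inner_add_right, ← inner_add_right,
      ← grad_add ((t1 0).differentiable x) ((t1 1).differentiable x),
      ← grad_add (((t1 0).univ.add (t1 1).univ).differentiable x) (t2.differentiable x)]
    congr 2
    ext y
    ring
  have i1 : ∀ i, Integrable (fun x => ⟪J x, ∇ (fun x => χ i x * η x) x⟫) volume := fun i =>
    integrable_inner_grad (fun _ _ => hJc.continuousAt) (t1 i)
  rw [integral_congr_ae (Eventually.of_forall e2), integral_add ((i1 0).fun_add (i1 1))
    (integrable_inner_grad (fun _ _ => hJc.continuousAt) t2), integral_add (i1 0) (i1 1),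
    k1, k1, h2 _ t2]
  simp only [sg_zero, sg_one]
  ring

lemma memLp_f1T (i : Fin 2) : MemLp (fun x => (kap ^ 3)⁻¹ * f1 (TT i x)) 2 volume :=
  (memLp_comp_TT i (memLp_f1 hG)).const_mul _

lemma memLp_V1T (i : Fin 2) : MemLp (fun x => kap⁻¹ • push i V1 x) 2 volume :=
  (memLp_push i (memLp_V1 hG)).const_smul kap⁻¹

/-- extension of an identity with right-hand side a combination of the `AA i` -/
lemma AA_extend {f : E → ℝ} {F : E → E} (hf : MemLp f 2 volume) (hF : MemLp F 2 volume)
    (c₀ c₁ : ℝ) (h : ∀ η, Test univ η → pr f F η (∇ η) = c₀ * AA 0 η (∇ η) + c₁ * AA 1 η (∇ η))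
    {v : E → ℝ} {k : E → E} (H : IsH univ v k) : pr f F v k = c₀ * AA 0 v k + c₁ * AA 1 v k := by
  have m1 := ((memLp_f1T hG 0).const_mul c₀).add ((memLp_f1T hG 1).const_mul c₁)
  have m2 := ((memLp_V1T hG 0).const_smul c₀).add ((memLp_V1T hG 1).const_smul c₁)
  have e : ∀ (v : E → ℝ) (k : E → E), MemLp v 2 volume → MemLp k 2 volume →
      c₀ * AA 0 v k + c₁ * AA 1 v k =
      pr ((fun x => c₀ * ((kap ^ 3)⁻¹ * f1 (TT 0 x))) + fun x => c₁ * ((kap ^ 3)⁻¹ * f1 (TT 1 x)))
        ((c₀ • fun x => kap⁻¹ • push 0 V1 x) + c₁ • fun x => kap⁻¹ • push 1 V1 x) v k := by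
    intro v k hv hk
    simp only [AA, pr_comp_SS]
    simp only [pr]
    rw [← integral_const_mul, ← integral_const_mul, ← integral_add]
    · congr 1
      ext x
      simp only [Pi.add_apply, Pi.smul_apply, inner_add_left, inner_smul_left, conj_trivial]
      ring
    · exact ((integrable_mul' (memLp_f1T hG 0) hv).add
        (integrable_inner' (memLp_V1T hG 0) hk)).const_mul _
    · exact ((integrable_mul' (memLp_f1T hG 1) hv).add
        (integrable_inner' (memLp_V1T hG 1) hk)).const_mul _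
  rw [e v k H.memu H.memg]
  refine H.pr_eq_pr hf hF m1 m2 fun η hη => ?_
  rw [h η hη, e η _ hη.memLp hη.memLp_grad]

lemma exists_dipole (hD : DesignStmt) (hC : CIStmt) : ∃ (a b M : ℝ) (γs W : E → ℝ) (G Jt : E → E),
    0 < a ∧ a ≤ 1 ∧ 1 ≤ b ∧ Measurable γs ∧ (∀ x, a ≤ γs x ∧ γs x ≤ b) ∧
    IsH {x | rr x < 135 / 100} W G ∧ (∀ x, |W x| ≤ M) ∧ MemLp Jt 2 volume ∧
    (∀ γ' : E → ℝ, (∀ x, rr x < 135 / 100 → (∀ i, 14 / 10 < rr (TT i x)) → γ' x = γs x) →
      (∀ i x, 139 / 100 ≤ rr (TT i x) → rr (TT i x) ≤ 14 / 10 → γ' x = 1) →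
      ∀ᵐ x, γ' x • G x = Jt x) ∧
    ∀ v k, IsH univ v k → ∫ x, ⟪Jt x, k x⟫ = kap * (AA 0 v k - AA 1 v k) := by
  obtain ⟨Λ, M, W, e, J, d0, d1, d2, d3, d4, d5, d6, d7, d8⟩ := hD
  obtain ⟨a, b, C, c1, c2, c3, -, hC⟩ := hC Λ d0
  have hce : HasCompactSupport e := HasCompactSupport.intro (hG.compact (135 / 100))
    fun x hx => (d5 x (le_of_lt (by simpa using hx))).1
  have hcJ : HasCompactSupport J := HasCompactSupport.intro (hG.compact (135 / 100))
    fun x hx => (d5 x (le_of_lt (by simpa using hx))).2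
  obtain ⟨B1, b1⟩ := d3.bounded_above_of_compact_support hce
  obtain ⟨B2, b2⟩ := d4.bounded_above_of_compact_support hcJ
  set Ω : Set E := {x | rr x < 135 / 100 ∧ ∀ i, 14 / 10 < rr (TT i x)} with hΩ
  have Ωo : IsOpen Ω := by
    have : Ω = {x | rr x < 135 / 100} ∩ ⋂ i, {x | 14 / 10 < rr (TT i x)} := by
      ext x; simp [hΩ]
    rw [this]
    exact (isOpen_lt hG.cont continuous_const).inter
      (isOpen_iInter_of_finite fun i => isOpen_lt continuous_const (cont_rT hG i))
  obtain ⟨γ, φ, g, k, e1, e2, e3, e4, e5, e6, e7, e8, -⟩ := hC Ω e J (max B1 B2) 1 Ωo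
    ((isBounded_lt hG (135 / 100)).subset fun x hx => hx.1) d3.continuousOn d4.continuousOn
    (fun x _ => ⟨le_max_of_le_left (b1 x), le_max_of_le_right (b2 x)⟩) (fun x _ => d7 x) one_pos
  have mJ : MemLp J 2 volume := d4.memLp_of_hasCompactSupport hcJ
  refine ⟨a, b, M + 1, γ, fun x => W x + φ x, fun x => e x + g x, fun x => J x + k x, c1, c2, c3,
    e1, e2, d1.add (e3.mono fun x hx => hx.1), fun x => ?_, mJ.add e5, fun γ' g1 g2 => ?_,
    fun v k' H => ?_⟩
  · exact (abs_add_le _ _).trans (add_le_add (d2 x) (e4 x))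
  · filter_upwards [e8] with x hx
    by_cases hΩx : x ∈ Ω
    · rw [g1 x hΩx.1 hΩx.2, hx hΩx]
    · rw [(e6 x hΩx).2.1, (e6 x hΩx).2.2, add_zero, add_zero]
      by_cases h1 : rr x < 135 / 100
      · have : ∃ i, rr (TT i x) ≤ 14 / 10 := by
          by_contra hcon
          push Not at hcon
          exact hΩx ⟨h1, hcon⟩
        obtain ⟨i, hi⟩ := this
        rw [(d6 i x (by linarith)).2]
        by_cases h2 : 139 / 100 ≤ rr (TT i x)
        · rw [g2 i x h2 hi, one_smul]
        · rw [(d6 i x (by linarith)).1, grad_eq_zero_of_eventually_const (c := 0)]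
          · simp
          · have h3 : ∀ᶠ y in 𝓝 x, rr (TT i y) < 1393 / 1000 :=
              (cont_rT hG i).continuousAt.eventually_lt continuousAt_const (by linarith)
            filter_upwards [h3] with y hy
            rw [th_of_le hy.le]; simp
      · rw [(d5 x (by linarith)).1, (d5 x (by linarith)).2, smul_zero]
  · have := AA_extend hG (f := fun _ => 0) (F := fun x => J x + k x) MemLp.zero' (mJ.add e5)
      kap (-kap) (fun η hη => by
        simp only [pr, zero_mul, zero_add, inner_add_left]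
        rw [integral_add (integrable_inner' mJ hη.memLp_grad) (integrable_inner' e5 hη.memLp_grad),
          e7 η hη, design_source hG d4 d6 d8 hη]
        ring) H
    simp only [pr, zero_mul, zero_add] at this
    rw [this]; ring

/-- density part of the source of the correction -/
def fG (x : E) : ℝ :=
  (1 / 2) * ((kap ^ 3)⁻¹ * f1 (TT 0 x)) + (1 / 2) * ((kap ^ 3)⁻¹ * f1 (TT 1 x)) - f2 x

/-- divergence part of the source of the correction -/
def VG' (x : E) : E := (1 / 2 : ℝ) • kap⁻¹ • push 0 V1 x + (1 / 2 : ℝ) • kap⁻¹ • push 1 V1 x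

/-- support of the source -/
def Ks : Set E := {x | (1355 / 1000 ≤ rr x ∧ rr x ≤ 1365 / 1000) ∨
  ∃ i, 1393 / 1000 ≤ rr (TT i x) ∧ rr (TT i x) ≤ 1397 / 1000}

lemma Ks_compact : IsCompact Ks := by
  refine (hG.compact (14 / 10)).of_isClosed_subset ?_ ?_
  · have : Ks = ({x | 1355 / 1000 ≤ rr x} ∩ {x | rr x ≤ 1365 / 1000}) ∪
        ⋃ i, ({x | 1393 / 1000 ≤ rr (TT i x)} ∩ {x | rr (TT i x) ≤ 1397 / 1000}) := by
      ext x; simp [Ks]
    rw [this]
    exact ((isClosed_le continuous_const hG.cont).inter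
      (isClosed_le hG.cont continuous_const)).union (isClosed_iUnion_of_finite fun i =>
        (isClosed_le continuous_const (cont_rT hG i)).inter
          (isClosed_le (cont_rT hG i) continuous_const))
  · rintro x (hx | ⟨i, hi⟩)
    · show rr x ≤ 14 / 10
      linarith [hx.2]
    · show rr x ≤ 14 / 10
      linarith [child_le hG (i := i) (x := x) (by linarith [hi.2])]

lemma source_zero {x : E} (hx : x ∉ Ks) : fG x = 0 ∧ VG' x = 0 := by
  simp only [Ks, mem_ofPred_eq, not_or, not_exists, not_and_or, not_le] at hx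
  have h1 := hG.f1_V1_zero _ (hx.2 0)
  have h2 := hG.f1_V1_zero _ (hx.2 1)
  have h3 : f2 x = 0 := f2_zero hG (hx.1.imp le_of_lt le_of_lt)
  simp [fG, VG', push, h1, h2, h3]

lemma fG_cont : Continuous fG :=
  ((continuous_const.mul (continuous_const.mul (hG.f1_cont.comp (contDiff_TT 0).continuous))).add
    (continuous_const.mul (continuous_const.mul
      (hG.f1_cont.comp (contDiff_TT 1).continuous)))).sub (f2_cont hG)

lemma VG'_cont : Continuous VG' :=
  (((continuous_push 0 hG.V1_cont).fun_const_smul _).fun_const_smul _).fun_add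
    (((continuous_push 1 hG.V1_cont).fun_const_smul _).fun_const_smul _)

lemma memLp_fG : MemLp fG 2 volume :=
  memLp_of_zero_off (fG_cont hG) (Ks_compact hG) fun _ hx => (source_zero hG hx).1

lemma memLp_VG' : MemLp VG' 2 volume :=
  memLp_of_zero_off (VG'_cont hG) (Ks_compact hG) fun _ hx => (source_zero hG hx).2

lemma pr_source {v : E → ℝ} {k : E → E} (hv : MemLp v 2 volume) (hk : MemLp k 2 volume) :
    pr fG VG' v k = (AA 0 v k + AA 1 v k) / 2 - ∫ x, f2 x * v x := by
  simp only [AA, pr_comp_SS]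
  simp only [pr]
  have i0 := (integrable_mul' (memLp_f1T hG 0) hv).fun_add (integrable_inner' (memLp_V1T hG 0) hk)
  have i1 := (integrable_mul' (memLp_f1T hG 1) hv).fun_add (integrable_inner' (memLp_V1T hG 1) hk)
  rw [← integral_add i0 i1, ← integral_div, ← integral_sub ((i0.fun_add i1).div_const 2)
    (integrable_mul' (memLp_f2 hG) hv)]
  congr 1
  ext x
  simp only [fG, VG', inner_add_left, inner_smul_left, conj_trivial]
  ring

lemma integral_fG : ∫ x, fG x = 0 := by
  have i : ∀ i, Integrable (fun x => f1 (TT i x)) volume := fun i =>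
    (hG.f1_cont.comp (contDiff_TT i).continuous).integrable_of_hasCompactSupport
      (HasCompactSupport.intro (hG.compact (14 / 10)) fun x hx => by
        refine (hG.f1_V1_zero _ (Or.inr ?_)).1
        by_contra h
        have := child_le hG (i := i) (x := x) (by linarith)
        exact hx (by show rr x ≤ 14 / 10; linarith))
  simp only [fG]
  rw [integral_sub ((((i 0).const_mul _).const_mul _).fun_add (((i 1).const_mul _).const_mul _))
    (integrable_f2 hG), integral_add (((i 0).const_mul _).const_mul _)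
      (((i 1).const_mul _).const_mul _)]
  simp only [integral_const_mul, integral_comp_TT _ f1, smul_eq_mul, integral_f2 hG]
  have := kap_pos
  field_simp
  ring

lemma exists_source (hB : BogStmt) : ∃ VG : E → E, MemLp VG 2 volume ∧
    (∀ x, VG x ≠ 0 → rr x < 137 / 100 ∧ ∀ i, 139 / 100 < rr (TT i x)) ∧
    ∀ v k, IsH univ v k → ∫ x, ⟪VG x, k x⟫ = pr fG VG' v k := by
  obtain ⟨U, u1, u2, u3, u4, u5⟩ := hG.conn
  have hKU : Ks ⊆ U := by
    rintro x (hx | ⟨i, hi⟩)
    · exact u4 x hx.1 hx.2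
    · exact u5 i x hi.1 hi.2
  obtain ⟨C, K', -, k1, k2, hB⟩ := hB U Ks u1 u2 (Ks_compact hG) hKU
  obtain ⟨B, hB1⟩ := (fG_cont hG).bounded_above_of_compact_support
    (HasCompactSupport.intro (Ks_compact hG) fun _ hx => (source_zero hG hx).1)
  obtain ⟨V, v1, v2, -, v4⟩ := hB fG B (fG_cont hG) (fun _ hx => (source_zero hG hx).1) hB1
    (integral_fG hG)
  have mV : MemLp V 2 volume := memLp_of_zero_off v1 k1 v2
  refine ⟨fun x => VG' x - V x, (memLp_VG' hG).sub mV, fun x hx => u3 x ?_, fun v k H => ?_⟩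
  · by_contra h
    exact hx (by simp [(source_zero hG fun h' => h (hKU h')).2, v2 x fun h' => h (k2 h')])
  · have := H.pr_eq_pr (f := fun _ => 0) (F := fun x => VG' x - V x) MemLp.zero'
      ((memLp_VG' hG).sub mV) (memLp_fG hG) (memLp_VG' hG) fun η hη => by
        rw [pr_eq (memLp_fG hG) (memLp_VG' hG) hη.memLp hη.memLp_grad]
        simp only [pr, zero_mul, zero_add, inner_sub_left]
        rw [integral_sub (integrable_inner' (memLp_VG' hG) hη.memLp_grad)
          (integrable_inner' mV hη.memLp_grad), v4 η hη.smooth]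
        ring
    simpa [pr] using this

end Seq

end

end Crest.Agent.R83
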