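import Crest.Agent.R83.Seq2

/-!
Row 83: the virtual Dirichlet problem of one step (energy bound and sup bound).
-/

set_option autoImplicit false

open MeasureTheory Set Filter Topology Metric
open scoped Gradient ContDiff RealInnerProductSpace ENNReal

namespace Crest.Agent.R83

noncomputable section

namespace Seq

lemma integrable_mul_inner {γ : E → ℝ} {g h : E → E} {a b : ℝ} (hγ : Measurable γ) (ha : 0 < a)
    (hb : ∀ x, a ≤ γ x ∧ γ x ≤ b) (hg : MemLp g 2 volume) (hh : MemLp h 2 volume) :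
    Integrable (fun x => γ x * ⟪g x, h x⟫) volume := by
  have := integrable_inner' (memLp_smul_of_bdd (B := b) hγ.aestronglyMeasurable
    (Eventually.of_forall fun x => by rw [abs_of_pos (by linarith [(hb x).1])]; exact (hb x).2) hg) hh
  simpa [inner_smul_left] using this

lemma memLp_cond_smul {γ : E → ℝ} {g : E → E} {a b : ℝ} (hγ : Measurable γ) (ha : 0 < a)
    (hb : ∀ x, a ≤ γ x ∧ γ x ≤ b) (hg : MemLp g 2 volume) :
    MemLp (fun x => γ x • g x) 2 volume :=
  memLp_smul_of_bdd (B := b) hγ.aestronglyMeasurable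
    (Eventually.of_forall fun x => by rw [abs_of_pos (by linarith [(hb x).1])]; exact (hb x).2) hg

lemma virtual_energy {γ : E → ℝ} {g V : E → E} {a a' b : ℝ} (hγ : Measurable γ) (ha : 0 < a)
    (ha' : 0 < a') (hb : ∀ x, a ≤ γ x ∧ γ x ≤ b) (hV : MemLp V 2 volume) (hg : MemLp g 2 volume)
    (h1 : ∀ x, V x ≠ 0 → a' ≤ γ x) (h2 : ∫ x, γ x * ⟪g x, g x⟫ = ∫ x, ⟪V x, g x⟫) :
    a * ∫ x, ‖g x‖ ^ 2 ≤ (∫ x, ‖V x‖ ^ 2) / a' := by
  have i1 := integrable_mul_inner hγ ha hb hg hg
  have k1 : ∫ x, ⟪V x, g x⟫ ≤ ∫ x, (‖V x‖ ^ 2 / a' / 2 + γ x * ⟪g x, g x⟫ / 2) := by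
    refine integral_mono (integrable_inner' hV hg)
      ((((integrable_norm_sq hV).div_const _).div_const _).add (i1.div_const _)) fun x => ?_
    simp only [real_inner_self_eq_norm_sq]
    by_cases hx : V x = 0
    · have := (hb x).1
      simp only [hx, inner_zero_left, norm_zero]
      have : 0 < γ x := by linarith
      positivity
    · have h3 := h1 x hx
      have h4 := real_inner_le_norm (V x) (g x)
      have h5 : ‖V x‖ * ‖g x‖ ≤ ‖V x‖ ^ 2 / a' / 2 + a' * ‖g x‖ ^ 2 / 2 := by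
        have : ‖V x‖ ^ 2 / a' / 2 + a' * ‖g x‖ ^ 2 / 2 - ‖V x‖ * ‖g x‖ =
            (‖V x‖ - a' * ‖g x‖) ^ 2 / a' / 2 := by field_simp; ring
        have h6 : 0 ≤ (‖V x‖ - a' * ‖g x‖) ^ 2 / a' / 2 := by positivity
        linarith
      nlinarith [sq_nonneg ‖g x‖]
  rw [integral_add (((integrable_norm_sq hV).div_const _).div_const _) (i1.div_const _),
    integral_div, integral_div, integral_div] at k1
  have k2 : a * ∫ x, ‖g x‖ ^ 2 ≤ ∫ x, γ x * ⟪g x, g x⟫ := by
    rw [← integral_const_mul]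
    refine integral_mono ((integrable_norm_sq hg).const_mul _) i1 fun x => ?_
    simp only [real_inner_self_eq_norm_sq]
    exact mul_le_mul_of_nonneg_right (hb x).1 (by positivity)
  linarith

/-- the region around the sources where the conductivity is `1` -/
def Oset : Set E := {x | (135 / 100 < rr x ∧ rr x < 137 / 100) ∨
  ∃ i, 139 / 100 < rr (TT i x) ∧ rr (TT i x) < 14 / 10}

variable (hG : GeomFacts)
include hG

lemma Oset_open : IsOpen Oset := by
  have : Oset = ({x | 135 / 100 < rr x} ∩ {x | rr x < 137 / 100}) ∪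
      ⋃ i, ({x | 139 / 100 < rr (TT i x)} ∩ {x | rr (TT i x) < 14 / 10}) := by
    ext x; simp [Oset]
  rw [this]
  exact ((isOpen_lt continuous_const hG.cont).inter (isOpen_lt hG.cont continuous_const)).union
    (isOpen_iUnion fun i => (isOpen_lt continuous_const (cont_rT hG i)).inter
      (isOpen_lt (cont_rT hG i) continuous_const))

omit hG in
lemma Ks_subset : Ks ⊆ Oset := by
  rintro x (hx | ⟨i, hi⟩)
  · exact Or.inl ⟨by linarith [hx.1], by linarith [hx.2]⟩
  · exact Or.inr ⟨i, by linarith [hi.1], by linarith [hi.2]⟩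

lemma Oset_lt {x : E} (hx : x ∈ Oset) : rr x < 137 / 100 := by
  rcases hx with hx | ⟨i, hi⟩
  · exact hx.2
  · linarith [child_le hG (i := i) (x := x) (by linarith [hi.2])]

lemma Oset_SS {i : Fin 2} {y : E} (hy : SS i y ∈ Oset) : 139 / 100 < rr y := by
  by_contra h
  have h1 : rr (TT i (SS i y)) ≤ 141 / 100 := by rw [TT_SS]; linarith
  rcases hy with hx | ⟨j, hj⟩
  · linarith [child_le hG h1, hx.1]
  · have := child_eq hG h1 (show rr (TT j (SS i y)) ≤ 141 / 100 by linarith [hj.2])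
    subst this
    rw [TT_SS] at hj
    exact h hj.1

lemma virtual_sup (hW : WeylStmt) (hM : MaxStmt) {γ₀ : ℝ → ℝ} {P : E → ℝ} {VG : E → E}
    (p1 : ∀ t, t ≤ 137 / 100 ∨ 139 / 100 ≤ t → γ₀ t = 1) (p2 : Test {x | rr x < 14 / 10} P)
    (p3 : ∀ x, γ₀ (rr x) • ∇ P x = j0 x)
    (v1 : ∀ v k, IsH univ v k → ∫ x, ⟪VG x, k x⟫ = pr fG VG' v k) (X : ℝ) :
    ∃ M : ℝ, ∀ (γ δ : E → ℝ) (g : E → E) (a b : ℝ), Measurable γ → 0 < a →
      (∀ x, a ≤ γ x ∧ γ x ≤ b) → (∀ x ∈ Oset, γ x = 1) → IsH {x | rr x < 14 / 10} δ g →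
      (∀ η h, IsH {x | rr x < 14 / 10} η h → ∫ x, γ x * ⟪g x, h x⟫ = ∫ x, ⟪VG x, h x⟫) →
      ∫ x, δ x ^ 2 ≤ X → ∀ᵐ x, |δ x| ≤ M := by
  obtain ⟨t, ht, htO⟩ := (Ks_compact hG).exists_cthickening_subset_open (Oset_open hG) Ks_subset
  obtain ⟨C, hC0, hW⟩ := hW t ht
  set Ψ : E → ℝ := fun x => P x + (2 * kap)⁻¹ * (P (TT 0 x) + P (TT 1 x)) with hΨ
  have Ψt : Test univ Ψ := p2.univ.add (((p2.comp_TT 0).univ.add (p2.comp_TT 1).univ).const_mul _)
  have Ψg : ∀ x, ∇ Ψ x = ∇ P x + (2 * kap)⁻¹ • (push 0 (∇ P) x + push 1 (∇ P) x) := by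
    intro x
    rw [hΨ, grad_add (p2.differentiable x)
      ((((p2.comp_TT 0).univ.add (p2.comp_TT 1).univ).const_mul _).differentiable x),
      grad_const_mul, grad_add ((p2.comp_TT 0).differentiable x) ((p2.comp_TT 1).differentiable x),
      grad_comp_TT, grad_comp_TT]
  obtain ⟨B, hB0, hB⟩ := Ψt.exists_bound
  set Y := √(2 * X + 2 * ∫ x, Ψ x ^ 2) with hY
  refine ⟨C * Y + B, fun γ δ g a b hγ ha hb hO H heq hX => ?_⟩
  have H2 := H.univ.add Ψt.isH
  have harm : ∀ η, Test Oset η → ∫ x, ⟪g x + ∇ Ψ x, ∇ η x⟫ = 0 := by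
    intro η hη
    have hηQ : Test {x | rr x < 14 / 10} η := hη.mono fun x hx => by
      show rr x < 14 / 10
      linarith [Oset_lt hG hx]
    have k1 : ∫ x, ⟪g x, ∇ η x⟫ = (AA 0 η (∇ η) + AA 1 η (∇ η)) / 2 - ∫ x, f2 x * η x := by
      rw [← pr_source hG hη.memLp hη.memLp_grad, ← v1 _ _ hη.univ.isH, ← heq _ _ hηQ.isH]
      congr 1
      ext x
      by_cases hx : x ∈ Oset
      · rw [hO x hx, one_mul]
      · simp [hη.grad_eq_zero hx]
    have k2 : ∫ x, ⟪∇ P x, ∇ η x⟫ = ∫ x, f2 x * η x := by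
      have e1 : pr f1 V1 η (∇ η) = 0 := by
        refine integral_eq_zero_of_ae (Eventually.of_forall fun x => ?_)
        by_cases hx : x ∈ Oset
        · simp [hG.f1_V1_zero x (Or.inl (by linarith [Oset_lt hG hx]))]
        · simp [hη.grad_eq_zero hx, hη.eq_zero hx]
      have := j0_source hG hη.univ.isH
      rw [e1, sub_zero] at this
      rw [← this]
      congr 1
      ext x
      by_cases hx : x ∈ Oset
      · rw [← p3, p1 _ (Or.inl (Oset_lt hG hx).le), one_smul]
      · simp [hη.grad_eq_zero hx]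
    have k3 : ∀ i, ∫ x, ⟪push i (∇ P) x, ∇ η x⟫ = -(kap * AA i η (∇ η)) := by
      intro i
      have := j0_source hG (hη.univ.isH.comp_SS i).univ
      have e1 : ∫ x, f2 x * η (SS i x) = 0 := by
        refine integral_eq_zero_of_ae (Eventually.of_forall fun x => ?_)
        by_cases hx : SS i x ∈ Oset
        · simp [f2_zero hG (Or.inr (by linarith [Oset_SS hG hx] : 1365 / 1000 ≤ rr x))]
        · simp [hη.eq_zero hx]
      rw [e1, zero_sub] at this
      rw [integral_push, AA, ← mul_neg, ← this]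
      congr 2
      ext x
      by_cases hx : SS i x ∈ Oset
      · rw [← p3, p1 _ (Or.inr (Oset_SS hG hx).le), one_smul]
      · simp [pull, hη.grad_eq_zero hx]
    have i0 := fun i => integrable_inner' (memLp_push i p2.memLp_grad) hη.memLp_grad
    simp only [Ψg, inner_add_left, inner_smul_left, conj_trivial]
    rw [integral_add (integrable_inner' H.memg hη.memLp_grad)
      ((integrable_inner' p2.memLp_grad hη.memLp_grad).fun_add
        (((i0 0).fun_add (i0 1)).const_mul _)),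
      integral_add (integrable_inner' p2.memLp_grad hη.memLp_grad)
        (((i0 0).fun_add (i0 1)).const_mul _), integral_const_mul, integral_add (i0 0) (i0 1),
      k1, k2, k3, k3]
    have := kap_pos
    field_simp
    ring
  have hL2 : ∫ x, (δ x + Ψ x) ^ 2 ≤ Y ^ 2 := by
    have h1 := integral_norm_add_sq_le H.memu Ψt.memLp
    simp only [Real.norm_eq_abs, sq_abs] at h1
    have h2 : 0 ≤ ∫ x, δ x ^ 2 := integral_nonneg fun _ => by positivity
    have h3 : 0 ≤ ∫ x, Ψ x ^ 2 := integral_nonneg fun _ => by positivity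
    rw [hY, Real.sq_sqrt (by linarith)]
    linarith
  obtain ⟨v, -, w1, -, w2⟩ := hW Oset _ _ Y (Oset_open hG) H2 harm (Real.sqrt_nonneg _) hL2
  have hCY : 0 ≤ C * Y := mul_nonneg hC0 (Real.sqrt_nonneg _)
  have := hM {x | rr x < 14 / 10} γ (fun _ => 0) δ fG a b (C * Y + B) g VG'
    (isOpen_lt hG.cont continuous_const) (isBounded_lt hG _) hγ ha hb contDiff_const
    (HasCompactSupport.intro isCompact_empty fun _ _ => rfl) (fun _ => by simp; linarith) H
    (fun η h Hη => by
      simp only [gradient_fun_const, zero_add]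
      rw [heq η h Hη, v1 _ _ Hη.univ]) ?_
  · simpa using this
  · filter_upwards [w2] with x hx hne
    have hxK : x ∈ Ks := by
      by_contra h
      rcases hne with h1 | h1
      · exact h1 (source_zero hG h).1
      · exact h1 (source_zero hG h).2
    have h1 := (hx ((closedBall_subset_cthickening hxK t).trans htO)).1
    have h2 : δ x = v x - Ψ x := by rw [h1]; ring
    rw [zero_add, h2]
    exact (abs_sub _ _).trans (add_le_add (w1 x).1 (hB x).1)

end Seq

end

end Crest.Agent.R83
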