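import Crest.Agent.R83.Seq3

/-!
Row 83: auxiliary facts for one step of the recursion.
-/

set_option autoImplicit false

open MeasureTheory Set Filter Topology Metric
open scoped Gradient ContDiff RealInnerProductSpace ENNReal

namespace Crest.Agent.R83

noncomputable section

namespace Seq

variable (hG : GeomFacts)
include hG

lemma children_isH {P : E → ℝ} {G : E → E} (H : IsH {x | rr x < 14 / 10} P G) (s t : ℝ) :
    IsH {x | rr x < 135 / 100} (fun x => s * P (TT 0 x) + t * P (TT 1 x))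
      (fun x => s • push 0 G x + t • push 1 G x) := by
  have k : ∀ i, IsH {x | rr x < 135 / 100} (fun x => P (TT i x)) (push i G) := fun i =>
    (H.comp_TT i).mono fun x hx => by
      have h1 : rr (TT i x) < 14 / 10 := hx
      show rr x < 135 / 100
      linarith [child_le hG (i := i) (x := x) (by linarith)]
  exact ((k 0).const_mul s).add ((k 1).const_mul t)

lemma children_ae {P : E → ℝ} {G : E → E} (H : IsH {x | rr x < 14 / 10} P G) :
    ∀ᵐ x, (P (TT 0 x) = 0 ∧ G (TT 0 x) = 0) ∨ (P (TT 1 x) = 0 ∧ G (TT 1 x) = 0) := by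
  filter_upwards [ae_comp_TT 0 H.ae_zero, ae_comp_TT 1 H.ae_zero] with x h0 h1
  by_cases h : rr (TT 0 x) < 14 / 10
  · refine Or.inr (h1 fun h' => ?_)
    have h2 : rr (TT 1 x) < 14 / 10 := h'
    exact child_disj hG (x := x) (by linarith) (by linarith)
  · exact Or.inl (h0 h)

lemma children_bound {P : E → ℝ} {G : E → E} (H : IsH {x | rr x < 14 / 10} P G) {M : ℝ}
    (hM : ∀ᵐ x, |P x| ≤ M) {s t c : ℝ} (hs : |s| ≤ c) (ht : |t| ≤ c) :
    ∀ᵐ x, |s * P (TT 0 x) + t * P (TT 1 x)| ≤ c * M := by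
  filter_upwards [children_ae hG H, ae_comp_TT 0 hM, ae_comp_TT 1 hM] with x h h0 h1
  rcases h with h | h
  · rw [h.1, mul_zero, zero_add, abs_mul]
    exact mul_le_mul ht h1 (abs_nonneg _) ((abs_nonneg _).trans hs)
  · rw [h.1, mul_zero, add_zero, abs_mul]
    exact mul_le_mul hs h0 (abs_nonneg _) ((abs_nonneg _).trans hs)

lemma children_energy {P : E → ℝ} {G : E → E} (H : IsH {x | rr x < 14 / 10} P G) (s t : ℝ) :
    ∫ x, ‖s • push 0 G x + t • push 1 G x‖ ^ 2 = kap * (s ^ 2 + t ^ 2) * ∫ x, ‖G x‖ ^ 2 := by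
  have e : ∀ᵐ x, ‖s • push 0 G x + t • push 1 G x‖ ^ 2 =
      (s * kap⁻¹) ^ 2 * ‖G (TT 0 x)‖ ^ 2 + (t * kap⁻¹) ^ 2 * ‖G (TT 1 x)‖ ^ 2 := by
    filter_upwards [children_ae hG H] with x h
    rcases h with h | h
    · have : push 0 G x = 0 := by simp [push, h.2]
      rw [this, h.2, smul_zero, zero_add, norm_smul, norm_push]
      simp [mul_assoc, mul_pow]
    · have : push 1 G x = 0 := by simp [push, h.2]
      rw [this, h.2, smul_zero, add_zero, norm_smul, norm_push]
      simp [mul_assoc, mul_pow]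
  have i := fun i => integrable_norm_sq (memLp_comp_TT i H.memg)
  rw [integral_congr_ae e, integral_add ((i 0).const_mul _) ((i 1).const_mul _),
    integral_const_mul, integral_const_mul, integral_comp_TT 0 (fun x => ‖G x‖ ^ 2),
    integral_comp_TT 1 (fun x => ‖G x‖ ^ 2)]
  have := kap_pos
  simp only [smul_eq_mul]
  field_simp

omit hG in
lemma children_cond {P γ γ' : E → ℝ} {G : E → E} (H : IsH {x | rr x < 14 / 10} P G)
    (h : ∀ i x, rr x ≤ 14 / 10 → γ' (SS i x) = γ x) (i : Fin 2) :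
    ∀ᵐ x, γ' x • push i G x = push i (fun y => γ y • G y) x := by
  filter_upwards [ae_comp_TT i H.ae_zero] with x h0
  by_cases hx : rr (TT i x) < 14 / 10
  · have := h i _ hx.le
    rw [SS_TT] at this
    rw [this]
    simp only [push, map_smul]
    rw [smul_comm]
  · simp [push, (h0 hx).2]

lemma Lam_eq {γ v : E → ℝ} {G k : E → E} (h : MemLp (fun x => γ x • G x) 2 volume)
    (hv : MemLp v 2 volume) (hk : MemLp k 2 volume) :
    Lam γ G v k = pr f1 V1 v k + ∫ x, ⟪γ x • G x, k x⟫ := by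
  simp only [Lam, pr, inner_add_left]
  rw [← integral_add ((integrable_mul' (memLp_f1 hG) hv).fun_add
    (integrable_inner' (memLp_V1 hG) hk)) (integrable_inner' h hk)]
  simp only [add_assoc]

lemma Lam_child {γ v : E → ℝ} {G k : E → E} (h : MemLp (fun x => γ x • G x) 2 volume)
    (hv : MemLp v 2 volume) (hk : MemLp k 2 volume) (i : Fin 2) :
    kap * Lam γ G (fun x => v (SS i x)) (pull i k) =
      kap * AA i v k + ∫ x, ⟪push i (fun y => γ y • G y) x, k x⟫ := by
  rw [Lam_eq hG h (memLp_comp_SS i hv) (memLp_pull i hk), integral_push, AA, mul_add]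

open Classical in
/-- the conductivity of the virtual problem -/
def gv (γs : E → ℝ) (γ₀ : ℝ → ℝ) (γ : E → ℝ) (x : E) : ℝ :=
  if rr (TT 0 x) ≤ 14 / 10 then γ (TT 0 x) else if rr (TT 1 x) ≤ 14 / 10 then γ (TT 1 x) else
    if rr x < 135 / 100 then γs x else γ₀ (rr x)

variable {γs γ : E → ℝ} {γ₀ : ℝ → ℝ}

lemma gv_meas (h1 : Measurable γs) (h2 : Continuous γ₀) (h3 : Measurable γ) :
    Measurable (gv γs γ₀ γ) := by
  unfold gv
  refine Measurable.ite (measurableSet_le (cont_rT hG 0).measurable measurable_const)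
    (h3.comp (contDiff_TT 0).continuous.measurable) ?_
  refine Measurable.ite (measurableSet_le (cont_rT hG 1).measurable measurable_const)
    (h3.comp (contDiff_TT 1).continuous.measurable) ?_
  exact Measurable.ite (measurableSet_lt hG.cont.measurable measurable_const) h1
    (h2.comp hG.cont).measurable

lemma gv_child {i : Fin 2} {x : E} (h : rr (TT i x) ≤ 14 / 10) : gv γs γ₀ γ x = γ (TT i x) := by
  fin_cases i
  · simp only [Fin.zero_eta] at h ⊢
    simp only [gv, if_pos h]
  · simp only [Fin.mk_one] at h ⊢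
    have : ¬ rr (TT 0 x) ≤ 14 / 10 := fun h' => child_disj hG (x := x) (by linarith) (by linarith)
    simp only [gv, if_neg this, if_pos h]

omit hG in
lemma gv_out {x : E} (h : ∀ i, 14 / 10 < rr (TT i x)) :
    gv γs γ₀ γ x = if rr x < 135 / 100 then γs x else γ₀ (rr x) := by
  simp only [gv, if_neg (not_le.2 (h 0)), if_neg (not_le.2 (h 1))]

lemma gv_far {x : E} (h : 135 / 100 ≤ rr x) : gv γs γ₀ γ x = γ₀ (rr x) := by
  rw [gv_out, if_neg (not_lt.2 h)]
  intro i
  by_contra h'
  linarith [child_le hG (i := i) (x := x) (by linarith)]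

omit hG in
lemma gv_cases (x : E) : (∃ i, rr (TT i x) ≤ 14 / 10) ∨ ∀ i, 14 / 10 < rr (TT i x) := by
  by_contra h
  push Not at h
  obtain ⟨i, hi⟩ := h.2
  linarith [h.1 i]

/-- the current of the correction after killing -/
lemma cut_current {γv : E → ℝ} {g j VG : E → E} {a₀ : ℝ}
    (m1 : MemLp (fun x => γv x • g x) 2 volume) (m2 : MemLp j 2 volume) (m3 : MemLp VG 2 volume)
    (h1 : ∀ η, Test {x | rr x < 14 / 10} η → ∫ x, γv x * ⟪g x, ∇ η x⟫ = ∫ x, ⟪VG x, ∇ η x⟫)
    (h2 : ∀ x, VG x ≠ 0 → rr x < 137 / 100)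
    (h3 : ∀ x, 1372 / 1000 ≤ rr x → rr x ≤ 1388 / 1000 → γv x = a₀)
    (h4 : ∀ᵐ x, rr x ≤ 1378 / 1000 → j x = a₀ • g x)
    (h5 : ∀ η, Test {x | 1374 / 1000 < rr x} η → ∫ x, ⟪j x, ∇ η x⟫ = 0) :
    ∃ jd : E → E, MemLp jd 2 volume ∧ (∀ x, rr x ≤ 1378 / 1000 → jd x = γv x • g x) ∧
      (∀ x, 1378 / 1000 < rr x → jd x = j x) ∧
      ∀ v k, IsH univ v k → ∫ x, ⟪jd x, k x⟫ = ∫ x, ⟪VG x, k x⟫ := by
  set A : Set E := {x | rr x ≤ 1378 / 1000} with hA
  have mA : MeasurableSet A := measurableSet_le hG.cont.measurable measurable_const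
  set jd : E → E := fun x => A.indicator (fun x => γv x • g x) x + Aᶜ.indicator j x with hjd
  have m4 : MemLp jd 2 volume := (m1.indicator mA).add (m2.indicator mA.compl)
  have j1 : ∀ x, rr x ≤ 1378 / 1000 → jd x = γv x • g x := fun x hx => by
    have : x ∈ A := hx
    simp [hjd, this]
  have j2 : ∀ x, 1378 / 1000 < rr x → jd x = j x := fun x hx => by
    have : x ∉ A := not_le.2 hx
    simp [hjd, this]
  refine ⟨jd, m4, j1, j2, fun v k H => ?_⟩
  have := H.inner_eq_zero (m4.sub m3) fun η hη => ?_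
  · simp only [Pi.sub_apply, inner_sub_left] at this
    rw [integral_sub (integrable_inner' m4 H.memg) (integrable_inner' m3 H.memg)] at this
    linarith
  simp only [Pi.sub_apply, inner_sub_left]
  rw [integral_sub (integrable_inner' m4 hη.memLp_grad) (integrable_inner' m3 hη.memLp_grad),
    sub_eq_zero]
  have t1 : Test {x | rr x < 1378 / 1000}
      (fun x => (1 - step (1375 / 1000) (1377 / 1000) (rr x)) * η x) :=
    (cut_test hG (by norm_num) (by norm_num) (by norm_num)).mul hη.smooth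
  have t2 : Test {x | 1374 / 1000 < rr x}
      (fun x => step (1375 / 1000) (1377 / 1000) (rr x) * η x) :=
    hη.mul_of_zero_off (C := {x | 1375 / 1000 ≤ rr x})
      (step_rr_smooth hG (by norm_num) (by norm_num)) (isClosed_le continuous_const hG.cont)
      (fun x hx => by
        have : 1375 / 1000 ≤ rr x := hx.1
        show 1374 / 1000 < rr x
        linarith)
      fun x hx => step_of_le (by norm_num) (le_of_lt (by simpa using hx))
  have e : ∀ x, ⟪jd x, ∇ η x⟫ =
      ⟪jd x, ∇ (fun x => (1 - step (1375 / 1000) (1377 / 1000) (rr x)) * η x) x⟫ +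
        ⟪jd x, ∇ (fun x => step (1375 / 1000) (1377 / 1000) (rr x) * η x) x⟫ := fun x => by
    rw [← inner_add_right, ← grad_add (t1.differentiable x) (t2.differentiable x)]
    congr 2
    ext y
    ring
  have k1 : ∫ x, ⟪jd x, ∇ (fun x => (1 - step (1375 / 1000) (1377 / 1000) (rr x)) * η x) x⟫ =
      ∫ x, ⟪VG x, ∇ η x⟫ := by
    have := h1 _ (t1.mono fun x (hx : rr x < 1378 / 1000) => (by linarith : rr x < 14 / 10))
    refine Eq.trans ?_ (this.trans ?_)
    · congr 1
      ext x
      by_cases hx : rr x < 1378 / 1000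
      · rw [j1 x hx.le, inner_smul_left]; simp
      · simp [t1.grad_eq_zero hx]
    · congr 1
      ext x
      by_cases hx : VG x = 0
      · simp [hx]
      · have h6 : ∀ᶠ y in 𝓝 x, rr y < 1375 / 1000 :=
          hG.cont.continuousAt.eventually_lt continuousAt_const (by linarith [h2 x hx])
        have h7 : (fun x => (1 - step (1375 / 1000) (1377 / 1000) (rr x)) * η x) =ᶠ[𝓝 x] η := by
          filter_upwards [h6] with y hy
          rw [step_of_le (by norm_num) hy.le]; ring
        rw [h7.gradient_eq]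
  have k2 : ∫ x, ⟪jd x, ∇ (fun x => step (1375 / 1000) (1377 / 1000) (rr x) * η x) x⟫ = 0 := by
    rw [← h5 _ t2]
    refine integral_congr_ae ?_
    filter_upwards [h4] with x hx
    by_cases h6 : 1374 / 1000 < rr x
    · by_cases h7 : rr x ≤ 1378 / 1000
      · rw [j1 x h7, hx h7, h3 x (by linarith) (by linarith)]
      · rw [j2 x (not_le.1 h7)]
    · simp [t2.grad_eq_zero h6]
  simp only [e]
  rw [integral_add (integrable_inner' m4 t1.memLp_grad) (integrable_inner' m4 t2.memLp_grad),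
    k1, k2, add_zero]

lemma j0_mid {x : E} (h1 : 1365 / 1000 ≤ rr x) (h2 : rr x ≤ 1393 / 1000) : j0 x = ∇ NN x := by
  simp [j0, st_of_ge h1, th_of_le h2, grad_th_zero hG (Or.inl h2)]

lemma energy_split {g g' : E → E} {a₀ C : ℝ} (m : MemLp g 2 volume) (m' : MemLp g' 2 volume)
    (h1 : ∀ᵐ x, rr x ≤ 1378 / 1000 → g' x = a₀ • g x)
    (h2 : ∫ x in {x | 1378 / 1000 < rr x}, ‖g' x‖ ^ 2 ≤ C) :
    ∫ x, ‖g' x‖ ^ 2 ≤ a₀ ^ 2 * (∫ x, ‖g x‖ ^ 2) + C := by
  have mA : MeasurableSet {x | 1378 / 1000 < rr x} :=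
    measurableSet_lt measurable_const hG.cont.measurable
  rw [← integral_add_compl mA (integrable_norm_sq m'), add_comm]
  refine add_le_add ?_ h2
  rw [← integral_const_mul]
  refine le_trans (le_of_eq (setIntegral_congr_ae mA.compl ?_))
    (setIntegral_le_integral ((integrable_norm_sq m).const_mul (a₀ ^ 2))
      (Eventually.of_forall fun x => by positivity))
  filter_upwards [h1] with x hx hx'
  rw [hx (not_lt.1 hx'), norm_smul, mul_pow]
  simp

end Seq

end

end Crest.Agent.R83
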