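import Crest.Agent.R83.Seq4

/-!
Row 83: one step of the recursion.
-/

set_option autoImplicit false

open MeasureTheory Set Filter Topology Metric
open scoped Gradient ContDiff RealInnerProductSpace ENNReal

namespace Crest.Agent.R83

noncomputable section

namespace Seq

theorem one_step (hG : GeomFacts) (hB : BogStmt) (hW : WeylStmt) (hP : PoincareStmt)
    (hL : LaxStmt) (hM : MaxStmt) (hK : KillStmt) {as bs : ℝ} {γs : E → ℝ} (s0 : 0 < as)
    (s1 : as ≤ 1) (s2 : 1 ≤ bs) (s3 : Measurable γs) (s4 : ∀ x, as ≤ γs x ∧ γs x ≤ bs) :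
    ∃ (a b C : ℝ) (𝓕 : ℕ → Set (E → ℝ)), 0 < a ∧ a ≤ 1 ∧ 1 ≤ b ∧ 0 ≤ C ∧ (∀ m, (𝓕 m).Finite) ∧
      ∀ (γ P : E → ℝ) (G : E → E) (M K : ℝ), Measurable γ → (∀ x, a ≤ γ x ∧ γ x ≤ b) →
        (∀ x, 139 / 100 ≤ rr x → γ x = 1) → IsH {x | rr x < 14 / 10} P G → (∀ᵐ x, |P x| ≤ M) →
        √(∫ x, ‖G x‖ ^ 2) ≤ K →
        ∃ (γ' P' : E → ℝ) (G' : E → E), Measurable γ' ∧ (∀ x, a ≤ γ' x ∧ γ' x ≤ b) ∧
          (∀ x, 139 / 100 ≤ rr x → γ' x = 1) ∧ IsH {x | rr x < 14 / 10} P' G' ∧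
          (∀ᵐ x, |P' x| ≤ (2 * kap)⁻¹ * M + C) ∧ √(∫ x, ‖G' x‖ ^ 2) ≤ 99 / 100 * K + C ∧
          (∀ i x, rr x ≤ 14 / 10 → γ' (SS i x) = γ x) ∧
          (∀ x, rr x < 135 / 100 → (∀ i, 14 / 10 < rr (TT i x)) → γ' x = γs x) ∧
          (∀ v k, IsH univ v k → Lam γ' G' v k =
            (Lam γ G (fun x => v (SS 0 x)) (pull 0 k) +
              Lam γ G (fun x => v (SS 1 x)) (pull 1 k)) / 2) ∧
          ∀ m : ℕ, ∃ f ∈ 𝓕 m,
            volume {x | (∀ i, 14 / 10 < rr (TT i x)) ∧ γ' x ≠ f x} ≤ ((m : ℝ≥0∞) + 1)⁻¹ := by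
  obtain ⟨ε₀, aK, bK, CK, 𝓕, k0, k1, k2, k3, k4, hK⟩ := hK
  obtain ⟨VG, v1, v2, v3⟩ := exists_source hG hB
  obtain ⟨CP, p0, hP⟩ := hP 2
  set a' := min as aK with ha'
  have a'0 : 0 < a' := lt_min s0 k1
  have a'1 : a' ≤ 1 := (min_le_left _ _).trans s1
  set b := max bs bK with hb
  have b1 : 1 ≤ b := le_max_of_le_left s2
  set E₀ := (∫ x, ‖VG x‖ ^ 2) / a' with hE₀
  have E0 : 0 ≤ E₀ := div_nonneg (integral_nonneg fun _ => by positivity) a'0.le
  set a₀ := min 1 (ε₀ * a' / (CP * E₀ + 1)) with ha₀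
  have a00 : 0 < a₀ := lt_min one_pos (by positivity)
  have a01 : a₀ ≤ 1 := min_le_left _ _
  have a02 : a₀ * (CP * E₀) ≤ ε₀ * a' := by
    have h1 : a₀ ≤ ε₀ * a' / (CP * E₀ + 1) := min_le_right _ _
    rw [le_div_iff₀ (by positivity)] at h1
    nlinarith
  obtain ⟨γ₀, Pf, c1, c2, c3, c4, c5, c6⟩ := exists_carrier hG a00 a01
  set X := E₀ / (a₀ * a') with hX
  have X0 : 0 ≤ X := by positivity
  obtain ⟨M₁, hM₁⟩ := virtual_sup hG hW hM c3 c5 c6 v3 (CP * X)
  obtain ⟨Bf, Bf0, hBf⟩ := c5.exists_bound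
  have hQ : {x | rr x < 14 / 10} ⊆ ball (0 : E) 2 := fun x (hx : rr x < 14 / 10) => by
    rw [mem_ball_zero_iff]; linarith [hG.norm_le x]
  have aa0 : 0 < a₀ * a' := by positivity
  have aa1 : a₀ * a' ≤ a' := by nlinarith
  have aa2 : a₀ * a' ≤ a₀ := by nlinarith
  classical
  refine ⟨a₀ * a', b, Bf + |M₁| + a₀⁻¹ * |CK| + √(∫ x, ‖∇ Pf x‖ ^ 2) + a₀⁻¹ * √(a₀ ^ 2 * X + CK),
    fun m => (fun f x => (if rr x < 135 / 100 then γs x else γ₀ (rr x)) * f x) '' 𝓕 m, aa0,
    by nlinarith, b1, by positivity, fun m => (k4 m).image _,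
    fun γ P G M K g1 g2 g3 g4 g5 g6 => ?_⟩
  -- the virtual problem
  set γv := gv γs γ₀ γ with hγv
  have w1 : Measurable γv := gv_meas hG s3 c1 g1
  have w2 : ∀ x, a₀ * a' ≤ γv x ∧ γv x ≤ b := by
    intro x
    rcases gv_cases x with ⟨i, hi⟩ | h
    · rw [hγv, gv_child hG hi]; exact g2 _
    · rw [hγv, gv_out h]
      split_ifs
      · exact ⟨aa1.trans ((min_le_left _ _).trans (s4 x).1), (s4 x).2.trans (le_max_left _ _)⟩
      · exact ⟨aa2.trans (c2 _).1, (c2 _).2.trans b1⟩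
  have w3 : ∀ x, VG x ≠ 0 → a' ≤ γv x := by
    intro x hx
    obtain ⟨h1, h2⟩ := v2 x hx
    rcases gv_cases x with ⟨i, hi⟩ | h
    · rw [hγv, gv_child hG hi, g3 _ (h2 i).le]; exact a'1
    · rw [hγv, gv_out h]
      split_ifs
      · exact (min_le_left _ _).trans (s4 x).1
      · rw [c3 _ (Or.inl h1.le)]; exact a'1
  have w4 : ∀ x ∈ Oset, γv x = 1 := by
    rintro x (hx | ⟨i, hi⟩)
    · rw [hγv, gv_far hG hx.1.le, c3 _ (Or.inl hx.2.le)]
    · rw [hγv, gv_child hG hi.2.le, g3 _ hi.1.le]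
  have w5 : ∀ x, 1372 / 1000 ≤ rr x → rr x ≤ 1388 / 1000 → γv x = a₀ := fun x h1 h2 => by
    rw [hγv, gv_far hG (by linarith), c4 _ h1 h2]
  obtain ⟨δ, gd, d1, d2⟩ := hL {x | rr x < 14 / 10} γv (a₀ * a') b VG (isBounded_lt hG _) w1 aa0 w2 v1
  have d3 : ∫ x, ‖gd x‖ ^ 2 ≤ X := by
    rw [hX, le_div_iff₀ aa0, mul_comm]
    exact virtual_energy w1 aa0 a'0 w2 v1 d1.memg w3 (d2 _ _ d1)
  have d4 : ∫ x, δ x ^ 2 ≤ CP * X := (hP _ _ _ hQ d1).trans (mul_le_mul_of_nonneg_left d3 p0)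
  have d5 := hM₁ γv δ gd _ _ w1 aa0 w2 w4 d1 d2 d4
  -- killing the correction
  obtain ⟨γK, u', g', j', l1, l2, l3, l4, l5, l6, l7, l8, l9, l10, l11⟩ :=
    hK (fun x => a₀ * δ x) (fun x => a₀ • gd x) (d1.univ.const_mul a₀) (by
      simp only [mul_pow]
      rw [integral_const_mul]
      have h1 : a₀ ^ 2 * (CP * X) = a₀ * (CP * E₀) / a' := by rw [hX]; field_simp
      have h2 : a₀ * (CP * E₀) / a' ≤ ε₀ := by rw [div_le_iff₀ a'0]; exact a02
      exact (mul_le_mul_of_nonneg_left d4 (by positivity)).trans (h1 ▸ h2)) (by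
      intro η hη h0
      have := d2 _ _ (hη.mono fun x (hx : rr x < 1388 / 1000) =>
        (by linarith : rr x < 14 / 10)).isH
      refine Eq.trans ?_ (this.trans ?_)
      · congr 1
        ext x
        by_cases h1 : rr x ≤ 1372 / 1000
        · simp [h0 x h1]
        · by_cases h2 : rr x < 1388 / 1000
          · rw [w5 x (by linarith) h2.le, inner_smul_left]; simp
          · simp [hη.grad_eq_zero h2]
      · refine integral_eq_zero_of_ae (Eventually.of_forall fun x => ?_)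
        by_cases hx : VG x = 0
        · simp [hx]
        · simp [h0 x (by linarith [(v2 x hx).1])])
  obtain ⟨jd, j1, j2, j3, j4⟩ := cut_current hG (memLp_cond_smul w1 aa0 w2 d1.memg) l5 v1
    (fun η hη => d2 _ _ hη.isH) (fun x hx => (v2 x hx).1) w5
    (by filter_upwards [l6] with x hx h using (hx h).2.2) l10
  have hk := kap_pos
  have ch := children_isH hG g4 (2 * kap)⁻¹ (2 * kap)⁻¹
  have cond : ∀ i x, rr x ≤ 14 / 10 → γv (SS i x) * γK (SS i x) = γ x := by
    intro i x hx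
    rw [l3 _ (Or.inl (by linarith [hG.child i x (by linarith)])), mul_one, hγv,
      gv_child hG (i := i) (by rwa [TT_SS]), TT_SS]
  have bnd : ∀ x, a₀ * a' ≤ γv x * γK x ∧ γv x * γK x ≤ b := by
    intro x
    by_cases hx : rr x ≤ 1378 / 1000 ∨ 1386 / 1000 ≤ rr x
    · rw [l3 x hx, mul_one]; exact w2 x
    · push Not at hx
      rw [w5 x (by linarith [hx.1]) (by linarith [hx.2])]
      have h1 := (min_le_right as aK).trans (l2 x).1
      have h2 := (l2 x).2.trans (le_max_right bs bK)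
      exact ⟨mul_le_mul_of_nonneg_left h1 a00.le, by nlinarith⟩
  have H' : IsH {x | rr x < 14 / 10}
      (fun x => Pf x + ((2 * kap)⁻¹ * P (TT 0 x) + (2 * kap)⁻¹ * P (TT 1 x)) + a₀⁻¹ * u' x)
      (fun x => ∇ Pf x + ((2 * kap)⁻¹ • push 0 G x + (2 * kap)⁻¹ • push 1 G x) + a₀⁻¹ • g' x) :=
    (c5.isH.add (ch.mono fun x (hx : rr x < 135 / 100) => (by linarith : rr x < 14 / 10))).add
      ((l4.mono fun x (hx : rr x < 139 / 100) => (by linarith : rr x < 14 / 10)).const_mul _)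
  refine ⟨fun x => γv x * γK x, _, _, w1.mul l1, bnd, fun x hx => ?_, H', ?_, ?_, cond,
    fun x h1 h2 => ?_, fun v k H => ?_, fun m => ?_⟩
  · show γv x * γK x = 1
    rw [l3 x (Or.inr (by linarith)), mul_one, hγv, gv_far hG (by linarith), c3 _ (Or.inr hx)]
  · have hc : |(2 * kap)⁻¹| ≤ (2 * kap)⁻¹ := (abs_of_pos (by positivity)).le
    filter_upwards [children_bound hG g4 g5 hc hc, l6, l7, d5] with x h1 h2 h3 h4
    have h5 : |a₀⁻¹ * u' x| ≤ |M₁| + a₀⁻¹ * |CK| := by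
      by_cases hx : rr x ≤ 1378 / 1000
      · rw [(h2 hx).1, ← mul_assoc, inv_mul_cancel₀ a00.ne', one_mul]
        have : 0 ≤ a₀⁻¹ * |CK| := by positivity
        linarith [le_abs_self M₁]
      · rw [abs_mul, abs_of_pos (inv_pos.2 a00)]
        have := mul_le_mul_of_nonneg_left ((h3 (not_le.1 hx)).1.trans (le_abs_self CK))
          (inv_pos.2 a00).le
        linarith [abs_nonneg M₁]
    have h6 := abs_add_three (Pf x) ((2 * kap)⁻¹ * P (TT 0 x) + (2 * kap)⁻¹ * P (TT 1 x))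
      (a₀⁻¹ * u' x)
    have h7 : 0 ≤ √(∫ x, ‖∇ Pf x‖ ^ 2) + a₀⁻¹ * √(a₀ ^ 2 * X + CK) := by positivity
    linarith [(hBf x).1]
  · have h1 := sqrt_integral_add_le (c5.memLp_grad.add ch.memg) (l4.memg.const_smul a₀⁻¹)
    have h2 := sqrt_integral_add_le c5.memLp_grad ch.memg
    simp only [Pi.add_apply, Pi.smul_apply] at h1
    have h3 : √(∫ x, ‖(2 * kap)⁻¹ • push 0 G x + (2 * kap)⁻¹ • push 1 G x‖ ^ 2) ≤ 99 / 100 * K := by
      rw [children_energy hG g4, Real.sqrt_mul (by positivity)]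
      refine mul_le_mul ?_ g6 (Real.sqrt_nonneg _) (by norm_num)
      rw [Real.sqrt_le_left (by norm_num)]
      norm_num [kap]
    have h4 : √(∫ x, ‖a₀⁻¹ • g' x‖ ^ 2) ≤ a₀⁻¹ * √(a₀ ^ 2 * X + CK) := by
      simp only [norm_smul, mul_pow]
      rw [integral_const_mul, Real.sqrt_mul (by positivity), Real.sqrt_sq (norm_nonneg _),
        Real.norm_eq_abs, abs_of_pos (inv_pos.2 a00)]
      refine mul_le_mul_of_nonneg_left (Real.sqrt_le_sqrt ?_) (inv_pos.2 a00).le
      have := energy_split hG d1.memg l4.memg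
        (by filter_upwards [l6] with x hx h using (hx h).2.1) l9
      nlinarith [sq_nonneg a₀]
    have h5 : 0 ≤ Bf + |M₁| + a₀⁻¹ * |CK| := by positivity
    linarith
  · show γv x * γK x = γs x
    rw [l3 x (Or.inl (by linarith)), mul_one, hγv, gv_out h2, if_pos h1]
  · have mγ := memLp_cond_smul g1 aa0 g2 g4.memg
    have e : ∀ᵐ x, (γv x * γK x) • (∇ Pf x + ((2 * kap)⁻¹ • push 0 G x +
        (2 * kap)⁻¹ • push 1 G x) + a₀⁻¹ • g' x) =
        j0 x + jd x + ((2 * kap)⁻¹ • push 0 (fun y => γ y • G y) x +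
          (2 * kap)⁻¹ • push 1 (fun y => γ y • G y) x) := by
      filter_upwards [children_cond (γ' := fun x => γv x * γK x) g4 cond 0,
        children_cond (γ' := fun x => γv x * γK x) g4 cond 1, l6, l7, l8] with x h0 h1 h2 h3 h4
      have key : (γv x * γK x) • (∇ Pf x + a₀⁻¹ • g' x) = j0 x + jd x := by
        by_cases hx : rr x ≤ 1378 / 1000
        · rw [l3 x (Or.inl hx), mul_one, (h2 hx).2.1, smul_smul, inv_mul_cancel₀ a00.ne', one_smul,
            smul_add, j2 x hx]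
          congr 1
          by_cases hx2 : 135 / 100 ≤ rr x
          · rw [hγv, gv_far hG hx2, c6]
          · have h5 := c6 x
            rw [j0_zero hG (Or.inl (by linarith))] at h5 ⊢
            rw [(smul_eq_zero.1 h5).resolve_left (by linarith [(c2 (rr x)).1]), smul_zero]
        · rw [j3 x (not_le.1 hx)]
          by_cases hx2 : 1386 / 1000 ≤ rr x
          · rw [l3 x (Or.inr hx2), mul_one, (h4 hx2).2.1, (h4 hx2).2.2, smul_zero, add_zero,
              add_zero, hγv, gv_far hG (by linarith), c6]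
          · have h5 := c6 x
            rw [c4 _ (by linarith) (by linarith), j0_mid hG (by linarith) (by linarith)] at h5
            rw [w5 x (by linarith) (by linarith), j0_mid hG (by linarith) (by linarith),
              ← (h3 (not_le.1 hx)).2, mul_comm, mul_smul, smul_add a₀, h5, smul_smul a₀,
              mul_inv_cancel₀ a00.ne', one_smul]
      rw [← key, ← h0, ← h1]
      simp only [smul_add, smul_comm (γv x * γK x) (2 * kap)⁻¹]
      abel
    have i0 := fun i => integrable_inner' (memLp_push i mγ) H.memg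
    rw [Lam_eq hG (memLp_cond_smul (γ := fun x => γv x * γK x) (w1.mul l1) aa0 bnd H'.memg)
        H.memu H.memg,
      integral_congr_ae (g := fun x => ⟪j0 x, k x⟫ + ⟪jd x, k x⟫ +
        ((2 * kap)⁻¹ * ⟪push 0 (fun y => γ y • G y) x, k x⟫ +
          (2 * kap)⁻¹ * ⟪push 1 (fun y => γ y • G y) x, k x⟫)) (by
        filter_upwards [e] with x hx
        rw [hx]
        simp only [inner_add_left, inner_smul_left, conj_trivial]),
      integral_add ((integrable_inner' (memLp_j0 hG) H.memg).fun_add (integrable_inner' j1 H.memg))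
        (((i0 0).const_mul _).fun_add ((i0 1).const_mul _)),
      integral_add (integrable_inner' (memLp_j0 hG) H.memg) (integrable_inner' j1 H.memg),
      integral_add ((i0 0).const_mul _) ((i0 1).const_mul _), integral_const_mul,
      integral_const_mul, j0_source hG H, j4 v k H, v3 v k H, pr_source hG H.memu H.memg]
    have h0 := Lam_child hG mγ H.memu H.memg 0
    have h1 := Lam_child hG mγ H.memu H.memg 1
    field_simp
    linear_combination -h0 - h1
  · obtain ⟨f, hf, hf2⟩ := l11 m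
    refine ⟨_, mem_image_of_mem _ hf, le_trans (measure_mono ?_) hf2⟩
    rintro x ⟨h1, h2⟩ h3
    apply h2
    simp only [hγv, gv_out h1, h3]

end Seq

end

end Crest.Agent.R83
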