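import Crest.Agent.R83.Basic

/-!
Row 83, one step of convex integration: the algebra.
-/

set_option autoImplicit false

open MeasureTheory Set Filter Topology Metric
open scoped Gradient ContDiff RealInnerProductSpace ENNReal

namespace Crest.Agent.R83.StepAux

noncomputable section

lemma crs_crs (a b c : E) : crs a (crs b c) = ⟪a, c⟫ • b - ⟪a, b⟫ • c := by
  ext i
  fin_cases i <;> simp [crs, inner_eq_three] <;> ring

lemma crs_add_left (a b c : E) : crs (a + b) c = crs a c + crs b c := by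
  ext i
  fin_cases i <;> simp [crs] <;> ring

lemma crs_smul_left (t : ℝ) (a c : E) : crs (t • a) c = t • crs a c := by
  ext i
  fin_cases i <;> simp [crs] <;> ring

lemma crs_zero_left (c : E) : crs 0 c = 0 := by
  ext i
  fin_cases i <;> simp [crs]

lemma inner_crs (f a v : E) : ⟪f, crs a v⟫ = ⟪crs v f, a⟫ := by
  simp [crs, inner_eq_three]
  ring

lemma norm_crs_le (a b : E) : ‖crs a b‖ ≤ ‖a‖ * ‖b‖ := by
  have h : ‖crs a b‖ ^ 2 ≤ (‖a‖ * ‖b‖) ^ 2 := by
    rw [mul_pow, norm_sq_eq_three, norm_sq_eq_three, norm_sq_eq_three]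
    simp only [crs, PiLp.toLp_apply, Matrix.cons_val_zero, Matrix.cons_val_one,
      Matrix.cons_val]
    nlinarith [sq_nonneg (a 0 * b 0 + a 1 * b 1 + a 2 * b 2)]
  exact (pow_le_pow_iff_left₀ (norm_nonneg _) (by positivity) two_ne_zero).1 h

lemma scalar {a b h m en r jn τ : ℝ} (hab : a * b = 1) (ha : 0 < a) (hah : a < h) (hhb : h < b)
    (hm : m = a + b - h⁻¹) (hr : 0 < r) (hen : r < (m - h) * en) (hjn : jn = m * en - r)
    (hτ : |τ| ≤ r / (2 * b)) :
    0 < jn ∧ a < (h⁻¹ + τ / jn)⁻¹ ∧ (h⁻¹ + τ / jn)⁻¹ < b ∧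
      0 < r + τ * (m - en / jn) - τ ^ 2 / jn ∧ 0 < jn - (h⁻¹ + τ / jn)⁻¹ * (en + τ) := by
  have hh : 0 < h := ha.trans hah
  have hb : 0 < b := hh.trans hhb
  have hhi : h * h⁻¹ = 1 := mul_inv_cancel₀ hh.ne'
  have hi1 : a < h⁻¹ := by
    rw [lt_inv_comm₀ ha hh, ← eq_inv_of_mul_eq_one_right hab]
    exact hhb
  have hi2 : h⁻¹ < b := by
    rw [inv_lt_comm₀ hh hb, ← eq_inv_of_mul_eq_one_left hab]
    exact hah
  have hm1 : a < m := by linarith
  have hm2 : m < b := by linarith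
  have hmh : h < m := by
    have : 0 < (h - a) * (b - h) := mul_pos (by linarith) (by linarith)
    have h2 : 0 < h * (m - h) := by rw [hm]; nlinarith
    nlinarith
  have hen0 : 0 < en := by
    by_contra hc
    nlinarith [not_lt.1 hc]
  have hj1 : h * en < jn := by linarith
  have hj0 : 0 < jn := lt_trans (by positivity) hj1
  have hj2 : jn < m * en := by linarith
  set u := en / jn with hu
  have hu' : en = u * jn := by rw [hu]; field_simp
  have hu1 : a < u := by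
    rw [hu, lt_div_iff₀ hj0]
    nlinarith
  have hu2 : u < h⁻¹ := by
    rw [hu, div_lt_iff₀ hj0]
    nlinarith [mul_lt_mul_of_pos_left hj1 (inv_pos.2 hh)]
  have hτb : |τ| * (2 * b) ≤ r := by rwa [le_div_iff₀ (by positivity)] at hτ
  have hτ0 := abs_nonneg τ
  have h1 : |τ * (m - u)| ≤ r / 2 := by
    rw [abs_mul]
    have : |m - u| ≤ b := abs_le.2 ⟨by linarith, by linarith⟩
    nlinarith [mul_le_mul_of_nonneg_left this hτ0]
  have hrb : r < b * en := by nlinarith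
  have h2 : τ ^ 2 / jn ≤ r / 4 := by
    rw [div_le_iff₀ hj0, ← sq_abs]
    have h3 : r ≤ b ^ 2 * jn := by
      have : a * en ≤ jn := by nlinarith
      calc r ≤ b * en := hrb.le
        _ = b ^ 2 * (a * en) := by linear_combination (-(b * en)) * hab
        _ ≤ _ := by gcongr
    have h4 : (|τ| * (2 * b)) ^ 2 ≤ r ^ 2 := by gcongr
    have h5 : b ^ 2 * (4 * |τ| ^ 2) ≤ b ^ 2 * (r * jn) := by nlinarith
    have := le_of_mul_le_mul_left h5 (by positivity)
    linarith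
  have hf : 0 < r + τ * (m - u) - τ ^ 2 / jn := by linarith [(abs_le.1 h1).1]
  have hτen : 0 < en + τ := by
    have : |τ| * (2 * b) < b * en := by linarith
    have h6 : b * (2 * |τ|) < b * en := by linarith
    have := lt_of_mul_lt_mul_left h6 hb.le
    linarith [neg_abs_le τ]
  set s := τ / jn with hs
  have hs' : τ = s * jn := by rw [hs]; field_simp
  have hs2 : τ ^ 2 / jn = τ * s := by rw [hs]; field_simp
  have hg : en + τ < jn * (h⁻¹ + s) := by nlinarith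
  have hg0 : 0 < h⁻¹ + s := by
    by_contra hc
    nlinarith [not_lt.1 hc]
  have hm' : jn < (m - s) * (en + τ) := by
    have : τ * u = s * en := by rw [hs', hu']; ring
    rw [hs2] at hf
    nlinarith
  have hm0 : 0 < m - s := by
    by_contra hc
    nlinarith [not_lt.1 hc]
  have hprod : 1 < (m - s) * (h⁻¹ + s) := by
    have : jn * 1 < jn * ((m - s) * (h⁻¹ + s)) := by
      nlinarith [mul_lt_mul_of_pos_left hg hm0]
    exact lt_of_mul_lt_mul_left this hj0.le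
  have hpr : 0 < (h⁻¹ + s - a) * (b - (h⁻¹ + s)) := by
    rw [hm] at hprod
    nlinarith
  have hga : a < h⁻¹ + s := by
    by_contra hc
    nlinarith [not_lt.1 hc]
  have hgb : h⁻¹ + s < b := by
    by_contra hc
    nlinarith [not_lt.1 hc]
  refine ⟨hj0, ?_, ?_, hf, ?_⟩
  · rw [lt_inv_comm₀ ha hg0, ← eq_inv_of_mul_eq_one_right hab]
    exact hgb
  · rw [inv_lt_comm₀ hg0 hb, ← eq_inv_of_mul_eq_one_left hab]
    exact hga
  · rw [sub_pos, inv_mul_lt_iff₀ hg0]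
    linarith

lemma dfc_le (e j : E) (s : ℝ) : dfc e j ≤ ‖s • e - j‖ ^ 2 := by
  unfold dfc
  rw [norm_sub_sq_real, norm_smul, real_inner_smul_left, mul_pow, Real.norm_eq_abs, sq_abs]
  by_cases he : e = 0
  · simp [he]
  have h0 : 0 < ‖e‖ ^ 2 := by positivity
  have : s * ⟪e, j⟫ * 2 - s ^ 2 * ‖e‖ ^ 2 ≤ ⟪e, j⟫ ^ 2 / ‖e‖ ^ 2 := by
    rw [le_div_iff₀ h0]
    nlinarith [sq_nonneg (⟪e, j⟫ - s * ‖e‖ ^ 2)]
  linarith

lemma dfc_le_sq (e j : E) : dfc e j ≤ ‖j‖ ^ 2 := by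
  simpa using dfc_le e j 0

lemma dfc_nonneg (e j : E) : 0 ≤ dfc e j := by
  unfold dfc
  by_cases he : e = 0
  · simp [he]
  have h0 : 0 < ‖e‖ ^ 2 := by positivity
  rw [sub_nonneg, div_le_iff₀ h0, ← sq_abs, mul_comm, ← mul_pow]
  gcongr
  exact abs_real_inner_le_norm _ _

lemma ne_zero_of_inU {b : ℝ} {e j : E} (h : inU b e j) : e ≠ 0 := by
  rintro rfl
  obtain ⟨h, -, -, h3⟩ := h
  simp only [smul_zero, sub_zero] at h3
  exact absurd h3 (not_lt.2 real_inner_self_nonneg)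

lemma isOpen_inU (b : ℝ) : IsOpen {z : E × E | inU b z.1 z.2} := by
  have : {z : E × E | inU b z.1 z.2} = ⋃ h : ℝ, ⋃ _ : b⁻¹ < h ∧ h < b,
      {z : E × E | ⟪z.2 - h • z.1, z.2 - (b⁻¹ + b - h⁻¹) • z.1⟫ < 0} := by
    ext z
    simp [inU, and_assoc]
  rw [this]
  exact isOpen_iUnion fun h => isOpen_iUnion fun _ => isOpen_lt (by fun_prop) continuous_const

lemma alg {b : ℝ} (hb : 0 < b) {e j : E} (H : inU b e j) :
    ∃ p v : E, p ≠ 0 ∧ dfc e j ≤ 4 * b ^ 2 * ‖p‖ ^ 2 ∧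
      ∀ s : ℝ, |s| ≤ 1 → inU b (e + s • p) (j + s • crs p v) := by
  obtain ⟨h, hah, hhb, H⟩ := H
  set m := b⁻¹ + b - h⁻¹ with hm
  have hw : m • e - j ≠ 0 := by
    intro h0
    rw [sub_eq_zero] at h0
    rw [← h0] at H
    simp at H
  obtain ⟨r, hr⟩ : ∃ r, r = ‖m • e - j‖ := ⟨_, rfl⟩
  have hr0 : 0 < r := hr ▸ norm_pos_iff.2 hw
  obtain ⟨n, hn⟩ : ∃ n, n = r⁻¹ • (m • e - j) := ⟨_, rfl⟩
  have hn1 : ‖n‖ = 1 := by
    rw [hn, norm_smul, ← hr, Real.norm_eq_abs, abs_of_pos (inv_pos.2 hr0), inv_mul_cancel₀ hr0.ne']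
  have hnn : ⟪n, n⟫ = 1 := by rw [real_inner_self_eq_norm_sq, hn1, one_pow]
  have hj : j = m • e - r • n := by
    rw [hn, smul_smul, mul_inv_cancel₀ hr0.ne', one_smul, sub_sub_cancel]
  obtain ⟨en, hen⟩ : ∃ en, en = ⟪e, n⟫ := ⟨_, rfl⟩
  have hen' : r < (m - h) * en := by
    have h1 : j - m • e = (-r) • n := by rw [hj]; module
    rw [h1, hj, real_inner_smul_right] at H
    simp only [inner_sub_left, real_inner_smul_left, hnn, ← hen] at H
    nlinarith
  obtain ⟨jn, hjn⟩ : ∃ jn, jn = m * en - r := ⟨_, rfl⟩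
  have ht0 : 0 < r / (2 * b) := by positivity
  refine ⟨(r / (2 * b)) • n, crs (-jn⁻¹ • (e - en • n)) n, ?_, ?_, fun s hs => ?_⟩
  · refine smul_ne_zero ht0.ne' ?_
    rintro rfl
    simp at hn1
  · refine (dfc_le e j m).trans (le_of_eq ?_)
    rw [← hr, norm_smul, hn1, Real.norm_eq_abs, abs_of_pos ht0]
    field_simp
    ring
  have hτ : |s * (r / (2 * b))| ≤ r / (2 * b) := by
    rw [abs_mul, abs_of_pos ht0]
    exact mul_le_of_le_one_left ht0.le hs
  have hc : crs ((r / (2 * b)) • n) (crs (-jn⁻¹ • (e - en • n)) n) =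
      (r / (2 * b)) • (-jn⁻¹ • (e - en • n)) := by
    rw [crs_smul_left, crs_crs, hnn, real_inner_smul_right, inner_sub_right, real_inner_smul_right,
      hnn, real_inner_comm, ← hen]
    simp
  rw [hc, smul_smul, smul_smul]
  generalize s * (r / (2 * b)) = τ at hτ
  obtain ⟨h0, h1, h2, h3, h4⟩ := scalar (inv_mul_cancel₀ hb.ne') (inv_pos.2 hb) hah hhb hm hr0 hen'
    hjn hτ
  refine ⟨_, h1, h2, ?_⟩
  have h5 : j + τ • (-jn⁻¹ • (e - en • n)) - (b⁻¹ + b - (h⁻¹ + τ / jn)⁻¹⁻¹) • (e + τ • n) =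
      (-(r + τ * (m - en / jn) - τ ^ 2 / jn)) • n := by
    rw [inv_inv, hj, hm]
    match_scalars <;> ring
  rw [h5, real_inner_smul_right, hj]
  simp only [inner_sub_left, inner_add_left, real_inner_smul_left, hnn, ← hen]
  have h6 : m * en - r * 1 + τ * (-jn⁻¹ * (en - en * 1)) - (h⁻¹ + τ / jn)⁻¹ * (en + τ * 1) =
      jn - (h⁻¹ + τ / jn)⁻¹ * (en + τ) := by
    rw [hjn]
    ring
  rw [h6]
  nlinarith [mul_pos h3 h4]

end

end Crest.Agent.R83.StepAux
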