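import Crest.Agent.R83.StepAlg

/-!
Row 83, one step of convex integration: localised plane waves.
-/

set_option autoImplicit false

open MeasureTheory Set Filter Topology Metric
open scoped Gradient ContDiff RealInnerProductSpace ENNReal

namespace Crest.Agent.R83.StepAux

noncomputable section

/-- Riemann-Lebesgue -/
lemma rl_cos {f : E → ℝ} (hf : Integrable f) {p : E} (hp : p ≠ 0) :
    Tendsto (fun t : ℝ => ∫ x, Real.cos (t * ⟪p, x⟫) * f x) atTop (𝓝 0) := by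
  have h1 := tendsto_integral_exp_inner_smul_cocompact (fun x : E => (f x : ℂ))
  have h2 : Tendsto (fun t : ℝ => (t * (2 * Real.pi)⁻¹) • p) atTop (cocompact E) := by
    rw [← Metric.cobounded_eq_cocompact, ← tendsto_norm_atTop_iff_cobounded]
    simp only [norm_smul, Real.norm_eq_abs]
    exact (tendsto_abs_atTop_atTop.comp
      (tendsto_id.atTop_mul_const (by positivity))).atTop_mul_const (norm_pos_iff.2 hp)
  have h3 := (Complex.continuous_re.tendsto 0).comp (h1.comp h2)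
  refine h3.congr fun t => ?_
  simp only [Function.comp_apply]
  rw [← RCLike.re_to_complex, ← integral_re]
  · congr 1
    funext x
    rw [Circle.smul_def, Real.fourierChar_apply, smul_eq_mul, RCLike.re_to_complex,
      Complex.re_mul_ofReal, Complex.exp_ofReal_mul_I_re, real_inner_smul_right, real_inner_comm,
      ← Real.cos_neg]
    congr 2
    field_simp
  · exact (Real.fourierIntegral_convergent_iff _).2 hf.ofReal

lemma small {g : E → ℝ} (hg : Integrable g) {u : ℝ → E → ℝ} (hu : ∀ t x, |u t x| ≤ 1) :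
    Tendsto (fun t : ℝ => t⁻¹ * ∫ x, u t x * g x) atTop (𝓝 0) := by
  refine squeeze_zero_norm (a := fun t => ‖t⁻¹‖ * ∫ x, ‖g x‖) (fun t => ?_) ?_
  · rw [norm_mul]
    gcongr
    refine norm_integral_le_of_norm_le hg.norm (ae_of_all _ fun x => ?_)
    rw [norm_mul]
    exact mul_le_of_le_one_left (norm_nonneg _) (hu t x)
  · simpa using (tendsto_inv_atTop_zero (𝕜 := ℝ)).norm.mul_const (∫ x, ‖g x‖)

/-- the localised wave -/
def wave (χ : E → ℝ) (p : E) (t : ℝ) (x : E) : ℝ := χ x * (t⁻¹ * Real.sin (t * ⟪p, x⟫))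

variable {U : Set E} {χ : E → ℝ} {p : E}

lemma wave_test (hχ : Test U χ) (p : E) (t : ℝ) : Test U (wave χ p t) :=
  hχ.mul (contDiff_const.mul (contDiff_const.mul (contDiff_const.inner ℝ contDiff_id)).sin)

lemma grad_inner (p x : E) : ∇ (fun y => ⟪p, y⟫) x = p :=
  HasGradientAt.gradient (hasGradientAt_iff_hasFDerivAt.2 (innerSL ℝ p).hasFDerivAt)

lemma grad_wave (hχ : Test U χ) (p : E) {t : ℝ} (ht : t ≠ 0) (x : E) :
    ∇ (wave χ p t) x = (χ x * Real.cos (t * ⟪p, x⟫)) • p +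
      (t⁻¹ * Real.sin (t * ⟪p, x⟫)) • ∇ χ x := by
  have hd : DifferentiableAt ℝ (fun y : E => ⟪p, y⟫) x := (innerSL ℝ p).differentiableAt
  have h1 : HasDerivAt (fun s => t⁻¹ * Real.sin (t * s)) (Real.cos (t * ⟪p, x⟫)) ⟪p, x⟫ := by
    have := (((hasDerivAt_id' (⟪p, x⟫ : ℝ)).const_mul t).sin).const_mul t⁻¹
    rwa [mul_one, mul_comm _ t, ← mul_assoc, inv_mul_cancel₀ ht, one_mul] at this
  unfold wave
  rw [grad_mul (ψ := fun y => t⁻¹ * Real.sin (t * ⟪p, y⟫)) (hχ.differentiable x)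
      (h1.differentiableAt.comp x hd),
    grad_comp (β := fun s => t⁻¹ * Real.sin (t * s)) (φ := fun y : E => ⟪p, y⟫) h1 hd, grad_inner,
    smul_smul]

lemma wave_weak (hχ : Test U χ) (hp : p ≠ 0) {F : E → E} (hF : MemLp F 2 volume) :
    Tendsto (fun t : ℝ => ∫ x, ⟪F x, ∇ (wave χ p t) x⟫) atTop (𝓝 0) := by
  have i1 : Integrable fun x => χ x * ⟪F x, p⟫ :=
    integrable_mul' hχ.memLp (hF.inner_const p)
  have i2 : Integrable fun x => ⟪F x, ∇ χ x⟫ := integrable_inner' hF hχ.memLp_grad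
  have h := (rl_cos i1 hp).add
    (small i2 (u := fun t x => Real.sin (t * ⟪p, x⟫)) fun _ _ => Real.abs_sin_le_one _)
  rw [add_zero] at h
  refine h.congr' ?_
  filter_upwards [eventually_ne_atTop 0] with t ht
  rw [← integral_const_mul, ← integral_add]
  · congr 1
    funext x
    rw [grad_wave hχ p ht, inner_add_right, real_inner_smul_right, real_inner_smul_right]
    ring
  · exact i1.bdd_mul (c := 1) (by fun_prop) (ae_of_all _ fun x => Real.abs_cos_le_one _)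
  · exact (i2.bdd_mul (c := 1) (by fun_prop) (ae_of_all _ fun x => Real.abs_sin_le_one _)).const_mul _

lemma wave_energy (hχ : Test U χ) (hp : p ≠ 0) {ε : ℝ} (hε : 0 < ε) :
    ∀ᶠ t : ℝ in atTop, ‖p‖ ^ 2 / 2 * (∫ x, χ x ^ 2) - ε ≤ ∫ x, ‖∇ (wave χ p t) x‖ ^ 2 := by
  have i1 : Integrable fun x => χ x ^ 2 := integrable_sq hχ.memLp
  have i2 : Integrable fun x => χ x * ⟪∇ χ x, p⟫ :=
    integrable_mul' hχ.memLp (hχ.memLp_grad.inner_const p)
  have hu : ∀ (t : ℝ) (x : E), |Real.sin (t * ⟪(2 : ℝ) • p, x⟫)| ≤ 1 :=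
    fun _ _ => Real.abs_sin_le_one _
  have h := ((rl_cos i1 (smul_ne_zero (two_ne_zero (α := ℝ)) hp)).const_mul (‖p‖ ^ 2 / 2)).add
    (small i2 hu)
  rw [mul_zero, add_zero] at h
  filter_upwards [eventually_ne_atTop 0, h.eventually (lt_mem_nhds (neg_lt_zero.2 hε))]
    with t ht h2
  have j1 : Integrable fun x => Real.cos (t * ⟪(2 : ℝ) • p, x⟫) * χ x ^ 2 :=
    i1.bdd_mul (c := 1) (by fun_prop) (ae_of_all _ fun x => Real.abs_cos_le_one _)
  have j2 : Integrable fun x => Real.sin (t * ⟪(2 : ℝ) • p, x⟫) * (χ x * ⟪∇ χ x, p⟫) :=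
    i2.bdd_mul (c := 1) (by fun_prop) (ae_of_all _ fun x => Real.abs_sin_le_one _)
  have h3 : ∫ x, (‖p‖ ^ 2 / 2 * χ x ^ 2 + (‖p‖ ^ 2 / 2 * (Real.cos (t * ⟪(2 : ℝ) • p, x⟫) * χ x ^ 2)
      + t⁻¹ * (Real.sin (t * ⟪(2 : ℝ) • p, x⟫) * (χ x * ⟪∇ χ x, p⟫)))) ≤
      ∫ x, ‖∇ (wave χ p t) x‖ ^ 2 := by
    refine integral_mono ((i1.const_mul _).add ((j1.const_mul _).add (j2.const_mul _)))
      (integrable_norm_sq (wave_test hχ p t).memLp_grad) fun x => ?_
    dsimp only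
    rw [grad_wave hχ p ht, norm_add_sq_real, norm_smul, real_inner_smul_left, real_inner_smul_left,
      real_inner_smul_right, real_inner_comm p (∇ χ x), mul_left_comm t, Real.sin_two_mul,
      Real.cos_two_mul, mul_pow, Real.norm_eq_abs, sq_abs]
    nlinarith [sq_nonneg ‖(t⁻¹ * Real.sin (t * ⟪p, x⟫)) • ∇ χ x‖]
  rw [integral_add (i1.const_mul _) (by exact (j1.const_mul _).add (j2.const_mul _)),
    integral_add (j1.const_mul _) (j2.const_mul _), integral_const_mul, integral_const_mul,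
    integral_const_mul] at h3
  linarith

lemma exists_bump (x : E) {R : ℝ} (hR : 0 < R) : ∃ χ : E → ℝ, Test (ball x R) χ ∧
    (∀ y, |χ y| ≤ 1) ∧ volume.real (closedBall x R) / 8 ≤ ∫ y, χ y ^ 2 := by
  let f : ContDiffBump x := ⟨R / 2, 3 * R / 4, by positivity, by linarith⟩
  have hf : Test (ball x R) f :=
    ⟨f.contDiff, f.hasCompactSupport, by
      rw [f.tsupport_eq]
      exact closedBall_subset_ball (show 3 * R / 4 < R by linarith)⟩
  refine ⟨f, hf, fun y => abs_le.2 ⟨by linarith [f.nonneg' y], f.le_one⟩, ?_⟩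
  calc volume.real (closedBall x R) / 8 = volume.real (closedBall x (R / 2)) := by
        rw [Measure.addHaar_real_closedBall' _ _ hR.le,
          Measure.addHaar_real_closedBall' _ x (r := R / 2) (by positivity)]
        simp only [finrank_euclideanSpace, Fintype.card_fin]
        ring
    _ = ∫ y in closedBall x (R / 2), f y ^ 2 := by
        rw [setIntegral_congr_fun (g := fun _ => (1 : ℝ)) measurableSet_closedBall
          fun y hy => by simp only [f.one_of_mem_closedBall hy, one_pow]]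
        simp
    _ ≤ _ := setIntegral_le_integral (integrable_sq hf.memLp) (ae_of_all _ fun y => sq_nonneg _)

lemma memLp_crs (v : E) {F : E → E} (hF : MemLp F 2 volume) :
    MemLp (fun x => crs v (F x)) 2 volume := by
  have hc : Continuous fun a : E => crs v a :=
    continuous_iff_continuousAt.2 fun a =>
      (contDiffAt_crs (a := fun _ => v) (b := fun a => a) contDiffAt_const
        contDiffAt_id).continuousAt
  refine hF.of_le_mul (c := ‖v‖) (hc.comp_aestronglyMeasurable hF.1)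
    (ae_of_all _ fun x => norm_crs_le _ _)

/-- the wave with all its estimates -/
lemma exists_wave (x : E) {R : ℝ} (hR : 0 < R) (hp : p ≠ 0) (v : E) {𝓕 : Set (E → E)}
    (h𝓕 : 𝓕.Finite) (hF : ∀ F ∈ 𝓕, MemLp F 2 volume) {δ ε : ℝ} (hδ : 0 < δ) (hε : 0 < ε) :
    ∃ φ : E → ℝ, Test (ball x R) φ ∧ (∀ y, |φ y| ≤ ε) ∧
      (∀ y, ∃ s : ℝ, |s| ≤ 1 ∧ ‖∇ φ y - s • p‖ ≤ δ) ∧
      (∀ F ∈ 𝓕, |∫ y, ⟪F y, ∇ φ y⟫| ≤ ε ∧ |∫ y, ⟪F y, crs (∇ φ y) v⟫| ≤ ε) ∧
      ‖p‖ ^ 2 / 16 * volume.real (closedBall x R) - ε ≤ ∫ y, ‖∇ φ y‖ ^ 2 := by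
  obtain ⟨χ, hχ, hχ1, hχ2⟩ := exists_bump x hR
  obtain ⟨M, hM0, hM⟩ := hχ.exists_bound
  have habs : ∀ {g : ℝ → ℝ}, Tendsto g atTop (𝓝 0) → ∀ᶠ t in atTop, |g t| ≤ ε := fun hg =>
    (hg.abs.eventually (ge_mem_nhds (by simpa using hε)))
  have e1 : ∀ᶠ t : ℝ in atTop, ∀ F ∈ 𝓕, |∫ y, ⟪F y, ∇ (wave χ p t) y⟫| ≤ ε ∧
      |∫ y, ⟪F y, crs (∇ (wave χ p t) y) v⟫| ≤ ε := by
    refine (eventually_all_finite h𝓕).2 fun F hF' => (habs (wave_weak hχ hp (hF F hF'))).and ?_
    simp only [inner_crs]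
    exact habs (wave_weak hχ hp (memLp_crs v (hF F hF')))
  have e2 : ∀ᶠ t : ℝ in atTop, |t⁻¹| * M ≤ δ :=
    ((tendsto_inv_atTop_zero (𝕜 := ℝ)).abs.mul_const M).eventually
      (ge_mem_nhds (by simpa using hδ))
  obtain ⟨t, ht, h1, h2, h3, h4⟩ := ((eventually_ne_atTop 0).and (e1.and (e2.and
    ((habs tendsto_inv_atTop_zero).and (wave_energy hχ hp hε))))).exists
  refine ⟨wave χ p t, wave_test hχ p t, fun y => ?_, fun y => ⟨χ y * Real.cos (t * ⟪p, y⟫), ?_, ?_⟩,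
    h1, le_trans ?_ h4⟩
  · unfold wave
    rw [abs_mul, abs_mul]
    calc _ ≤ 1 * (ε * 1) := by
          gcongr
          · exact hχ1 y
          · exact Real.abs_sin_le_one _
      _ = ε := by ring
  · rw [abs_mul]
    exact mul_le_one₀ (hχ1 y) (abs_nonneg _) (Real.abs_cos_le_one _)
  · rw [grad_wave hχ p ht, add_sub_cancel_left, norm_smul, Real.norm_eq_abs, abs_mul]
    calc _ ≤ |t⁻¹| * 1 * M := by
          gcongr
          · exact Real.abs_sin_le_one _
          · exact (hM y).2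
      _ ≤ δ := by rwa [mul_one]
  · nlinarith [mul_le_mul_of_nonneg_left hχ2 (sq_nonneg ‖p‖)]

end

end Crest.Agent.R83.StepAux
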