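import Crest.Agent.R83.Basic

/-!
Row 83: convolution of an `L²` function with a test kernel (bounds used in Weyl's lemma).
-/

set_option autoImplicit false

open MeasureTheory Set Filter Topology Metric
open scoped Gradient ContDiff RealInnerProductSpace ENNReal Convolution

namespace Crest.Agent.R83.WeylAux

noncomputable section

/-- `u * k` -/
def cv (u k : E → ℝ) : E → ℝ := u ⋆[ContinuousLinearMap.mul ℝ ℝ, volume] k

lemma cv_apply (u k : E → ℝ) (x : E) : cv u k x = ∫ y, u y * k (x - y) := rfl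

lemma locInt {u : E → ℝ} (hu : MemLp u 2 volume) : LocallyIntegrable u volume :=
  hu.locallyIntegrable (by norm_num)

lemma cv_smooth {u k : E → ℝ} (hu : MemLp u 2 volume) (hk : Test univ k) :
    ContDiff ℝ ∞ (cv u k) :=
  hk.cpt.contDiff_convolution_right (n := ⊤) _ (locInt hu) hk.smooth

lemma test_partial {k : E → ℝ} (hk : Test univ k) (i : Fin 3) :
    Test univ (fun x => ∇ k x i) := by
  refine ⟨?_, ?_, subset_univ _⟩
  · exact (contDiff_piLp_apply (p := 2) (i := i)).comp (contDiff_grad hk.smooth)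
  · exact (hasCompactSupport_grad hk.cpt).comp_left (g := fun v : E => v i) rfl

lemma grad_cv {u k : E → ℝ} (hu : MemLp u 2 volume) (hk : Test univ k) (x : E) (i : Fin 3) :
    ∇ (cv u k) x i = cv u (fun y => ∇ k y i) x := by
  have h := hk.cpt.hasFDerivAt_convolution_right (ContinuousLinearMap.mul ℝ ℝ) (locInt hu)
    hk.contDiff_one x
  rw [grad_apply]
  unfold cv
  rw [h.fderiv, convolution_precompR_apply _ (locInt hu) (hk.cpt.fderiv ℝ)
    (hk.contDiff_one.continuous_fderiv one_ne_zero)]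
  simp only [grad_apply]

lemma memLp_sub_left {k : E → ℝ} (hk : Test univ k) (x : E) :
    MemLp (fun y => k (x - y)) 2 volume :=
  (hk.continuous.comp (continuous_const.sub continuous_id)).memLp_of_hasCompactSupport
    (hk.cpt.comp_homeomorph (Homeomorph.subLeft x))

lemma cv_bound {k : E → ℝ} (hk : Test univ k) : ∃ C : ℝ, 0 ≤ C ∧ ∀ (u : E → ℝ) (B : ℝ),
    MemLp u 2 volume → 0 ≤ B → ∫ x, u x ^ 2 ≤ B ^ 2 → ∀ x, |cv u k x| ≤ C * B := by
  refine ⟨√(∫ y, k y ^ 2), Real.sqrt_nonneg _, fun u B hu hB hI x => ?_⟩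
  have h1 := abs_integral_mul_le hu (memLp_sub_left hk x)
  rw [integral_sub_left_eq_self (fun y => k y ^ 2) volume x] at h1
  have h2 : √(∫ x, u x ^ 2) ≤ B := Real.sqrt_le_iff.2 ⟨hB, hI⟩
  rw [cv_apply, mul_comm]
  exact h1.trans (mul_le_mul_of_nonneg_right h2 (Real.sqrt_nonneg _))

lemma norm_le_three (a : E) : ‖a‖ ≤ |a 0| + |a 1| + |a 2| := by
  have h := norm_sq_eq_three a
  have h0 := abs_nonneg (a 0)
  have h1 := abs_nonneg (a 1)
  have h2 := abs_nonneg (a 2)
  rw [← sq_abs (a 0), ← sq_abs (a 1), ← sq_abs (a 2)] at h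
  exact pow_le_pow_left_iff_of_ne_zero_aux h h0 h1 h2
where
  pow_le_pow_left_iff_of_ne_zero_aux {n p q r : ℝ} (h : n ^ 2 = p ^ 2 + q ^ 2 + r ^ 2)
      (hp : 0 ≤ p) (hq : 0 ≤ q) (hr : 0 ≤ r) : n ≤ p + q + r := by
    refine le_trans (le_abs_self n) (abs_le_of_sq_le_sq' ?_ (by positivity)).2
    rw [sq_abs, h]
    nlinarith [mul_nonneg hp hq, mul_nonneg hp hr, mul_nonneg hq hr]

lemma cv_grad_bound {k : E → ℝ} (hk : Test univ k) : ∃ C : ℝ, 0 ≤ C ∧ ∀ (u : E → ℝ) (B : ℝ),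
    MemLp u 2 volume → 0 ≤ B → ∫ x, u x ^ 2 ≤ B ^ 2 → ∀ x, ‖∇ (cv u k) x‖ ≤ C * B := by
  choose C hC0 hC using fun i => cv_bound (test_partial hk i)
  refine ⟨C 0 + C 1 + C 2, by have := hC0 0; have := hC0 1; have := hC0 2; positivity,
    fun u B hu hB hI x => (norm_le_three _).trans ?_⟩
  rw [grad_cv hu hk, grad_cv hu hk, grad_cv hu hk, add_mul, add_mul]
  exact add_le_add (add_le_add (hC 0 u B hu hB hI x) (hC 1 u B hu hB hI x)) (hC 2 u B hu hB hI x)

lemma cv_lip {k : E → ℝ} (hk : Test univ k) : ∃ C : ℝ, 0 ≤ C ∧ ∀ (u : E → ℝ) (B : ℝ),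
    MemLp u 2 volume → 0 ≤ B → ∫ x, u x ^ 2 ≤ B ^ 2 →
      ∀ x y, |cv u k x - cv u k y| ≤ C * B * ‖x - y‖ := by
  obtain ⟨C, hC0, hC⟩ := cv_grad_bound hk
  refine ⟨C, hC0, fun u B hu hB hI x y => ?_⟩
  have hd : Differentiable ℝ (cv u k) := (cv_smooth hu hk).differentiable (by simp)
  exact convex_univ.norm_image_sub_le_of_norm_fderiv_le (𝕜 := ℝ) (fun z _ => hd z)
    (fun z _ => by rw [← norm_grad]; exact hC u B hu hB hI z) (mem_univ y) (mem_univ x)

lemma cv_grad_lip {k : E → ℝ} (hk : Test univ k) : ∃ C : ℝ, 0 ≤ C ∧ ∀ (u : E → ℝ) (B : ℝ),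
    MemLp u 2 volume → 0 ≤ B → ∫ x, u x ^ 2 ≤ B ^ 2 →
      ∀ x y, ‖∇ (cv u k) x - ∇ (cv u k) y‖ ≤ C * B * ‖x - y‖ := by
  choose C hC0 hC using fun i => cv_lip (test_partial hk i)
  refine ⟨C 0 + C 1 + C 2, by have := hC0 0; have := hC0 1; have := hC0 2; positivity,
    fun u B hu hB hI x y => (norm_le_three _).trans ?_⟩
  simp only [PiLp.sub_apply, grad_cv hu hk, add_mul]
  exact add_le_add (add_le_add (hC 0 u B hu hB hI x y) (hC 1 u B hu hB hI x y))
    (hC 2 u B hu hB hI x y)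

/-- a smooth function that agrees with `u` on an open set has gradient `g` there -/
lemma grad_ae_eq {O : Set E} {u v : E → ℝ} {g : E → E} (H : IsH univ u g) (hv : ContDiff ℝ ∞ v)
    (hO : IsOpen O) (he : ∀ᵐ x, x ∈ O → v x = u x) : ∀ᵐ x, x ∈ O → ∇ v x = g x := by
  have key : ∀ n : ℕ, ∀ᵐ x, x ∈ O ∩ ball (0 : E) (n + 1) → ∇ v x = g x := by
    intro n
    let f : ContDiffBump (0 : E) := ⟨n + 1, n + 2, by positivity, by linarith⟩
    have hf : Test univ f := ⟨f.contDiff, f.hasCompactSupport, subset_univ _⟩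
    have h1 := (hf.mul hv).isH
    have h2 := h1.grad_ae_eq_of_eq H (hO.inter (isOpen_ball (x := (0 : E)) (ε := n + 1))) (by
      filter_upwards [he] with x hx hxO
      rw [f.one_of_mem_closedBall (ball_subset_closedBall hxO.2), one_mul, hx hxO.1])
    filter_upwards [h2] with x hx hxO
    rw [← hx hxO]
    apply Filter.EventuallyEq.gradient_eq
    filter_upwards [f.eventuallyEq_one_of_mem_ball hxO.2] with y hy
    rw [hy, Pi.one_apply, one_mul]
  filter_upwards [ae_all_iff.2 key] with x hx hxO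
  obtain ⟨n, hn⟩ := exists_nat_gt ‖x‖
  exact hx n ⟨hxO, by rw [mem_ball_zero_iff]; linarith⟩

lemma isOpen_inner {U : Set E} (hU : IsOpen U) {t : ℝ} (ht : 0 < t) :
    IsOpen {x : E | closedBall x t ⊆ U} := by
  rw [Metric.isOpen_iff]
  intro x hx
  obtain ⟨δ, hδ, h⟩ := (isCompact_closedBall x t).exists_cthickening_subset_open hU hx
  rw [cthickening_closedBall hδ.le ht.le] at h
  refine ⟨δ, hδ, fun y hy => Subset.trans (closedBall_subset_closedBall' ?_) h⟩
  have := mem_ball.1 hy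
  linarith

end

end Crest.Agent.R83.WeylAux
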