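import Crest.Agent.R83.WeylConv

/-!
Row 83: the radial kernels `ρ_s` and the mean value property of weakly harmonic functions.
-/

set_option autoImplicit false

open MeasureTheory Set Filter Topology Metric
open scoped Gradient ContDiff RealInnerProductSpace ENNReal

namespace Crest.Agent.R83.WeylAux

noncomputable section

/-- the cut-off profile -/
def chi : ℝ → ℝ := step (1 / 4) (1 / 2)

lemma chi_smooth : ContDiff ℝ ∞ chi := step_contDiff _ _

lemma dchi_smooth : ContDiff ℝ ∞ (deriv chi) := (contDiff_infty_iff_deriv.1 chi_smooth).2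

lemma chi_hasDerivAt (q : ℝ) : HasDerivAt chi (deriv chi q) q := step_hasDerivAt _ _ _

lemma chi_zero {q : ℝ} (h : q ≤ 1 / 4) : chi q = 0 := step_of_le (by norm_num) h

lemma chi_one {q : ℝ} (h : 1 / 2 ≤ q) : chi q = 1 := step_of_ge (by norm_num) h

lemma dchi_zero {q : ℝ} (h : q ≤ 1 / 4 ∨ 1 / 2 ≤ q) : deriv chi q = 0 :=
  deriv_step_eq_zero (by norm_num) h

lemma dchi_nonneg (q : ℝ) : 0 ≤ deriv chi q := deriv_step_nonneg (by norm_num) q

lemma contDiff_mul_inv_sqrt {f : ℝ → ℝ} (hf : ContDiff ℝ ∞ f) {a : ℝ} (ha : 0 < a)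
    (h0 : ∀ q, q ≤ a → f q = 0) (n : ℕ) : ContDiff ℝ ∞ (fun q => f q * (√q)⁻¹ ^ n) := by
  rw [contDiff_iff_contDiffAt]
  intro q
  by_cases hq : q < a
  · refine (contDiffAt_const (c := (0 : ℝ))).congr_of_eventuallyEq ?_
    filter_upwards [eventually_lt_nhds hq] with r hr
    rw [h0 r hr.le, zero_mul]
  · have hq0 : 0 < q := lt_of_lt_of_le ha (not_lt.1 hq)
    exact hf.contDiffAt.mul
      (((Real.contDiffAt_sqrt hq0.ne').inv (Real.sqrt_pos.2 hq0).ne').pow n)

/-- profile of the kernel -/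
def kp (s q : ℝ) : ℝ := 2 / s ^ 2 * deriv chi (q / s ^ 2) * (√q)⁻¹ ^ 1

/-- the kernel -/
def rho (s : ℝ) (y : E) : ℝ := kp s (‖y‖ ^ 2)

lemma kp_smooth {s : ℝ} (hs : 0 < s) : ContDiff ℝ ∞ (kp s) := by
  refine contDiff_mul_inv_sqrt (f := fun q => 2 / s ^ 2 * deriv chi (q / s ^ 2))
    (contDiff_const.mul (dchi_smooth.comp (contDiff_id.div_const _))) (a := s ^ 2 / 4)
    (by positivity) (fun q hq => ?_) 1
  rw [dchi_zero (Or.inl ?_), mul_zero]
  rw [div_le_iff₀ (by positivity)]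
  linarith

lemma kp_zero {s q : ℝ} (hs : 0 < s) (hq : s ^ 2 ≤ q) : kp s q = 0 := by
  unfold kp
  rw [dchi_zero (Or.inr ?_), mul_zero, zero_mul]
  rw [le_div_iff₀ (by positivity)]
  nlinarith [sq_nonneg s]

lemma rho_zero {s : ℝ} (hs : 0 < s) {y : E} (hy : y ∉ closedBall (0 : E) s) : rho s y = 0 := by
  rw [mem_closedBall_zero_iff, not_le] at hy
  exact kp_zero hs (pow_le_pow_left₀ hs.le hy.le 2)

lemma rho_test {s : ℝ} (hs : 0 < s) : Test univ (rho s) :=
  Test.of_zero_off ((kp_smooth hs).comp (contDiff_norm_sq ℝ)) (isCompact_closedBall 0 s)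
    (subset_univ _) (fun _ hy => rho_zero hs hy)

lemma rho_nonneg (s : ℝ) (y : E) : 0 ≤ rho s y := by
  unfold rho kp
  have := dchi_nonneg (‖y‖ ^ 2 / s ^ 2)
  positivity

lemma rho_scale {s : ℝ} (hs : 0 < s) (y : E) : rho s y = (s ^ 3)⁻¹ * rho 1 (s⁻¹ • y) := by
  unfold rho kp
  rw [norm_smul, Real.sqrt_sq (norm_nonneg _), Real.sqrt_sq (by positivity), norm_inv,
    Real.norm_of_nonneg hs.le]
  have e : (s⁻¹ * ‖y‖) ^ 2 / 1 ^ 2 = ‖y‖ ^ 2 / s ^ 2 := by field_simp
  rw [e]
  field_simp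

lemma integral_rho {s : ℝ} (hs : 0 < s) : ∫ y, rho s y = ∫ y, rho 1 y := by
  simp only [rho_scale hs]
  rw [integral_const_mul, Measure.integral_comp_inv_smul_of_nonneg volume (rho 1) hs.le,
    finrank_euclideanSpace_fin, smul_eq_mul, ← mul_assoc, inv_mul_cancel₀ (by positivity), one_mul]

lemma integral_rho_pos : 0 < ∫ y, rho 1 y := by
  obtain ⟨q, hq, hd⟩ := exists_deriv_eq_slope chi (a := 1 / 4) (b := 1 / 2) (by norm_num)
    chi_smooth.continuous.continuousOn (chi_smooth.differentiable (by simp)).differentiableOn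
  rw [chi_one le_rfl, chi_zero le_rfl] at hd
  have hq0 : 0 < q := lt_trans (by norm_num) hq.1
  refine (rho_test one_pos).continuous.integral_pos_of_hasCompactSupport_nonneg_nonzero
    (x := EuclideanSpace.single 0 (√q)) (rho_test one_pos).cpt (rho_nonneg 1) ?_
  unfold rho kp
  rw [PiLp.norm_single, Real.norm_of_nonneg (Real.sqrt_nonneg _), Real.sq_sqrt hq0.le,
    one_pow, div_one, div_one, hd]
  have := Real.sqrt_pos.2 hq0
  positivity

lemma rho_bound : ∃ M : ℝ, 0 ≤ M ∧ ∀ s, 0 < s → ∀ y, rho s y ≤ (s ^ 3)⁻¹ * M := by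
  obtain ⟨M, hM0, hM⟩ := (rho_test one_pos).exists_bound
  refine ⟨M, hM0, fun s hs y => ?_⟩
  rw [rho_scale hs]
  exact mul_le_mul_of_nonneg_left ((le_abs_self _).trans (hM _).1) (by positivity)

/-! ### the potential of `ρ_t - ρ_s` -/

/-- derivative of the profile of the potential -/
def hp (s t q : ℝ) : ℝ := (chi (q / t ^ 2) - chi (q / s ^ 2)) / 2 * (√q)⁻¹ ^ 3

lemma hp_small {s t q : ℝ} (hs : 0 < s) (hst : s ≤ t) (hq : q ≤ s ^ 2 / 4) :
    (chi (q / t ^ 2) - chi (q / s ^ 2)) / 2 = 0 := by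
  have ht : 0 < t := hs.trans_le hst
  have h2 : s ^ 2 ≤ t ^ 2 := pow_le_pow_left₀ hs.le hst 2
  rw [chi_zero, chi_zero, sub_self, zero_div] <;> rw [div_le_iff₀ (by positivity)] <;> linarith

lemma hp_smooth {s t : ℝ} (hs : 0 < s) (hst : s ≤ t) : ContDiff ℝ ∞ (hp s t) :=
  contDiff_mul_inv_sqrt (f := fun q => (chi (q / t ^ 2) - chi (q / s ^ 2)) / 2)
    (((chi_smooth.comp (contDiff_id.div_const _)).sub
      (chi_smooth.comp (contDiff_id.div_const _))).div_const _) (a := s ^ 2 / 4)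
    (by positivity) (fun _ hq => hp_small hs hst hq) 3

lemma hp_large {s t q : ℝ} (hs : 0 < s) (hst : s ≤ t) (hq : t ^ 2 ≤ q) : hp s t q = 0 := by
  have ht : 0 < t := hs.trans_le hst
  have h2 : s ^ 2 ≤ t ^ 2 := pow_le_pow_left₀ hs.le hst 2
  have h3 : 0 < s ^ 2 := by positivity
  unfold hp
  rw [chi_one, chi_one, sub_self, zero_div, zero_mul] <;> rw [le_div_iff₀ (by positivity)] <;>
    linarith

lemma hp_ode {s t q : ℝ} (hs : 0 < s) (hst : s ≤ t) (hq : 0 ≤ q) :
    6 * hp s t q + 4 * q * deriv (hp s t) q = kp t q - kp s q := by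
  rcases hq.eq_or_lt with rfl | hq
  · simp [hp, kp]
  · have ht : 0 < t := hs.trans_le hst
    have hr : 0 < √q := Real.sqrt_pos.2 hq
    have h1 : ∀ a : ℝ, HasDerivAt (fun q => chi (q / a ^ 2)) (deriv chi (q / a ^ 2) * (1 / a ^ 2))
        q := fun a => (chi_hasDerivAt _).comp q ((hasDerivAt_id q).div_const _)
    have h2 := (((h1 t).sub (h1 s)).div_const 2).mul
      (((Real.hasDerivAt_sqrt hq.ne').inv hr.ne').pow 3)
    have h3 : deriv (hp s t) q = _ := h2.deriv
    rw [h3]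
    unfold hp kp
    simp only [Pi.sub_apply, Pi.pow_apply, Pi.inv_apply]
    obtain ⟨r, hr0, rfl⟩ : ∃ r, 0 < r ∧ q = r ^ 2 := ⟨√q, hr, (Real.sq_sqrt hq.le).symm⟩
    rw [Real.sqrt_sq hr0.le, show (3 - 1 : ℕ) = 2 from rfl]
    push_cast
    field_simp
    ring

lemma hasFDerivAt_nsq (x y : E) : HasFDerivAt (fun y : E => ‖x - y‖ ^ 2)
    (2 • (innerSL ℝ (x - y)).comp (0 - ContinuousLinearMap.id ℝ E)) y :=
  ((hasFDerivAt_const x y).sub (hasFDerivAt_id y)).norm_sq

lemma grad_radial {β : ℝ → ℝ} (hβ : Differentiable ℝ β) (x y : E) (i : Fin 3) :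
    ∇ (fun y : E => β (‖x - y‖ ^ 2)) y i = -(2 * deriv β (‖x - y‖ ^ 2) * (x i - y i)) := by
  rw [grad_comp (hβ _).hasDerivAt (hasFDerivAt_nsq x y).differentiableAt, PiLp.smul_apply,
    grad_apply, (hasFDerivAt_nsq x y).fderiv]
  simp [EuclideanSpace.inner_single_right]
  ring

lemma mean_value {U : Set E} {u : E → ℝ} {g : E → E} (H : IsH univ u g)
    (hh : ∀ η, Test U η → ∫ x, ⟪g x, ∇ η x⟫ = 0) {s t : ℝ} (hs : 0 < s) (hst : s ≤ t) {x : E}
    (hx : closedBall x t ⊆ U) : cv u (rho t) x = cv u (rho s) x := by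
  have ht : 0 < t := hs.trans_le hst
  have hsm := hp_smooth hs hst
  let Ψ : ℝ → ℝ := fun q => ∫ r in (t ^ 2)..q, hp s t r
  have hΨ : ∀ q, HasDerivAt Ψ (hp s t q) q := fun q =>
    (hsm.continuous.integral_hasStrictDerivAt _ q).hasDerivAt
  have hΨd : deriv Ψ = hp s t := funext fun q => (hΨ q).deriv
  have hΨs : ContDiff ℝ ∞ Ψ :=
    contDiff_infty_iff_deriv.2 ⟨fun q => (hΨ q).differentiableAt, hΨd ▸ hsm⟩
  have hn : ContDiff ℝ ∞ (fun y : E => ‖x - y‖ ^ 2) :=
    (contDiff_norm_sq ℝ).comp (contDiff_const.sub contDiff_id)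
  have hη : Test U (fun y => Ψ (‖x - y‖ ^ 2)) := by
    refine Test.of_zero_off (hΨs.comp hn) (isCompact_closedBall x t) hx fun y hy => ?_
    rw [mem_closedBall', dist_eq_norm, not_le] at hy
    have h1 : t ^ 2 ≤ ‖x - y‖ ^ 2 := pow_le_pow_left₀ ht.le hy.le 2
    change ∫ r in (t ^ 2)..(‖x - y‖ ^ 2), hp s t r = 0
    rw [intervalIntegral.integral_congr (g := fun _ => 0), intervalIntegral.integral_zero]
    intro r hr
    rw [uIcc_of_le h1] at hr
    exact hp_large hs hst hr.1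
  have hg1 : ∀ i, (fun y => ∇ (fun y : E => Ψ (‖x - y‖ ^ 2)) y i) =
      fun y => -(2 * hp s t (‖x - y‖ ^ 2) * (x i - y i)) := fun i => funext fun y => by
    rw [grad_radial (fun q => (hΨ q).differentiableAt), hΨd]
  have hg2 : ∀ i y, ∇ (fun y => ∇ (fun y : E => Ψ (‖x - y‖ ^ 2)) y i) y i =
      2 * hp s t (‖x - y‖ ^ 2) + 4 * deriv (hp s t) (‖x - y‖ ^ 2) * (x i - y i) ^ 2 := by
    intro i y
    have hd : Differentiable ℝ (hp s t) := hsm.differentiable (by simp)
    have d1 : DifferentiableAt ℝ (fun y : E => hp s t (‖x - y‖ ^ 2)) y :=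
      (hd _).comp y (hasFDerivAt_nsq x y).differentiableAt
    have d2 : DifferentiableAt ℝ (fun y : E => x i - y i) y := by fun_prop
    rw [hg1, grad_neg, grad_mul (d1.const_mul 2) d2, grad_const_mul, grad_const_sub, grad_coord]
    simp only [PiLp.neg_apply, PiLp.add_apply, PiLp.smul_apply, grad_radial hd, smul_eq_mul,
      PiLp.single_apply, if_true]
    ring
  have hI : ∀ i, ∫ y, ∇ (fun y : E => Ψ (‖x - y‖ ^ 2)) y i * g y i =
      -∫ y, u y * ∇ (fun y => ∇ (fun y : E => Ψ (‖x - y‖ ^ 2)) y i) y i := fun i =>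
    H.integral_mul_apply (test_partial hη.univ i) i
  have hgi : ∀ i, MemLp (fun y => g y i) 2 volume := fun i =>
    (EuclideanSpace.proj (𝕜 := ℝ) i).comp_memLp' H.memg
  have hi1 : ∀ i, Integrable (fun y => ∇ (fun y : E => Ψ (‖x - y‖ ^ 2)) y i * g y i) := fun i =>
    integrable_mul' (test_partial hη.univ i).memLp (hgi i)
  have hi2 : ∀ i, Integrable (fun y =>
      u y * ∇ (fun y => ∇ (fun y : E => Ψ (‖x - y‖ ^ 2)) y i) y i) := fun i =>
    integrable_mul' H.memu (test_partial (test_partial hη.univ i) i).memLp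
  have h0 := hh _ hη
  have e1 : ∀ y, ⟪g y, ∇ (fun y : E => Ψ (‖x - y‖ ^ 2)) y⟫ =
      ∑ i, ∇ (fun y : E => Ψ (‖x - y‖ ^ 2)) y i * g y i := fun y => by
    rw [inner_eq_three, Fin.sum_univ_three]; ring
  simp only [e1] at h0
  rw [integral_finsetSum _ (fun i _ => hi1 i)] at h0
  simp only [hI] at h0
  rw [Finset.sum_neg_distrib, neg_eq_zero, ← integral_finsetSum _ (fun i _ => hi2 i)] at h0
  rw [cv_apply, cv_apply, ← sub_eq_zero, ← integral_sub
    (integrable_mul' H.memu (memLp_sub_left (rho_test ht) x))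
    (integrable_mul' H.memu (memLp_sub_left (rho_test hs) x)), ← h0]
  refine integral_congr_ae (Eventually.of_forall fun y => ?_)
  have e2 := hp_ode hs hst (sq_nonneg ‖x - y‖)
  have e3 := norm_sq_eq_three (x - y)
  simp only [PiLp.sub_apply] at e3
  simp only [hg2, Fin.sum_univ_three, rho]
  rw [← mul_sub, ← e2]
  linear_combination (4 * u y * deriv (hp s t) (‖x - y‖ ^ 2)) * e3

lemma ae_tendsto_cv {u : E → ℝ} (hu : MemLp u 2 volume) :
    ∀ᵐ x, Tendsto (fun s => cv u (rho s) x) (𝓝[>] 0) (𝓝 ((∫ y, rho 1 y) * u x)) := by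
  obtain ⟨M, hM0, hM⟩ := rho_bound
  filter_upwards [IsUnifLocDoublingMeasure.ae_tendsto_average_norm_sub (volume : Measure E)
    (locInt hu) 1] with x hx
  have h1 := hx (l := 𝓝[>] (0 : ℝ)) (fun _ => x) id tendsto_id (by
    filter_upwards [self_mem_nhdsWithin] with s hs
    exact mem_closedBall_self (by rw [one_mul]; exact le_of_lt hs))
  have h2 := h1.const_mul (M * (volume : Measure E).real (closedBall 0 1))
  rw [mul_zero] at h2
  rw [tendsto_iff_norm_sub_tendsto_zero]
  refine squeeze_zero' (Eventually.of_forall fun _ => norm_nonneg _) ?_ h2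
  filter_upwards [self_mem_nhdsWithin] with s hs
  have hs : 0 < s := hs
  have hk := memLp_sub_left (rho_test hs) x
  have hki : Integrable (fun y => rho s (x - y)) :=
    ((rho_test hs).continuous.comp (continuous_const.sub continuous_id)
      ).integrable_of_hasCompactSupport ((rho_test hs).cpt.comp_homeomorph (Homeomorph.subLeft x))
  have e1 : cv u (rho s) x - (∫ y, rho 1 y) * u x = ∫ y, (u y - u x) * rho s (x - y) := by
    rw [cv_apply, ← integral_rho hs, ← integral_sub_left_eq_self (rho s) volume x, mul_comm,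
      ← integral_const_mul, ← integral_sub (integrable_mul' hu hk) (hki.const_mul _)]
    simp only [sub_mul]
  have hio : IntegrableOn (fun y => ‖u y - u x‖) (closedBall x s) :=
    (((locInt hu).integrableOn_isCompact (isCompact_closedBall x s)).sub
      (integrableOn_const (isCompact_closedBall x s).measure_lt_top.ne)).norm
  have hv : 0 < (volume : Measure E).real (closedBall 0 1) :=
    ENNReal.toReal_pos (measure_closedBall_pos volume _ one_pos).ne'
      (isCompact_closedBall _ _).measure_lt_top.ne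
  have e2 : M * (volume : Measure E).real (closedBall 0 1) *
      ⨍ y in closedBall x (id s), ‖u y - u x‖ =
      ∫ y, (closedBall x s).indicator (fun y => (s ^ 3)⁻¹ * M * ‖u y - u x‖) y := by
    rw [integral_indicator measurableSet_closedBall, integral_const_mul, setAverage_eq, id,
      Measure.addHaar_real_closedBall' volume x hs.le, finrank_euclideanSpace_fin, smul_eq_mul]
    field_simp
  rw [e1, e2]
  refine norm_integral_le_of_norm_le
    (IntegrableOn.integrable_indicator (hio.const_mul _) measurableSet_closedBall)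
    (Eventually.of_forall fun y => ?_)
  by_cases hy : y ∈ closedBall x s
  · rw [indicator_of_mem hy, norm_mul, Real.norm_of_nonneg (rho_nonneg _ _), mul_comm]
    exact mul_le_mul_of_nonneg_right (hM s hs _) (norm_nonneg _)
  · rw [indicator_of_notMem hy, rho_zero hs, mul_zero, norm_zero]
    rwa [mem_closedBall_zero_iff, ← dist_eq_norm, ← mem_closedBall']

end

end Crest.Agent.R83.WeylAux
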